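import Vale.Agent.P057R3.Defs

/-!
BLUEPRINT for r_3(N) <= N exp(-c (log N / loglog N)^{1/6}).   k := 1/1000 below.

[W1] Weights1.lean: Zf_pos .. bt_tilt.  Direct from the definitions.
  bt_shift: N(x) = N(x+t-t) <= N(x+t)+N(t).  sb_shift: sqrt of bt_shift.

[W2] Weights2.lean: Zf_ratio .. bt_smooth.
  E e^{th N/2} = Z(th/2)/Z(th) <= e^D.  Zf_ratio: E e^{sN} <= (E e^{th N/2})^{2s/th} (concavity of
  x^{2s/th}, Jensen, or Hoelder).  bt_mean: exp(E(th N/2)) <= E e^{th N/2} <= e^D.  bt_exp_neg: Jensen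
  E e^{-sN} >= e^{-s E N}.  bt_tail: 1[N>=a] <= e^{th (N-a)/2}.
  bt_smooth: sum_x sum_t b(x)b'(t)g(x+t) = sum_y g(y) sum_t b'(t) b(y-t), b(y) <= e^{th N(t)} b(y-t),
  sum_t b'(t) e^{-th N(t)} >= e^{-2 th D/th'}.

[G1] Bohr.lean: isNrm_NG, NG_add, norm_one_sub_char_le.  Key: for y : ZMod M and any integer k
  with (k : ZMod M) = y one has |valMinAbs y| <= |k| (ZMod.natAbs_min_of_le_div_two or similar), hence
  nrm (x+y) <= nrm x + nrm y.  stdAddChar y = exp(2 pi i v / M), v = valMinAbs y, |exp(i phi)-1| <= |phi|.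

[G2] DblNG.lean: dbl_NG.  Let rho=1/th, T = #{x : nrm(r x) <= rho for all r in Gamma}.
  Claim by induction on Gamma: for f >= 0 such that sum_{x in S} f(x) <= T for every set S with
  nrm(r(x-y)) <= rho for all x,y in S, r in Gamma: sum_x f(x) exp(-th N_Gamma(x)/2) <= c^d T with
  c = 2/(1-e^{-1/2}) <= 5.1 (cells: sign of valMinAbs(r x) and floor(th nrm(r x)) = j, weight e^{-j/2}).
  For f=1 every such S has |S| <= T (translate by an element of S).  So Z(th/2) <= 5.1^d T, and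
  Z(th) >= e^{-d} T.  Total (5.1 e)^d <= e^{4d}.

[G3] SizeNG.lean: Zf_NG_ge.  Pigeonhole: valMinAbs/M in (-1/2,1/2] is cut in ceil(th) <= 2 th cells of
  length <= 1/th, so some cell product has >= M/(2 th)^d points, all differences x-x0 have
  nrm(r(x-x0)) <= 1/th, so Z(th) >= e^{-d} M/(2 th)^d.

[H] Half.lean.  z = 2 * (2^{-1} z) bijection, 2 is a unit as M is odd.  isNrm_hf needs nothing.

[C] Centre.lean.  By bt_smooth alpha <= e^k E_{x~b0} a(x), a(x)=dens th_a (c0+x), same for b.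
  E[((1+eta)al-a)+((1+eta)al-a')] <= 2(eta+kappa) al and both terms >= 0, so some x has both
  <= 2(eta+kappa) al.  (kappa >= 0 follows from D >= 0, which follows from Dbl; e^{-k}>=1-k.)

[L] Lift.lean.  b = sb.  For z in A: (F*F)(2z) = F(z)^2 <= 1/Z (3AP free: y+(2z-y)=z+z gives y=z).
  (F*b)(w) >= e^{-u} al, u = th N(w)/2, w=2z: u <= th N(z) ; (b*b)(w) <= 1.
  -h*h(2z) >= al^2 (2e^{-u}-1) - 1/Z >= 0.997 al^2 if z in A, N(z) <= 1/(1000 th).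
  The other z have mass <= exp(D - th2/(2000 th)) <= a2/2.  p even so other terms are >= 0.

[E] Decouple.lean.  g = cv h h.  sum_z b_{N,th2}(z) g(2z)^p = sum_w b_{hf N,th2}(w) g(w)^p
  <= e^{4 D th2/th1} sum_w b(w) sum_{t,t'} b1(t)b1(t') g(w+t-t')^p   (bt_smooth twice, bt even).
  For fixed w: g(w+t-t') = sum_s h(t+s) h(w-t'-s), so (Fintype.sum_pow / prod_univ_sum)
  sum_{t,t'} b1 b1 g(w+t-t')^p = sum_{s in G^p} [sum_t b1(t) prod h(t+s_i)][sum_t' b1(t') prod h(w-t'-s_i)]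
  <= Cauchy-Schwarz, each factor^2 summed over s is Mom b1 (cr h h) p.
  Mom_cr_nonneg: Mom b (cr h h) j = sum_s (sum_t b(t) prod h(s_i+t))^2.

[U] Unbalance.lean.  X = cr h h / al^2, Y = cr F F / al^2 >= 0.  For w with th N(w)/2 = u <= 1/2:
  |1+X(w)| <= Y(w)+4u  (cr F b, cr b F in al e^{+-u}, cr b b in [e^{-u},1]).
  E(1+X)^{6p} = sum_j C(6p,j) E X^j >= C(6p,p) E X^p >= 6^p 2^{-p} = 3^p (Mom_cr_nonneg).
  Bad event N(t-t') > 1/(1000 th) is inside {N'(t) or N'(t') > 1/(4000 th)}: probability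
  <= 2exp(D-th1/(8000 th)), there |1+X|^{6p} <= (2/al^2)^{6p}: total <= 1.
  Good event |1+X| <= Y+1/500.  (Y+1/500)^n <= (21/20)^n Y^n + (42/1000)^n.  So with n=6p >= 12
  E Y^n >= (3^p-2)/(21/20)^n >= (11/10)^n since 3^p - 2 >= (1.155)^{6p} (1.155^6 = 2.3742).

[M] Moments.lean.  Mom_FA: cr F F(0) = sum F^2 = al, cr F F(w) <= al by Cauchy-Schwarz; positivity
  from t=t'.   [NC] NearConst.lean: ratios r_j = m_j/m_{j-1} nondecreasing, <= a, r_P >= 1.1a^2.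

[S1] Sift1.lean.  N(s)=Nsf.  f(t-t') = sum_s F(s+t)F(s+t').  sum_s N(s)^2 = Mom p =: m.
  sum_s (double sum with Psi) = sum_{t,t'} b b f^p Psi <= sum b b f^{p-1}(f-F0)^2/F0
  = m_{p+1}/F0 + F0 m_{p-1} - 2 m_p <= m_p/(3 10^9).  Bad s: N(s) < al^p/8 prod b(s_i):
  sum_bad N^2 <= al^p/8 sum_s N(s) prod b(s_i) = al^p/8 E_t (sum_s b(s)F(s+t))^p
  <= al^p/8 al^p E_t e^{p th N(t)/2} <= al^{2p}/8 * e^{1/2} <= m/4.  (N <= 2N', bt_exp.)
  So good s with N(s)>0 carry 3/4 of the mass; one of them has double sum <= (4/9) 10^{-9} N(s)^2.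

[S2] Sift2.lean.  lam(t) = b1(t) prod F(s_i+t)/N(s).  F(s_i+t) <= e^{th N(t)/2} b(s_i), so
  lam <= 8 al^{-p} b1(t) e^{p th N'(t)} = 8 al^{-p} (Z(th1-p th)/Z(th1)) bt(th1-p th) <= 16 al^{-p} bt.
  E Psi <= 5 10^{-10} with Psi = (x-1)^2/x, x = f/F0 (f(t-t')>0 where lam(t)lam(t')>0): if x < 1-k then
  Psi > k^2 so P <= 1/2000; x-1 <= k + Psi (1+k)/k; E x >= (1-k)(1-k/2).

[P] Sampling.lean.  Y=phi-E phi in [-1,1]: E e^{sY} <= cosh s <= e^{s^2/2}; z^{2j} <= (2j)! cosh z;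
  s^2=2j/m; (2j)! <= (2j)^{2j}:  E (sum Y)^{2j} <= (2 j m e)^j.

[X1] CS1.lean.  For every x: sampling with mu=lam, phi(t)=ind S (x-t).  Average over x~bt thp:
  lam^m(bad) <= 2^{-q} <= 1/4 (Markov, 3q/m <= (eps/2)^2).  Then
  sum_{a'} prod bt_p(a'_i) sum_u b5(u) 1[a'+u good] = sum_u b5(u) sum_{a good} prod bt_p(a_i-u)
  >= E_u e^{-m thp N(u)} sum_{a good} prod bt_p(a_i) >= e^{-1/2} e^{-qm} 3/4, so some a' works.

[X2] CS2.lean.  m = 3 10^9 q, eps=1/15000.  X = {u : a+u good, N(u) <= 1/(2 thp)}; tail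
  exp(D-th5/(4 thp)) <= e^{-qm}/8.  For u,u' in X: |k(x+u-u')-k(x)| <= |k(x+u-u') - k_a(x-u')| +
  |k_a(x-u')-k(x)|, k_{a+u}(y) = k_a(y-u); L^q(bt_p) norms: first <= e^{1/q} eps (shift by u-u' with
  N <= 1/thp), second <= eps; E_lam |.| <= (E_lam|.|^q)^{1/q} <= e ||.||_{L^q(bt_p)} <= 7.2 eps <= 1/2000.
  pr lam (ind S) (u-u') = sum_x lam(x) kf(x+u-u').   (Use power means or Minkowski or
  (x+y)^q <= 2^{q-1}(x^q+y^q), whichever is easiest: factor 2 e eps (1+e)<=1/2000 is also true for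
  eps=1/50000; you are free to choose eps and m, only the final constants 10^12 matter.)

[F] Fourier.lean.  parseval, ft_sm, pr_cr_zero, sum_pr_cr: orthogonality of stdAddChar / expansions.
[SP] Spectral.lean.  W_r=|ft F|^2|ft lam|^2/M, Z0=sum W_r.  sum W_r|ft xi|^2 >= (1-4k)Z0 so the
  mass of {|ft xi|^2<1/2} is <= 8k Z0; sum W_r|ft b3|^2 >= (1-2k)(1-8k)Z0.

[R1] Riesz.lean.  k=card.  By bt_smooth k times: E_{b5} P <= e^{2kD th5/th'} E_{x~b5 * b'^{(k)}} P; expand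
  P = sum_{eps in {-1,0,1}^Lambda} prod(c/4 or conj c/4) e(omega x): |E| <= 1+ sum_{eps ne 0} 4^{-|eps|} 2^{-k}
  <= 1 + (3/2)^k 2^{-k} <= 2.
[R2] DissocCard.lean.  c_l = conj phase of ft; xi=b5|X normalised: E_xi P <= e^R 4.  Jensen: log E_xi P >=
  sum_l E_xi log(1+y_l) >= sum_l (|xi^(l)|/2 - 1/4) >= n(1/(2 sqrt 2)-1/4) >= 0.1035 n.  n <= 24 R.
[R3] Chang.lean.  Maximal dissociated Lambda inside the spectrum; r = sum eps_l l + r' with
  |ft b' r'| > 1/2 which gives |1-e(r'x)| <= 4 th' N(x):  ft(r')(e(r'x)-1) = sum (b'(t-x)-b'(t))e(r't).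

[V] DensUpper.lean.  sm b3 (sm lam F) z = sum_t lam(t) sum_x b3(x) F(z+x+t), F(z+x+t) <= 1_A(z+t+x)
  e^{th N(x)/2} b(z+t); sum_x b3(x) e^{th N3(x)} 1_A(y+x) = (Z(th3-th)/Z(th3)) dens(y) <= (1+k) Ds.
  So sum_z (.)^2 <= (1+k)Ds sum_{t,t',x} lam lam b3(x) sum_z b(z+t)F(z+x+t') and
  sum_z b(z+t) F(z+x+t') <= e^{th(N(t)+N(t')+N(x))/2} al.  E_lam e^{th N'} <= (E_lam e^{n th N'})^{1/n}
  <= (e^q e^{2 n th D/thp})^{1/n}, n=2000 q.
-/
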