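import Vale.Agent.P057R3.Defs

/-!
[G1] The concrete weights.
-/

namespace Vale.Agent.P057R3

open Finset

set_option linter.unusedSectionVars false

variable {M : ℕ} [NeZero M]

namespace Bohr

theorem nrm_nonneg (y : ZMod M) : 0 ≤ nrm y := div_nonneg (abs_nonneg _) (Nat.cast_nonneg _)

theorem nrm_zero : nrm (0 : ZMod M) = 0 := by
  unfold nrm; simp [ZMod.valMinAbs_zero]

theorem nrm_eq (y : ZMod M) : nrm y = (y.valMinAbs.natAbs : ℝ) / M := by
  unfold nrm
  congr 1
  rw [Nat.cast_natAbs, Int.cast_abs]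

theorem nrm_neg (y : ZMod M) : nrm (-y) = nrm y := by
  rw [nrm_eq, nrm_eq, ZMod.natAbs_valMinAbs_neg]

theorem nrm_add (x y : ZMod M) : nrm (x + y) ≤ nrm x + nrm y := by
  rw [nrm_eq, nrm_eq, nrm_eq, ← add_div]
  refine div_le_div_of_nonneg_right ?_ (Nat.cast_nonneg _)
  have h1 := ZMod.natAbs_valMinAbs_add_le x y
  have h2 := Int.natAbs_add_le x.valMinAbs y.valMinAbs
  exact_mod_cast h1.trans h2

/-- difference bound through representatives -/
theorem nrm_sub_le (x y : ZMod M) :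
    nrm (x - y) ≤ |(x.valMinAbs : ℝ) / M - (y.valMinAbs : ℝ) / M| := by
  have hM : (0 : ℝ) < M := by exact_mod_cast NeZero.pos M
  rw [nrm_eq, ← sub_div, abs_div, abs_of_pos hM]
  refine div_le_div_of_nonneg_right ?_ hM.le
  have h1 : ((x.valMinAbs - y.valMinAbs : ℤ) : ZMod M) = x - y := by
    rw [Int.cast_sub, ZMod.coe_valMinAbs, ZMod.coe_valMinAbs]
  have h2 : (x - y).valMinAbs.natAbs ≤ (x.valMinAbs - y.valMinAbs).natAbs := by
    have h3 := ZMod.natAbs_min_of_le_div_two M (x - y).valMinAbs (x.valMinAbs - y.valMinAbs)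
      (by rw [ZMod.coe_valMinAbs, h1]) (ZMod.natAbs_valMinAbs_le _)
    exact h3
  have h4 : (((x - y).valMinAbs.natAbs : ℕ) : ℝ) ≤
      (((x.valMinAbs - y.valMinAbs).natAbs : ℕ) : ℝ) := by exact_mod_cast h2
  refine h4.trans (le_of_eq ?_)
  rw [Nat.cast_natAbs]
  push_cast
  rfl

end Bohr

open Vale.Agent.P057R3.Bohr

theorem NG_add (Γ Γ' : Multiset (ZMod M)) (x : ZMod M) :
    NG (Γ + Γ') x = NG Γ x + NG Γ' x := by
  unfold NG
  rw [Multiset.map_add, Multiset.sum_add]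

theorem Bohr.NG_cons (r : ZMod M) (Γ : Multiset (ZMod M)) (x : ZMod M) :
    NG (r ::ₘ Γ) x = nrm (r * x) + NG Γ x := by
  unfold NG
  rw [Multiset.map_cons, Multiset.sum_cons]

theorem isNrm_NG (Γ : Multiset (ZMod M)) : IsNrm (NG Γ) := by
  induction Γ using Multiset.induction_on with
  | empty => exact ⟨fun x => by simp [NG], by simp [NG], fun x => by simp [NG],
      fun x y => by simp [NG]⟩
  | cons r Γ ih =>
    refine ⟨fun x => ?_, ?_, fun x => ?_, fun x y => ?_⟩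
    · rw [Bohr.NG_cons]; exact add_nonneg (nrm_nonneg _) (ih.nonneg x)
    · rw [Bohr.NG_cons, ih.zero, mul_zero, nrm_zero, add_zero]
    · rw [Bohr.NG_cons, Bohr.NG_cons, ih.neg, mul_neg, nrm_neg]
    · rw [Bohr.NG_cons, Bohr.NG_cons, Bohr.NG_cons, mul_add]
      have h1 := nrm_add (r * x) (r * y)
      have h2 := ih.add x y
      linarith

theorem norm_one_sub_char_le (y : ZMod M) : ‖1 - ZMod.stdAddChar y‖ ≤ 7 * nrm y := by
  have hM : (0 : ℝ) < M := by exact_mod_cast NeZero.pos M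
  have h1 : (ZMod.stdAddChar y : ℂ) =
      Complex.exp (Complex.I * ((2 * Real.pi * y.valMinAbs / M : ℝ) : ℂ)) := by
    conv_lhs => rw [← ZMod.coe_valMinAbs y, ZMod.stdAddChar_coe]
    congr 1
    push_cast
    ring
  rw [h1, norm_sub_rev]
  refine (Real.norm_exp_I_mul_ofReal_sub_one_le).trans ?_
  unfold nrm
  rw [Real.norm_eq_abs, abs_div, abs_mul, abs_of_pos hM, abs_of_pos (by positivity :
    (0 : ℝ) < 2 * Real.pi), mul_div_assoc]
  have h2 : 0 ≤ |(y.valMinAbs : ℝ)| / M := by positivity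
  have h3 : 2 * Real.pi ≤ 7 := by
    have := Real.pi_lt_d2
    linarith
  exact mul_le_mul_of_nonneg_right h3 h2

end Vale.Agent.P057R3
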