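import Vale.Agent.P057R3.Weights1

/-!
[W2] Doubling weights: exponential moments, tails, smoothing.
-/

namespace Vale.Agent.P057R3

open Finset

set_option linter.unusedVariables false

variable {M : ℕ} [NeZero M]

theorem Weights2.sum_exp (N : ZMod M → ℝ) (θ s : ℝ) :
    ∑ x, bt N θ x * Real.exp (s * N x) = Zf N (θ - s) / Zf N θ := by
  simp_rw [bt_tilt, ← Finset.mul_sum, (bt_pw N (θ - s)).2, mul_one]

theorem Weights2.sum_half {N : ZMod M → ℝ} {D : ℝ} (hD : Dbl N D) {θ : ℝ} (hθ : 0 < θ) :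
    ∑ x, bt N θ x * Real.exp (θ / 2 * N x) ≤ Real.exp D := by
  rw [Weights2.sum_exp, div_le_iff₀ (Zf_pos N θ)]
  have := hD θ hθ
  rw [show θ - θ / 2 = θ / 2 by ring]
  exact this

/-- Jensen for the exponential. -/
theorem Weights2.jensen {w : ZMod M → ℝ} (hw : PW w) (y : ZMod M → ℝ) :
    Real.exp (∑ x, w x * y x) ≤ ∑ x, w x * Real.exp (y x) := by
  set c := ∑ x, w x * y x with hc
  have h1 : ∀ x, w x * (Real.exp c * (1 + y x - c)) ≤ w x * Real.exp (y x) := by
    intro x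
    refine mul_le_mul_of_nonneg_left ?_ (hw.1 x)
    have h2 := Real.add_one_le_exp (y x - c)
    have h3 : Real.exp (y x) = Real.exp c * Real.exp (y x - c) := by
      rw [← Real.exp_add]; congr 1; ring
    rw [h3]
    refine mul_le_mul_of_nonneg_left ?_ (Real.exp_pos _).le
    linarith
  have h2 : ∑ x, w x * (Real.exp c * (1 + y x - c)) = Real.exp c := by
    have : ∀ x, w x * (Real.exp c * (1 + y x - c)) =
        Real.exp c * (w x * y x) + Real.exp c * (1 - c) * w x := fun x => by ring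
    simp_rw [this]
    rw [Finset.sum_add_distrib, ← Finset.mul_sum, ← Finset.mul_sum, hw.2, ← hc]
    ring
  rw [← h2]
  exact Finset.sum_le_sum fun x _ => h1 x

theorem Zf_ratio {N : ZMod M → ℝ} {D : ℝ} (hN : IsNrm N) (hD : Dbl N D) {θ s : ℝ}
    (hθ : 0 < θ) (hs : 0 ≤ s) (hs2 : 2 * s ≤ θ) :
    Zf N (θ - s) / Zf N θ ≤ Real.exp (2 * s * D / θ) := by
  rcases hs.eq_or_lt with h0 | h0
  · subst h0
    simp [div_self (Zf_pos N θ).ne']
  · rw [← Weights2.sum_exp]
    have hp : 1 ≤ θ / (2 * s) := by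
      rw [le_div_iff₀ (by linarith)]; linarith
    have h1 := Real.arith_mean_le_rpow_mean Finset.univ (fun x => bt N θ x)
      (fun x => Real.exp (s * N x)) (fun x _ => (bt_pos N θ x).le) (bt_pw N θ).2
      (fun x _ => (Real.exp_pos _).le) hp
    refine h1.trans ?_
    have h2 : ∀ x, Real.exp (s * N x) ^ (θ / (2 * s)) = Real.exp (θ / 2 * N x) := by
      intro x
      rw [← Real.exp_mul]
      congr 1
      field_simp
    simp_rw [h2]
    have h3 := Weights2.sum_half hD hθ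
    calc (∑ x, bt N θ x * Real.exp (θ / 2 * N x)) ^ (1 / (θ / (2 * s)))
        ≤ (Real.exp D) ^ (1 / (θ / (2 * s))) :=
          Real.rpow_le_rpow (Finset.sum_nonneg fun x _ =>
            mul_nonneg (bt_pos N θ x).le (Real.exp_pos _).le) h3 (by positivity)
      _ = Real.exp (2 * s * D / θ) := by
          rw [← Real.exp_mul]
          congr 1
          field_simp

theorem bt_exp {N : ZMod M → ℝ} {D : ℝ} (hN : IsNrm N) (hD : Dbl N D) {θ s : ℝ}
    (hθ : 0 < θ) (hs : 0 ≤ s) (hs2 : 2 * s ≤ θ) :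
    ∑ x, bt N θ x * Real.exp (s * N x) ≤ Real.exp (2 * s * D / θ) := by
  rw [Weights2.sum_exp]
  exact Zf_ratio hN hD hθ hs hs2

theorem bt_mean {N : ZMod M → ℝ} {D : ℝ} (hN : IsNrm N) (hD : Dbl N D) {θ : ℝ}
    (hθ : 0 < θ) : ∑ x, bt N θ x * N x ≤ 2 * D / θ := by
  have h1 := (Weights2.jensen (bt_pw N θ) (fun x => θ / 2 * N x)).trans (Weights2.sum_half hD hθ)
  have h2 : ∑ x, bt N θ x * (θ / 2 * N x) = θ / 2 * ∑ x, bt N θ x * N x := by
    rw [Finset.mul_sum]
    exact Finset.sum_congr rfl fun x _ => by ring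
  rw [h2] at h1
  have h3 := Real.exp_le_exp.1 h1
  rw [le_div_iff₀ hθ]
  linarith

theorem bt_exp_neg {N : ZMod M → ℝ} {D : ℝ} (hN : IsNrm N) (hD : Dbl N D) {θ s : ℝ}
    (hθ : 0 < θ) (hs : 0 ≤ s) :
    Real.exp (-(2 * s * D / θ)) ≤ ∑ x, bt N θ x * Real.exp (-(s * N x)) := by
  have h1 := Weights2.jensen (bt_pw N θ) (fun x => -(s * N x))
  refine le_trans (Real.exp_le_exp.2 ?_) h1
  have h2 : ∑ x, bt N θ x * -(s * N x) = -(s * ∑ x, bt N θ x * N x) := by
    rw [Finset.mul_sum, ← Finset.sum_neg_distrib]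
    exact Finset.sum_congr rfl fun x _ => by ring
  rw [h2]
  have h3 := mul_le_mul_of_nonneg_left (bt_mean hN hD hθ) hs
  have h4 : s * (2 * D / θ) = 2 * s * D / θ := by ring
  linarith

theorem bt_tail {N : ZMod M → ℝ} {D : ℝ} (hN : IsNrm N) (hD : Dbl N D) {θ : ℝ}
    (hθ : 0 < θ) (a : ℝ) :
    (∑ x, if a ≤ N x then bt N θ x else 0) ≤ Real.exp (D - θ * a / 2) := by
  have h1 : ∀ x, (if a ≤ N x then bt N θ x else 0) ≤
      Real.exp (-(θ * a / 2)) * (bt N θ x * Real.exp (θ / 2 * N x)) := by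
    intro x
    have hb := bt_pos N θ x
    split_ifs with h
    · have h2 : Real.exp (-(θ * a / 2)) * (bt N θ x * Real.exp (θ / 2 * N x)) =
          bt N θ x * Real.exp (θ / 2 * (N x - a)) := by
        rw [mul_left_comm, ← Real.exp_add]
        congr 2; ring
      rw [h2]
      refine le_mul_of_one_le_right hb.le (Real.one_le_exp ?_)
      have : 0 ≤ N x - a := by linarith
      positivity
    · positivity
  refine (Finset.sum_le_sum fun x _ => h1 x).trans ?_
  rw [← Finset.mul_sum]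
  calc Real.exp (-(θ * a / 2)) * ∑ x, bt N θ x * Real.exp (θ / 2 * N x)
      ≤ Real.exp (-(θ * a / 2)) * Real.exp D :=
        mul_le_mul_of_nonneg_left (Weights2.sum_half hD hθ) (Real.exp_pos _).le
    _ = Real.exp (D - θ * a / 2) := by
        rw [← Real.exp_add]; congr 1; ring

theorem bt_smooth {N : ZMod M → ℝ} {D : ℝ} (hN : IsNrm N) (hD : Dbl N D) {θ θ' : ℝ}
    (hθ : 0 ≤ θ) (hθ' : 0 < θ') {g : ZMod M → ℝ} (hg : ∀ x, 0 ≤ g x) :
    ∑ x, bt N θ x * g x ≤
      Real.exp (2 * θ * D / θ') * ∑ x, ∑ t, bt N θ x * bt N θ' t * g (x + t) := by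
  have h1 : ∑ x, ∑ t, bt N θ x * bt N θ' t * g (x + t) =
      ∑ t, bt N θ' t * ∑ y, bt N θ (y - t) * g y := by
    rw [Finset.sum_comm]
    refine Finset.sum_congr rfl fun t _ => ?_
    rw [Finset.mul_sum]
    refine Fintype.sum_equiv (Equiv.addRight t) _ _ fun x => ?_
    simp only [Equiv.coe_addRight, add_sub_cancel_right]
    ring
  have h2 : ∀ t, Real.exp (-(θ * N t)) * ∑ y, bt N θ y * g y ≤ ∑ y, bt N θ (y - t) * g y := by
    intro t
    rw [Finset.mul_sum]
    refine Finset.sum_le_sum fun y _ => ?_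
    rw [← mul_assoc]
    refine mul_le_mul_of_nonneg_right ?_ (hg y)
    have h3 := bt_shift hN hθ (y - t) t
    rw [sub_add_cancel] at h3
    calc Real.exp (-(θ * N t)) * bt N θ y
        ≤ Real.exp (-(θ * N t)) * (Real.exp (θ * N t) * bt N θ (y - t)) :=
          mul_le_mul_of_nonneg_left h3 (Real.exp_pos _).le
      _ = bt N θ (y - t) := by
          rw [← mul_assoc, ← Real.exp_add]; simp
  set G := ∑ y, bt N θ y * g y with hG
  have hG0 : 0 ≤ G := Finset.sum_nonneg fun y _ => mul_nonneg (bt_pos N θ y).le (hg y)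
  rw [h1]
  calc G = Real.exp (2 * θ * D / θ') * (Real.exp (-(2 * θ * D / θ')) * G) := by
        rw [← mul_assoc, ← Real.exp_add]; simp
    _ ≤ Real.exp (2 * θ * D / θ') * ((∑ t, bt N θ' t * Real.exp (-(θ * N t))) * G) := by
        refine mul_le_mul_of_nonneg_left ?_ (Real.exp_pos _).le
        exact mul_le_mul_of_nonneg_right (bt_exp_neg hN hD hθ' hθ) hG0
    _ = Real.exp (2 * θ * D / θ') * ∑ t, bt N θ' t * (Real.exp (-(θ * N t)) * G) := by
        rw [Finset.sum_mul]
        congr 1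
        exact Finset.sum_congr rfl fun t _ => by ring
    _ ≤ Real.exp (2 * θ * D / θ') * ∑ t, bt N θ' t * ∑ y, bt N θ (y - t) * g y := by
        refine mul_le_mul_of_nonneg_left ?_ (Real.exp_pos _).le
        exact Finset.sum_le_sum fun t _ => mul_le_mul_of_nonneg_left (h2 t) (bt_pos N θ' t).le

end Vale.Agent.P057R3
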