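import Vale.Agent.P057R3.Sampling
import Vale.Agent.P057R3.Weights2

namespace Vale.Agent.P057R3

open Finset

set_option linter.unusedVariables false

variable {M : ℕ} [NeZero M]

namespace CS1

theorem ind_nonneg (A : Finset (ZMod M)) (x : ZMod M) : 0 ≤ ind A x := by
  unfold ind; split_ifs <;> norm_num

theorem ind_le_one (A : Finset (ZMod M)) (x : ZMod M) : ind A x ≤ 1 := by
  unfold ind; split_ifs <;> norm_num

/-- the error -/
noncomputable def Er (N : ZMod M → ℝ) (θp : ℝ) (lam : ZMod M → ℝ) (S : Finset (ZMod M)) (q : ℕ)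
    {m : ℕ} (a : Fin m → ZMod M) : ℝ :=
  ∑ x, bt N θp x * (emp S a x - kf lam S x) ^ q

theorem Er_nonneg (N : ZMod M → ℝ) (θp : ℝ) (lam : ZMod M → ℝ) (S : Finset (ZMod M)) {q : ℕ}
    (hq : Even q) {m : ℕ} (a : Fin m → ZMod M) : 0 ≤ Er N θp lam S q a :=
  Finset.sum_nonneg fun x _ => mul_nonneg (bt_pos _ _ _).le (hq.pow_nonneg _)

theorem avg_Er (N : ZMod M → ℝ) (θp : ℝ) {lam : ZMod M → ℝ} (hlam : PW lam)
    (S : Finset (ZMod M)) {q : ℕ} (hq : Even q) (hq2 : 2 ≤ q) {m : ℕ} (hm : 1 ≤ m) :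
    ∑ a : Fin m → ZMod M, (∏ i, lam (a i)) * Er N θp lam S q a ≤
      (3 * q / m : ℝ) ^ (q / 2) := by
  unfold Er
  simp only [Finset.mul_sum]
  rw [Finset.sum_comm]
  calc ∑ x, ∑ a : Fin m → ZMod M,
        (∏ i, lam (a i)) * (bt N θp x * (emp S a x - kf lam S x) ^ q)
      ≤ ∑ x, bt N θp x * (3 * q / m : ℝ) ^ (q / 2) := by
        refine Finset.sum_le_sum fun x _ => ?_
        have h := sampling (ι := ZMod M) (μ := lam) (φ := fun t => ind S (x - t)) hlam.1 hlam.2
          (fun t => ind_nonneg _ _) (fun t => ind_le_one _ _) hm hq hq2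
        have h2 := mul_le_mul_of_nonneg_left h (bt_pos N θp x).le
        refine le_trans (le_of_eq ?_) h2
        rw [Finset.mul_sum]
        refine Finset.sum_congr rfl fun a _ => ?_
        unfold emp kf
        ring
    _ = (3 * q / m : ℝ) ^ (q / 2) := by
        rw [← Finset.sum_mul, (bt_pw N θp).2, one_mul]

theorem sum_prod_one {lam : ZMod M → ℝ} (h : ∑ x, lam x = 1) (m : ℕ) :
    ∑ a : Fin m → ZMod M, ∏ i, lam (a i) = 1 := by
  rw [← Fintype.sum_pow, h, one_pow]

end CS1

open CS1 in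
theorem cs_exists {N : ZMod M → ℝ} {D θp θ₅ : ℝ} (hN : IsNrm N) (hD : Dbl N D)
    (hD0 : 0 ≤ D) (hθp : 0 < θp) {q : ℕ} (hq : Even q) (hq2 : 2 ≤ q) {lam : ZMod M → ℝ}
    (hlam : PW lam) (hle : ∀ t, lam t ≤ Real.exp q * bt N θp t) (S : Finset (ZMod M))
    {ε : ℝ} (hε : 0 < ε) {m : ℕ} (hm : 1 ≤ m) (hmq : 12 * q ≤ ε ^ 2 * m)
    (hθ : 4 * (D + 1) * m * θp ≤ θ₅) :
    ∃ a : Fin m → ZMod M, 3 / 8 * Real.exp (-((q : ℝ) * m)) ≤
      ∑ u, open Classical in
        (if ∑ x, bt N θp x * (emp S (fun i => a i + u) x - kf lam S x) ^ q ≤ ε ^ q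
          then bt N θ₅ u else 0) := by
  classical
  have hm0 : (0 : ℝ) < m := by exact_mod_cast hm
  have hθ₅ : 0 < θ₅ := lt_of_lt_of_le (by positivity) hθ
  -- indicator of goodness
  set g : (Fin m → ZMod M) → ℝ := fun a => if Er N θp lam S q a ≤ ε ^ q then 1 else 0 with hg
  have hg0 : ∀ a, 0 ≤ g a := by intro a; simp only [hg]; split_ifs <;> norm_num
  have hεq : 0 < ε ^ q := by positivity
  -- Markov
  have hgood : 3 / 4 ≤ ∑ a : Fin m → ZMod M, (∏ i, lam (a i)) * g a := by
    have h1 : ∀ a : Fin m → ZMod M, (∏ i, lam (a i)) - (∏ i, lam (a i)) * g a ≤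
        (∏ i, lam (a i)) * Er N θp lam S q a * (1 / ε ^ q) := by
      intro a
      have hp : 0 ≤ ∏ i, lam (a i) := Finset.prod_nonneg fun i _ => hlam.1 _
      by_cases h : Er N θp lam S q a ≤ ε ^ q
      · simp only [hg, if_pos h, mul_one, sub_self]
        have := Er_nonneg N θp lam S hq a
        positivity
      · simp only [hg, if_neg h, mul_zero, sub_zero]
        rw [mul_assoc]
        refine le_mul_of_one_le_right hp ?_
        rw [mul_one_div, le_div_iff₀ hεq]
        linarith [not_le.1 h]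
    have h2 := Finset.sum_le_sum fun a (_ : a ∈ (Finset.univ : Finset (Fin m → ZMod M))) => h1 a
    rw [Finset.sum_sub_distrib, ← Finset.sum_mul, sum_prod_one hlam.2] at h2
    have h3 := avg_Er N θp hlam S hq hq2 hm
    have h4 : (3 * q / m : ℝ) ^ (q / 2) ≤ ε ^ q * (1 / 4) := by
      have h5 : (3 * q / m : ℝ) ≤ ε ^ 2 * (1 / 4) := by
        rw [div_le_iff₀ hm0]; linarith
      have h6 : (0 : ℝ) ≤ 3 * q / m := by positivity
      calc (3 * q / m : ℝ) ^ (q / 2) ≤ (ε ^ 2 * (1 / 4)) ^ (q / 2) := pow_le_pow_left₀ h6 h5 _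
        _ = ε ^ q * (1 / 4 : ℝ) ^ (q / 2) := by
            rw [mul_pow, ← pow_mul, Nat.two_mul_div_two_of_even hq]
        _ ≤ ε ^ q * (1 / 4 : ℝ) ^ 1 := by
            refine mul_le_mul_of_nonneg_left ?_ hεq.le
            exact pow_le_pow_of_le_one (by norm_num) (by norm_num) (by omega)
        _ = ε ^ q * (1 / 4) := by ring
    have h5 : (∑ a : Fin m → ZMod M, (∏ i, lam (a i)) * Er N θp lam S q a) * (1 / ε ^ q) ≤
        ε ^ q * (1 / 4) * (1 / ε ^ q) := by
      gcongr
      exact h3.trans h4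
    have h6 : ε ^ q * (1 / 4) * (1 / ε ^ q) = 1 / 4 := by field_simp
    linarith
  -- double counting
  have hdouble : 3 / 8 * Real.exp (-((q : ℝ) * m)) ≤ ∑ a : Fin m → ZMod M,
      (∏ i, bt N θp (a i)) * ∑ u, bt N θ₅ u * g (fun i => a i + u) := by
    have hswap : ∑ a : Fin m → ZMod M,
        (∏ i, bt N θp (a i)) * ∑ u, bt N θ₅ u * g (fun i => a i + u) =
        ∑ u, bt N θ₅ u * ∑ a : Fin m → ZMod M, (∏ i, bt N θp (a i - u)) * g a := by
      simp only [Finset.mul_sum]
      rw [Finset.sum_comm]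
      refine Finset.sum_congr rfl fun u _ => ?_
      refine Fintype.sum_equiv (Equiv.addRight (fun _ : Fin m => u)) _ _ fun a => ?_
      simp only [Equiv.coe_addRight, Pi.add_apply, add_sub_cancel_right]
      have : (a + fun _ => u) = fun i => a i + u := rfl
      rw [this]; ring
    rw [hswap]
    have hpt : ∀ u : ZMod M, Real.exp (-((m * θp) * N u)) *
        (Real.exp (-((q : ℝ) * m)) * (3 / 4)) ≤
        ∑ a : Fin m → ZMod M, (∏ i, bt N θp (a i - u)) * g a := by
      intro u
      calc Real.exp (-((m * θp) * N u)) * (Real.exp (-((q : ℝ) * m)) * (3 / 4))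
          ≤ Real.exp (-((m * θp) * N u)) * (Real.exp (-((q : ℝ) * m)) *
            ∑ a : Fin m → ZMod M, (∏ i, lam (a i)) * g a) := by gcongr
        _ = ∑ a : Fin m → ZMod M, (Real.exp (-((m * θp) * N u)) *
            (Real.exp (-((q : ℝ) * m)) * (∏ i, lam (a i)))) * g a := by
            rw [Finset.mul_sum, Finset.mul_sum]
            exact Finset.sum_congr rfl fun a _ => by ring
        _ ≤ ∑ a : Fin m → ZMod M, (∏ i, bt N θp (a i - u)) * g a := by
            refine Finset.sum_le_sum fun a _ => mul_le_mul_of_nonneg_right ?_ (hg0 a)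
            have e1 : Real.exp (-((m * θp) * N u)) = ∏ _i : Fin m, Real.exp (-(θp * N u)) := by
              rw [Finset.prod_const, Finset.card_univ, Fintype.card_fin, ← Real.exp_nat_mul]
              congr 1; ring
            have e2 : Real.exp (-((q : ℝ) * m)) = ∏ _i : Fin m, Real.exp (-(q : ℝ)) := by
              rw [Finset.prod_const, Finset.card_univ, Fintype.card_fin, ← Real.exp_nat_mul]
              congr 1; ring
            rw [e1, e2, ← Finset.prod_mul_distrib, ← Finset.prod_mul_distrib]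
            refine Finset.prod_le_prod (fun i _ => mul_nonneg (Real.exp_pos _).le
              (mul_nonneg (Real.exp_pos _).le (hlam.1 _))) fun i _ => ?_
            have h1 := bt_shift hN hθp.le (a i - u) u
            rw [sub_add_cancel] at h1
            have h2 : Real.exp (-(q : ℝ)) * lam (a i) ≤ bt N θp (a i) := by
              have h3 := mul_le_mul_of_nonneg_left (hle (a i)) (Real.exp_pos (-(q : ℝ))).le
              rw [← mul_assoc, ← Real.exp_add, neg_add_cancel, Real.exp_zero, one_mul] at h3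
              exact h3
            calc Real.exp (-(θp * N u)) * (Real.exp (-(q : ℝ)) * lam (a i))
                ≤ Real.exp (-(θp * N u)) * (Real.exp (θp * N u) * bt N θp (a i - u)) :=
                  mul_le_mul_of_nonneg_left (h2.trans h1) (Real.exp_pos _).le
              _ = bt N θp (a i - u) := by
                  rw [← mul_assoc, ← Real.exp_add, neg_add_cancel, Real.exp_zero, one_mul]
    have hexpneg := bt_exp_neg hN hD hθ₅ (s := m * θp) (by positivity)
    have hhalf : (1 : ℝ) / 2 ≤ Real.exp (-(2 * (m * θp) * D / θ₅)) := by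
      have h1 : 2 * (m * θp) * D / θ₅ ≤ 1 / 2 := by
        rw [div_le_iff₀ hθ₅]
        have : 0 ≤ m * θp := by positivity
        nlinarith
      have h2 := Real.add_one_le_exp (-(2 * (m * θp) * D / θ₅))
      linarith
    calc 3 / 8 * Real.exp (-((q : ℝ) * m))
        = 1 / 2 * (Real.exp (-((q : ℝ) * m)) * (3 / 4)) := by ring
      _ ≤ (∑ x, bt N θ₅ x * Real.exp (-(m * θp * N x))) *
          (Real.exp (-((q : ℝ) * m)) * (3 / 4)) := by
          gcongr
          exact hhalf.trans hexpneg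
      _ = ∑ u, bt N θ₅ u * (Real.exp (-((m * θp) * N u)) *
          (Real.exp (-((q : ℝ) * m)) * (3 / 4))) := by
          rw [Finset.sum_mul]
          exact Finset.sum_congr rfl fun u _ => by ring
      _ ≤ ∑ u, bt N θ₅ u * ∑ a : Fin m → ZMod M, (∏ i, bt N θp (a i - u)) * g a :=
          Finset.sum_le_sum fun u _ => mul_le_mul_of_nonneg_left (hpt u) (bt_pos _ _ _).le
  -- pigeonhole
  by_contra hcon
  push Not at hcon
  have hlt : ∑ a : Fin m → ZMod M,
      (∏ i, bt N θp (a i)) * ∑ u, bt N θ₅ u * g (fun i => a i + u) <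
      ∑ a : Fin m → ZMod M, (∏ i, bt N θp (a i)) * (3 / 8 * Real.exp (-((q : ℝ) * m))) := by
    refine Finset.sum_lt_sum_of_nonempty ⟨fun _ => 0, Finset.mem_univ _⟩ fun a _ => ?_
    refine mul_lt_mul_of_pos_left ?_ (Finset.prod_pos fun i _ => bt_pos _ _ _)
    refine lt_of_eq_of_lt ?_ (hcon a)
    refine Finset.sum_congr rfl fun u _ => ?_
    by_cases h : Er N θp lam S q (fun i => a i + u) ≤ ε ^ q
    · have hg1 : g (fun i => a i + u) = 1 := if_pos h
      rw [hg1, mul_one]
      exact (if_pos h).symm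
    · have hg1 : g (fun i => a i + u) = 0 := if_neg h
      rw [hg1, mul_zero]
      exact (if_neg h).symm
  rw [← Finset.sum_mul, sum_prod_one (bt_pw N θp).2, one_mul] at hlt
  linarith

end Vale.Agent.P057R3
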