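import Vale.Agent.P057R3.CS1

namespace Vale.Agent.P057R3

open Finset

set_option linter.unusedVariables false

variable {M : ℕ} [NeZero M]

namespace CS2

open CS1

theorem kf_shift_eq (lam : ZMod M → ℝ) (S : Finset (ZMod M)) (v : ZMod M) :
    pr lam (ind S) v = ∑ t, lam t * kf lam S (t + v) := by
  unfold pr kf
  refine Finset.sum_congr rfl fun t _ => ?_
  rw [Finset.mul_sum]
  refine Finset.sum_congr rfl fun t' _ => ?_
  rw [show t + v - t' = t - t' + v by ring]
  ring

theorem emp_shift {m : ℕ} (S : Finset (ZMod M)) (a : Fin m → ZMod M) (u x : ZMod M) :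
    emp S (fun i => a i + u) x = emp S a (x - u) := by
  unfold emp
  congr 1
  refine Finset.sum_congr rfl fun i _ => ?_
  rw [show x - (a i + u) = x - u - a i by ring]

/-- the key inequality for two good shifts -/
theorem two_shifts {N : ZMod M → ℝ} (hN : IsNrm N) {θp : ℝ} (hθp : 0 < θp) {q : ℕ}
    (hq : Even q) (hq2 : 2 ≤ q) {lam : ZMod M → ℝ} (hlam : PW lam)
    (hle : ∀ t, lam t ≤ Real.exp q * bt N θp t) (S : Finset (ZMod M)) {ε : ℝ} (hε : 0 < ε)
    {m : ℕ} (a : Fin m → ZMod M) {u u' : ZMod M}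
    (hu : ∑ x, bt N θp x * (emp S (fun i => a i + u) x - kf lam S x) ^ q ≤ ε ^ q)
    (hu' : ∑ x, bt N θp x * (emp S (fun i => a i + u') x - kf lam S x) ^ q ≤ ε ^ q)
    (hNu : N u ≤ 1 / (2 * θp)) (hNu' : N u' ≤ 1 / (2 * θp)) :
    ∑ x, lam x * |kf lam S (x + (u - u')) - kf lam S x| ≤ 12 * ε := by
  set k := kf lam S with hk
  set v := u - u' with hv
  -- shift inequality
  have hNv : θp * N v ≤ 1 := by
    have h1 : N v ≤ N u + N u' := by
      rw [hv, sub_eq_add_neg]
      have := hN.add u (-u')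
      rwa [hN.neg] at this
    have h2 : θp * N v ≤ θp * (1 / (2 * θp) + 1 / (2 * θp)) := by
      gcongr
      linarith
    have h3 : θp * (1 / (2 * θp) + 1 / (2 * θp)) = 1 := by field_simp; norm_num
    linarith
  have hfirst : ∑ x, bt N θp x * |k (x + v) - emp S a (x - u')| ^ q ≤ 3 * ε ^ q := by
    have h1 : ∑ x, bt N θp x * |k (x + v) - emp S a (x - u')| ^ q =
        ∑ y, bt N θp (y - v) * |k y - emp S a (y - u)| ^ q := by
      refine Fintype.sum_equiv (Equiv.addRight v) _ _ fun x => ?_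
      simp only [Equiv.coe_addRight, add_sub_cancel_right]
      rw [show x + v - u = x - u' by rw [hv]; ring]
    rw [h1]
    calc ∑ y, bt N θp (y - v) * |k y - emp S a (y - u)| ^ q
        ≤ ∑ y, 3 * (bt N θp y * (emp S (fun i => a i + u) y - k y) ^ q) := by
          refine Finset.sum_le_sum fun y _ => ?_
          have h2 := bt_shift hN hθp.le y (-v)
          rw [hN.neg, ← sub_eq_add_neg] at h2
          have h3 : Real.exp (θp * N v) ≤ 3 := by
            have h4 := Real.exp_le_exp.2 hNv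
            have h5 := Real.exp_one_lt_d9
            linarith
          have h4 : bt N θp (y - v) ≤ 3 * bt N θp y :=
            h2.trans (mul_le_mul_of_nonneg_right h3 (bt_pos _ _ _).le)
          have h5 : |k y - emp S a (y - u)| ^ q = (emp S (fun i => a i + u) y - k y) ^ q := by
            rw [emp_shift, abs_sub_comm, hq.pow_abs]
          rw [h5]
          have h6 : 0 ≤ (emp S (fun i => a i + u) y - k y) ^ q := hq.pow_nonneg _
          calc bt N θp (y - v) * (emp S (fun i => a i + u) y - k y) ^ q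
              ≤ 3 * bt N θp y * (emp S (fun i => a i + u) y - k y) ^ q := by gcongr
            _ = _ := by ring
      _ = 3 * ∑ y, bt N θp y * (emp S (fun i => a i + u) y - k y) ^ q := by
          rw [Finset.mul_sum]
      _ ≤ 3 * ε ^ q := by gcongr
  have hsecond : ∑ x, bt N θp x * |emp S a (x - u') - k x| ^ q ≤ ε ^ q := by
    refine le_trans (le_of_eq ?_) hu'
    refine Finset.sum_congr rfl fun x _ => ?_
    rw [emp_shift, hq.pow_abs]
  have hboth : ∑ x, bt N θp x * |k (x + v) - k x| ^ q ≤ (4 * ε) ^ q := by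
    calc ∑ x, bt N θp x * |k (x + v) - k x| ^ q
        ≤ ∑ x, bt N θp x * (2 ^ (q - 1) * (|k (x + v) - emp S a (x - u')| ^ q +
            |emp S a (x - u') - k x| ^ q)) := by
          refine Finset.sum_le_sum fun x _ => mul_le_mul_of_nonneg_left ?_ (bt_pos _ _ _).le
          have h1 : |k (x + v) - k x| ≤ |k (x + v) - emp S a (x - u')| +
              |emp S a (x - u') - k x| := abs_sub_le _ _ _
          calc |k (x + v) - k x| ^ q ≤ (|k (x + v) - emp S a (x - u')| +
              |emp S a (x - u') - k x|) ^ q := by gcongr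
            _ ≤ _ := add_pow_le (abs_nonneg _) (abs_nonneg _) q
      _ = 2 ^ (q - 1) * (∑ x, bt N θp x * |k (x + v) - emp S a (x - u')| ^ q +
            ∑ x, bt N θp x * |emp S a (x - u') - k x| ^ q) := by
          rw [← Finset.sum_add_distrib, Finset.mul_sum]
          exact Finset.sum_congr rfl fun x _ => by ring
      _ ≤ 2 ^ (q - 1) * (3 * ε ^ q + ε ^ q) := by gcongr
      _ ≤ 4 ^ q * ε ^ q := by
          have h1 : (2 : ℝ) ^ (q - 1) * 4 ≤ 4 ^ q := by
            have h2 : (2 : ℝ) ^ (q - 1) ≤ 4 ^ (q - 1) := by gcongr; norm_num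
            calc (2 : ℝ) ^ (q - 1) * 4 ≤ 4 ^ (q - 1) * 4 := by gcongr
              _ = 4 ^ q := by rw [← pow_succ]; congr 1; omega
          have h3 : 0 ≤ ε ^ q := by positivity
          calc 2 ^ (q - 1) * (3 * ε ^ q + ε ^ q) = 2 ^ (q - 1) * 4 * ε ^ q := by ring
            _ ≤ 4 ^ q * ε ^ q := by gcongr
      _ = (4 * ε) ^ q := by rw [mul_pow]
  have hlamq : ∑ x, lam x * |k (x + v) - k x| ^ q ≤ (12 * ε) ^ q := by
    calc ∑ x, lam x * |k (x + v) - k x| ^ q
        ≤ ∑ x, Real.exp q * (bt N θp x * |k (x + v) - k x| ^ q) := by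
          refine Finset.sum_le_sum fun x _ => ?_
          rw [← mul_assoc]
          exact mul_le_mul_of_nonneg_right (hle x) (by positivity)
      _ = Real.exp q * ∑ x, bt N θp x * |k (x + v) - k x| ^ q := by rw [Finset.mul_sum]
      _ ≤ 3 ^ q * (4 * ε) ^ q := by
          have h1 : Real.exp (q : ℝ) ≤ 3 ^ q := by
            have h2 : Real.exp (q : ℝ) = Real.exp 1 ^ q := by
              rw [← Real.exp_nat_mul, mul_one]
            rw [h2]
            have h3 := Real.exp_one_lt_d9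
            gcongr
            linarith
          exact mul_le_mul h1 hboth (Finset.sum_nonneg fun x _ =>
            mul_nonneg (bt_pos _ _ _).le (by positivity)) (by positivity)
      _ = (12 * ε) ^ q := by rw [← mul_pow]; congr 1; ring
  have hjen := Real.pow_arith_mean_le_arith_mean_pow Finset.univ lam
    (fun x => |k (x + v) - k x|) (fun x _ => hlam.1 x) hlam.2 (fun x _ => abs_nonneg _) q
  have hfin := hjen.trans hlamq
  exact le_of_pow_le_pow_left₀ (by omega) (by positivity) hfin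

end CS2

open CS1 CS2 in
theorem crootSisask {N : ZMod M → ℝ} {D θp θ₅ : ℝ} (hN : IsNrm N) (hD : Dbl N D)
    (hD0 : 0 ≤ D) (hθp : 0 < θp) {q : ℕ} (hq : Even q) (hq2 : 2 ≤ q) {lam : ZMod M → ℝ}
    (hlam : PW lam) (hle : ∀ t, lam t ≤ Real.exp q * bt N θp t)
    (hθ : 10 ^ 12 * (D + 1) * (q : ℝ) ^ 2 * θp ≤ θ₅) (S : Finset (ZMod M))
    (hS : 1 - 1 / 2000 ≤ pr lam (ind S) 0) :
    ∃ X : Finset (ZMod M), Real.exp (-(10 ^ 12 * (q : ℝ) ^ 2)) ≤ ∑ u ∈ X, bt N θ₅ u ∧
      ∀ u ∈ X, ∀ u' ∈ X, 1 - 1 / 1000 ≤ pr lam (ind S) (u - u') := by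
  classical
  have hqr : (2 : ℝ) ≤ q := by exact_mod_cast hq2
  have hqq : (q : ℝ) ≤ (q : ℝ) ^ 2 := le_self_pow₀ (by linarith) (by norm_num)
  have hθ₅ : 0 < θ₅ := lt_of_lt_of_le (by positivity) hθ
  set m : ℕ := 7 * 10 ^ 9 * q with hm
  have hmr : (m : ℝ) = 7 * 10 ^ 9 * q := by rw [hm]; push_cast; ring
  have hm1 : 1 ≤ m := by rw [hm]; omega
  set ε : ℝ := 1 / 24000 with hε
  have hε0 : 0 < ε := by rw [hε]; norm_num
  obtain ⟨a, ha⟩ := cs_exists hN hD hD0 hθp hq hq2 hlam hle S hε0 hm1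
    (by rw [hmr, hε]; linarith)
    (by
      refine le_trans ?_ hθ
      rw [hmr]
      have h1 : (q : ℝ) * ((D + 1) * θp) ≤ (q : ℝ) ^ 2 * ((D + 1) * θp) := by gcongr
      have h2 : 0 ≤ (q : ℝ) ^ 2 * ((D + 1) * θp) := by positivity
      linarith)
  set good : ZMod M → Prop := fun u =>
    ∑ x, bt N θp x * (emp S (fun i => a i + u) x - kf lam S x) ^ q ≤ ε ^ q with hgood
  set X : Finset (ZMod M) := Finset.univ.filter fun u => good u ∧ N u ≤ 1 / (2 * θp) with hX
  refine ⟨X, ?_, ?_⟩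
  · have htail := bt_tail hN hD hθ₅ (1 / (2 * θp))
    have hsum : (∑ u, if good u then bt N θ₅ u else 0) ≤
        ∑ u ∈ X, bt N θ₅ u + ∑ u, (if 1 / (2 * θp) ≤ N u then bt N θ₅ u else 0) := by
      rw [hX, Finset.sum_filter, ← Finset.sum_add_distrib]
      refine Finset.sum_le_sum fun u _ => ?_
      have hb := (bt_pos N θ₅ u).le
      by_cases h1 : good u
      · by_cases h2 : N u ≤ 1 / (2 * θp)
        · rw [if_pos h1, if_pos ⟨h1, h2⟩]
          split_ifs <;> linarith
        · rw [if_pos h1, if_neg (fun h => h2 h.2), if_pos (le_of_lt (not_le.1 h2))]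
          linarith
      · rw [if_neg h1, if_neg (fun h => h1 h.1)]
        split_ifs <;> linarith
    have ha' : 3 / 8 * Real.exp (-((q : ℝ) * m)) ≤ ∑ u, if good u then bt N θ₅ u else 0 := by
      refine ha.trans (le_of_eq ?_)
      exact Finset.sum_congr rfl fun u _ => by congr
    have ht : Real.exp (D - θ₅ * (1 / (2 * θp)) / 2) ≤ 1 / 8 * Real.exp (-((q : ℝ) * m)) := by
      have h8 : Real.exp (-3) ≤ 1 / 8 := by
        have h9 := Real.exp_one_gt_d9
        have h10 : Real.exp 3 = Real.exp 1 ^ 3 := by rw [← Real.exp_nat_mul]; norm_num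
        have h11 : (2 : ℝ) ^ 3 ≤ Real.exp 1 ^ 3 := by gcongr; linarith
        rw [Real.exp_neg, inv_le_comm₀ (Real.exp_pos _) (by norm_num), h10]
        norm_num at h11 ⊢
        linarith
      calc Real.exp (D - θ₅ * (1 / (2 * θp)) / 2) ≤ Real.exp (-3 + -((q : ℝ) * m)) := by
            apply Real.exp_le_exp.2
            have h1 : θ₅ * (1 / (2 * θp)) / 2 = θ₅ / (4 * θp) := by field_simp; norm_num
            have h2 : 25 * 10 ^ 10 * ((D + 1) * (q : ℝ) ^ 2) ≤ θ₅ / (4 * θp) := by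
              rw [le_div_iff₀ (by positivity)]
              calc 25 * 10 ^ 10 * ((D + 1) * (q : ℝ) ^ 2) * (4 * θp)
                  = 10 ^ 12 * (D + 1) * (q : ℝ) ^ 2 * θp := by ring
                _ ≤ θ₅ := hθ
            have h3 : D ≤ (D + 1) * (q : ℝ) ^ 2 := by nlinarith
            have h4 : (q : ℝ) ^ 2 ≤ (D + 1) * (q : ℝ) ^ 2 := by nlinarith
            rw [h1, hmr]
            nlinarith
        _ = Real.exp (-3) * Real.exp (-((q : ℝ) * m)) := Real.exp_add _ _
        _ ≤ 1 / 8 * Real.exp (-((q : ℝ) * m)) := by gcongr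
    have hlow : Real.exp (-(10 ^ 12 * (q : ℝ) ^ 2)) ≤ 1 / 4 * Real.exp (-((q : ℝ) * m)) := by
      have h8 : Real.exp (-2) ≤ 1 / 4 := by
        have h9 := Real.exp_one_gt_d9
        have h10 : Real.exp 2 = Real.exp 1 ^ 2 := by rw [← Real.exp_nat_mul]; norm_num
        have h11 : (2 : ℝ) ^ 2 ≤ Real.exp 1 ^ 2 := by gcongr; linarith
        rw [Real.exp_neg, inv_le_comm₀ (Real.exp_pos _) (by norm_num), h10]
        norm_num at h11 ⊢
        linarith
      calc Real.exp (-(10 ^ 12 * (q : ℝ) ^ 2)) ≤ Real.exp (-2 + -((q : ℝ) * m)) := by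
            apply Real.exp_le_exp.2
            rw [hmr]
            nlinarith
        _ = Real.exp (-2) * Real.exp (-((q : ℝ) * m)) := Real.exp_add _ _
        _ ≤ 1 / 4 * Real.exp (-((q : ℝ) * m)) := by gcongr
    have h5 := ha'.trans hsum
    have h6 : (∑ u, (if 1 / (2 * θp) ≤ N u then bt N θ₅ u else 0)) ≤
        1 / 8 * Real.exp (-((q : ℝ) * m)) := htail.trans ht
    refine hlow.trans ?_
    have h7 := h5.trans (add_le_add_right h6 (∑ u ∈ X, bt N θ₅ u))
    generalize (∑ u ∈ X, bt N θ₅ u) = Y at h7 ⊢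
    generalize Real.exp (-((q : ℝ) * m)) = E at h7 ⊢
    linarith
  · intro u hu u' hu'
    rw [hX, Finset.mem_filter] at hu hu'
    have h1 := two_shifts hN hθp hq hq2 hlam hle S hε0 a hu.2.1 hu'.2.1 hu.2.2 hu'.2.2
    rw [kf_shift_eq] at hS ⊢
    simp only [add_zero] at hS
    have h2 : ∑ t, lam t * kf lam S t - ∑ x, lam x * |kf lam S (x + (u - u')) - kf lam S x| ≤
        ∑ t, lam t * kf lam S (t + (u - u')) := by
      rw [← Finset.sum_sub_distrib]
      refine Finset.sum_le_sum fun t _ => ?_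
      rw [← mul_sub]
      refine mul_le_mul_of_nonneg_left ?_ (hlam.1 t)
      have := neg_abs_le (kf lam S (t + (u - u')) - kf lam S t)
      linarith
    rw [hε] at h1
    linarith

end Vale.Agent.P057R3
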