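import Vale.Agent.P057R3.Weights2

/-!
[C] A centre good for two scales.
-/

namespace Vale.Agent.P057R3

open Finset

variable {M : ℕ} [NeZero M]

theorem Centre.avg {N : ZMod M → ℝ} {D : ℝ} (hN : IsNrm N) (hD : Dbl N D)
    {θ₀ θa α κ : ℝ} (hθ₀ : 0 < θ₀) (hθa : 0 < θa) (ha : 2 * D * θ₀ ≤ κ * θa)
    (A : Finset (ZMod M)) (c₀ : ZMod M) (hα0 : 0 ≤ α) (hα : α ≤ dens N θ₀ A c₀) :
    (1 - κ) * α ≤ ∑ x, bt N θ₀ x * dens N θa A (c₀ + x) := by
  have h1 := bt_smooth hN hD hθ₀.le hθa (g := fun x => ind A (c₀ + x)) (by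
    intro x; unfold ind; split_ifs <;> norm_num)
  have h2 : ∑ x, ∑ t, bt N θ₀ x * bt N θa t * ind A (c₀ + (x + t)) =
      ∑ x, bt N θ₀ x * dens N θa A (c₀ + x) := by
    refine Finset.sum_congr rfl fun x _ => ?_
    unfold dens
    rw [Finset.mul_sum]
    refine Finset.sum_congr rfl fun t _ => ?_
    rw [← add_assoc]; ring
  rw [h2] at h1
  set S := ∑ x, bt N θ₀ x * dens N θa A (c₀ + x) with hS
  have h3 : α ≤ Real.exp (2 * θ₀ * D / θa) * S := hα.trans h1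
  have hκ : 2 * θ₀ * D / θa ≤ κ := by
    rw [div_le_iff₀ hθa]; linarith
  have hS0 : 0 ≤ S := Finset.sum_nonneg fun x _ => mul_nonneg (bt_pos N θ₀ x).le
    (Finset.sum_nonneg fun t _ => mul_nonneg (bt_pos N θa t).le (by
      unfold ind; split_ifs <;> norm_num))
  have h4 : α ≤ Real.exp κ * S := h3.trans (mul_le_mul_of_nonneg_right (Real.exp_le_exp.2 hκ) hS0)
  have h5 : Real.exp (-κ) * α ≤ S := by
    calc Real.exp (-κ) * α ≤ Real.exp (-κ) * (Real.exp κ * S) :=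
          mul_le_mul_of_nonneg_left h4 (Real.exp_pos _).le
      _ = S := by rw [← mul_assoc, ← Real.exp_add]; simp
  have h6 : 1 - κ ≤ Real.exp (-κ) := by
    have := Real.add_one_le_exp (-κ)
    linarith
  exact (mul_le_mul_of_nonneg_right h6 hα0).trans h5

theorem centre {N : ZMod M → ℝ} {D : ℝ} (hN : IsNrm N) (hD : Dbl N D)
    {θ₀ θa θb α κ η : ℝ} (hθ₀ : 0 < θ₀) (hθa : 0 < θa) (hθb : 0 < θb)
    (ha : 2 * D * θ₀ ≤ κ * θa) (hb : 2 * D * θ₀ ≤ κ * θb)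
    (A : Finset (ZMod M)) (c₀ : ZMod M) (hα0 : 0 ≤ α) (hα : α ≤ dens N θ₀ A c₀)
    (h1 : ∀ c, dens N θa A c ≤ (1 + η) * α) (h2 : ∀ c, dens N θb A c ≤ (1 + η) * α) :
    ∃ c, (1 - η - 2 * κ) * α ≤ dens N θa A c ∧ (1 - η - 2 * κ) * α ≤ dens N θb A c := by
  have ea := Centre.avg hN hD hθ₀ hθa ha A c₀ hα0 hα
  have eb := Centre.avg hN hD hθ₀ hθb hb A c₀ hα0 hα
  have hsum : ∑ x, bt N θ₀ x * ((1 + η) * α - dens N θa A (c₀ + x) +
      ((1 + η) * α - dens N θb A (c₀ + x))) ≤ ∑ x, bt N θ₀ x * (2 * (η + κ) * α) := by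
    have e1 : ∑ x, bt N θ₀ x * ((1 + η) * α - dens N θa A (c₀ + x) +
        ((1 + η) * α - dens N θb A (c₀ + x))) =
        2 * (1 + η) * α - ∑ x, bt N θ₀ x * dens N θa A (c₀ + x) -
          ∑ x, bt N θ₀ x * dens N θb A (c₀ + x) := by
      have e2 : ∀ x, bt N θ₀ x * ((1 + η) * α - dens N θa A (c₀ + x) +
          ((1 + η) * α - dens N θb A (c₀ + x))) = 2 * (1 + η) * α * bt N θ₀ x -
          bt N θ₀ x * dens N θa A (c₀ + x) - bt N θ₀ x * dens N θb A (c₀ + x) := fun x => by ring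
      simp_rw [e2]
      rw [Finset.sum_sub_distrib, Finset.sum_sub_distrib, ← Finset.mul_sum, (bt_pw N θ₀).2]
      ring
    rw [e1, ← Finset.sum_mul, (bt_pw N θ₀).2]
    nlinarith
  obtain ⟨x, -, hx⟩ := Finset.exists_le_of_sum_le ⟨(0 : ZMod M), Finset.mem_univ _⟩ hsum
  have hx' := le_of_mul_le_mul_left hx (bt_pos N θ₀ x)
  refine ⟨c₀ + x, ?_, ?_⟩
  · have := h2 (c₀ + x)
    nlinarith
  · have := h1 (c₀ + x)
    nlinarith

end Vale.Agent.P057R3
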