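import Vale.Agent.P057R3.Riesz

/-!
[R2]: dissociated subsets of the large spectrum are small.
-/

namespace Vale.Agent.P057R3

open Finset

variable {M : ℕ} [NeZero M]

namespace DissocCard

theorem exp_le {y : ℝ} (h : |y| ≤ 1 / 2) : Real.exp (y - y ^ 2) ≤ 1 + y := by
  obtain ⟨h1, h2⟩ := abs_le.1 h
  rcases le_total 0 y with hy | hy
  · have h3 : |y - y ^ 2| ≤ 1 := by
      rw [abs_le]
      constructor <;> nlinarith
    have h4 := (abs_le.1 (Real.abs_exp_sub_one_sub_id_le h3)).2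
    have h5 : (y - y ^ 2) ^ 2 ≤ y ^ 2 := by
      have : y - y ^ 2 ≤ y := by nlinarith
      have h0 : 0 ≤ y - y ^ 2 := by nlinarith
      exact pow_le_pow_left₀ h0 this 2
    linarith
  · obtain ⟨w, rfl⟩ : ∃ w, y = -w := ⟨-y, by ring⟩
    have hw0 : 0 ≤ w := by linarith
    have hw1 : w ≤ 1 / 2 := by linarith
    have hz : 0 ≤ w + w ^ 2 := by positivity
    have h3 := Real.quadratic_le_exp_of_nonneg hz
    have h4 : 1 ≤ (1 - w) * (1 + (w + w ^ 2) + (w + w ^ 2) ^ 2 / 2) := by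
      have e : (1 - w) * (1 + (w + w ^ 2) + (w + w ^ 2) ^ 2 / 2) =
          1 + w ^ 2 * ((1 + w) ^ 2 * (1 - w) - 2 * w) / 2 := by ring
      rw [e]
      have : 0 ≤ (1 + w) ^ 2 * (1 - w) - 2 * w := by nlinarith
      have : 0 ≤ w ^ 2 * ((1 + w) ^ 2 * (1 - w) - 2 * w) / 2 := by positivity
      linarith
    have h5 : 1 ≤ (1 - w) * Real.exp (w + w ^ 2) :=
      h4.trans (mul_le_mul_of_nonneg_left h3 (by linarith))
    have e : -w - (-w) ^ 2 = -(w + w ^ 2) := by ring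
    rw [e, Real.exp_neg, inv_le_comm₀ (Real.exp_pos _) (by linarith)]
    rw [inv_le_iff_one_le_mul₀ (by linarith)]
    linarith

end DissocCard

open DissocCard in
theorem dissoc_card_le {N : ZMod M → ℝ} {D : ℝ} (hN : IsNrm N) (hD : Dbl N D) (hD0 : 0 ≤ D)
    {θ₅ θ' R : ℝ} (hθ₅ : 0 < θ₅) (hθ' : 0 < θ') (hR : 1 ≤ R) {X : Finset (ZMod M)}
    (hX : Real.exp (-R) ≤ ∑ u ∈ X, bt N θ₅ u) {Λ : Finset (ZMod M)}
    (hΛ : Dissoc (bt N θ') Λ) (hθ : 4 * (Λ.card : ℝ) * (D + 1) * θ₅ ≤ θ')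
    (hspec : ∀ l ∈ Λ, 1 / 2 * (∑ u ∈ X, bt N θ₅ u) ^ 2 ≤
      ‖∑ u ∈ X, (bt N θ₅ u : ℂ) * ZMod.stdAddChar (l * u)‖ ^ 2) :
    (Λ.card : ℝ) ≤ 24 * R := by
  classical
  set b := bt N θ₅ with hb
  set W := ∑ u ∈ X, b u with hW
  have hW0 : 0 < W := lt_of_lt_of_le (Real.exp_pos _) hX
  have hb0 : ∀ x, 0 < b x := fun x => bt_pos N θ₅ x
  set h : ZMod M → ℂ := fun l => ∑ u ∈ X, (b u : ℂ) * ZMod.stdAddChar (l * u) with hh
  set c : ZMod M → ℂ := fun l => (starRingEnd ℂ) (h l) / (‖h l‖ : ℂ) with hc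
  have hc1 : ∀ l, ‖c l‖ ≤ 1 := by
    intro l
    simp only [hc]
    rw [norm_div, RCLike.norm_conj, Complex.norm_real, norm_norm]
    exact div_self_le_one _
  have hch : ∀ l, (c l * h l).re = ‖h l‖ := by
    intro l
    simp only [hc]
    rcases eq_or_ne (h l) 0 with h0 | h0
    · rw [h0]; simp
    · have h1 : (‖h l‖ : ℂ) ≠ 0 := by
        exact_mod_cast norm_ne_zero_iff.2 h0
      have : (starRingEnd ℂ) (h l) / (‖h l‖ : ℂ) * h l = ((‖h l‖ : ℝ) : ℂ) := by
        rw [div_mul_eq_mul_div, Complex.conj_mul', div_eq_iff h1, sq]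
      rw [this, Complex.ofReal_re]
  set y : ZMod M → ZMod M → ℝ := fun l u => (c l * ZMod.stdAddChar (l * u)).re / 2 with hy
  have hy1 : ∀ l u, |y l u| ≤ 1 / 2 := by
    intro l u
    simp only [hy]
    have h1 := Complex.abs_re_le_norm (c l * ZMod.stdAddChar (l * u))
    rw [norm_mul, AddChar.norm_apply, mul_one] at h1
    rw [abs_div, abs_two]
    have := hc1 l
    linarith
  have hriesz := riesz hN hD hD0 hθ₅ hΛ hθ hθ' hc1
  set P : ZMod M → ℝ := fun x => ∏ l ∈ Λ, (1 + y l x) with hP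
  have hP0 : ∀ x, 0 ≤ P x := fun x => Finset.prod_nonneg fun l _ => by
    have := (abs_le.1 (hy1 l x)).1
    linarith
  have hXP : ∑ u ∈ X, b u * P u ≤ 4 := by
    refine le_trans ?_ hriesz
    exact Finset.sum_le_sum_of_subset_of_nonneg (Finset.subset_univ X)
      fun x _ _ => mul_nonneg (hb0 x).le (hP0 x)
  set n : ℝ := (Λ.card : ℝ) with hn
  have hn0 : 0 ≤ n := by positivity
  have hPexp : ∀ u, Real.exp (∑ l ∈ Λ, (y l u - 1 / 4)) ≤ P u := by
    intro u
    rw [Real.exp_sum]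
    refine Finset.prod_le_prod (fun l _ => (Real.exp_pos _).le) fun l _ => ?_
    refine le_trans (Real.exp_le_exp.2 ?_) (exp_le (hy1 l u))
    have h1 : y l u ^ 2 ≤ 1 / 4 := by
      rw [← sq_abs]
      calc |y l u| ^ 2 ≤ (1 / 2) ^ 2 := pow_le_pow_left₀ (abs_nonneg _) (hy1 l u) 2
        _ = 1 / 4 := by norm_num
    linarith
  have hlow : ∀ l ∈ Λ, 707 / 1000 * W ≤ ‖h l‖ := by
    intro l hl
    have h1 := hspec l hl
    by_contra hcon
    push Not at hcon
    have h2 : ‖h l‖ ^ 2 < (707 / 1000 * W) ^ 2 :=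
      pow_lt_pow_left₀ hcon (norm_nonneg _) two_ne_zero
    have h3 : 0 < W ^ 2 := by positivity
    have h4 : 1 / 2 * W ^ 2 ≤ ‖h l‖ ^ 2 := h1
    nlinarith
  have hsumy : ∑ u ∈ X, b u * ∑ l ∈ Λ, (y l u - 1 / 4) ≥ (1035 / 10000) * n * W := by
    have e1 : ∑ u ∈ X, b u * ∑ l ∈ Λ, (y l u - 1 / 4) =
        ∑ l ∈ Λ, (‖h l‖ / 2 - W / 4) := by
      simp only [Finset.mul_sum]
      rw [Finset.sum_comm]
      refine Finset.sum_congr rfl fun l _ => ?_
      have e2 : ∑ u ∈ X, b u * y l u = ‖h l‖ / 2 := by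
        rw [← hch l, hh]
        simp only
        rw [Finset.mul_sum, Complex.re_sum, Finset.sum_div]
        refine Finset.sum_congr rfl fun u _ => ?_
        simp only [hy]
        have e3 : c l * ((b u : ℂ) * ZMod.stdAddChar (l * u)) =
            (b u : ℂ) * (c l * ZMod.stdAddChar (l * u)) := by ring
        rw [e3, Complex.re_ofReal_mul]
        ring
      have e4 : ∑ u ∈ X, b u * (y l u - 1 / 4) = ∑ u ∈ X, b u * y l u - W / 4 := by
        rw [hW, Finset.sum_div, ← Finset.sum_sub_distrib]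
        refine Finset.sum_congr rfl fun u _ => ?_
        ring
      rw [e4, e2]
    rw [e1]
    have e5 : ∑ l ∈ Λ, (707 / 1000 * W / 2 - W / 4) ≤ ∑ l ∈ Λ, (‖h l‖ / 2 - W / 4) := by
      refine Finset.sum_le_sum fun l hl => ?_
      have := hlow l hl
      linarith
    rw [Finset.sum_const, nsmul_eq_mul] at e5
    refine le_trans (le_of_eq ?_) e5
    ring
  have hexp : Real.exp ((1035 / 10000) * n) * W ≤ 4 := by
    refine le_trans ?_ hXP
    have e1 : ∀ u ∈ X, b u * (Real.exp ((1035 / 10000) * n) *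
        (∑ l ∈ Λ, (y l u - 1 / 4) - (1035 / 10000) * n + 1)) ≤ b u * P u := by
      intro u _
      refine mul_le_mul_of_nonneg_left (le_trans ?_ (hPexp u)) (hb0 u).le
      have e2 := Real.add_one_le_exp (∑ l ∈ Λ, (y l u - 1 / 4) - (1035 / 10000) * n)
      calc Real.exp ((1035 / 10000) * n) *
          (∑ l ∈ Λ, (y l u - 1 / 4) - (1035 / 10000) * n + 1)
          ≤ Real.exp ((1035 / 10000) * n) *
            Real.exp (∑ l ∈ Λ, (y l u - 1 / 4) - (1035 / 10000) * n) :=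
            mul_le_mul_of_nonneg_left e2 (Real.exp_pos _).le
        _ = Real.exp (∑ l ∈ Λ, (y l u - 1 / 4)) := by
            rw [← Real.exp_add]
            congr 1
            ring
    refine le_trans ?_ (Finset.sum_le_sum e1)
    have e3 : ∑ u ∈ X, b u * (Real.exp ((1035 / 10000) * n) *
        (∑ l ∈ Λ, (y l u - 1 / 4) - (1035 / 10000) * n + 1)) =
        Real.exp ((1035 / 10000) * n) * (∑ u ∈ X, b u * ∑ l ∈ Λ, (y l u - 1 / 4) -
          (1035 / 10000) * n * W + W) := by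
      rw [hW, Finset.mul_sum X b ((1035 / 10000) * n), ← Finset.sum_sub_distrib,
        ← Finset.sum_add_distrib, Finset.mul_sum]
      refine Finset.sum_congr rfl fun u _ => ?_
      ring
    rw [e3]
    refine mul_le_mul_of_nonneg_left ?_ (Real.exp_pos _).le
    linarith
  have h4 : Real.exp ((1035 / 10000) * n) * Real.exp (-R) ≤ 4 :=
    (mul_le_mul_of_nonneg_left hX (Real.exp_pos _).le).trans hexp
  rw [← Real.exp_add] at h4
  have h5 : (4 : ℝ) ≤ Real.exp (13863 / 10000) := by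
    have h6 : (4 : ℝ) = Real.exp (2 * Real.log 2) := by
      rw [two_mul, Real.exp_add, Real.exp_log (by norm_num)]
      norm_num
    rw [h6]
    refine Real.exp_le_exp.2 ?_
    have := Real.log_two_lt_d9
    linarith
  have h7 := Real.exp_le_exp.1 (h4.trans h5)
  linarith

end Vale.Agent.P057R3
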