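import Vale.Agent.P057R3.Bohr
import Vale.Agent.P057R3.DissocCard

/-!
[R3]: a Chang type covering of the large spectrum.
-/

namespace Vale.Agent.P057R3

open Finset

variable {M : ℕ} [NeZero M]

namespace Chang

theorem norm_one_sub_mul_le {a b : ℂ} (ha : ‖a‖ = 1) : ‖1 - a * b‖ ≤ ‖1 - a‖ + ‖1 - b‖ := by
  have e : 1 - a * b = (1 - a) + a * (1 - b) := by ring
  rw [e]
  refine (norm_add_le _ _).trans ?_
  rw [norm_mul, ha, one_mul]

/-- `‖1 - e(-y)‖ = ‖1 - e(y)‖` -/
theorem norm_one_sub_neg (y : ZMod M) :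
    ‖1 - ZMod.stdAddChar (-y)‖ = ‖1 - ZMod.stdAddChar y‖ := by
  rw [AddChar.map_neg_eq_conj, ← RCLike.norm_conj (1 - ZMod.stdAddChar y), map_sub, map_one]

theorem norm_one_sub_sum_le (Λ : Finset (ZMod M)) (ε : ZMod M → ℤ)
    (hε : ∀ l, ε l = -1 ∨ ε l = 0 ∨ ε l = 1) (x : ZMod M) :
    ‖1 - ZMod.stdAddChar ((∑ l ∈ Λ, (ε l : ZMod M) * l) * x)‖ ≤
      ∑ l ∈ Λ, ‖1 - ZMod.stdAddChar (l * x)‖ := by
  classical
  induction Λ using Finset.induction_on with
  | empty => simp
  | insert a T ha ih =>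
    rw [Finset.sum_insert ha, Finset.sum_insert ha, add_mul, AddChar.map_add_eq_mul]
    refine (norm_one_sub_mul_le (AddChar.norm_apply _ _)).trans ?_
    refine add_le_add ?_ ih
    rcases hε a with h | h | h
    · rw [h]
      have : ((-1 : ℤ) : ZMod M) * a * x = -(a * x) := by push_cast; ring
      rw [this, norm_one_sub_neg]
    · rw [h]
      simp
    · rw [h]
      have : ((1 : ℤ) : ZMod M) * a * x = a * x := by push_cast; ring
      rw [this]

/-- large Fourier coefficient means almost invariance -/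
theorem large_ft {N : ZMod M → ℝ} (hN : IsNrm N) {θ' : ℝ} (hθ' : 0 < θ') {r : ZMod M}
    (hr : 1 / 2 < ‖ft (bt N θ') r‖) (x : ZMod M) :
    ‖1 - ZMod.stdAddChar (r * x)‖ ≤ 4 * (θ' * N x) := by
  have hu0 : 0 ≤ θ' * N x := mul_nonneg hθ'.le (hN.nonneg x)
  rcases le_or_gt (θ' * N x) 1 with hu | hu
  · have h1 : ft (bt N θ') r * (ZMod.stdAddChar (r * x) - 1) =
        ∑ t, ((bt N θ' (t - x) : ℂ) - (bt N θ' t : ℂ)) * ZMod.stdAddChar (r * t) := by
      have e1 : ∑ t, (bt N θ' (t - x) : ℂ) * ZMod.stdAddChar (r * t) =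
          ∑ t, (bt N θ' t : ℂ) * ZMod.stdAddChar (r * (t + x)) := by
        rw [← Equiv.sum_comp (Equiv.addRight x)
          (fun t => (bt N θ' (t - x) : ℂ) * ZMod.stdAddChar (r * t))]
        refine Finset.sum_congr rfl fun t _ => ?_
        simp only [Equiv.coe_addRight, add_sub_cancel_right]
      simp only [sub_mul, Finset.sum_sub_distrib]
      rw [e1, mul_sub, mul_one]
      congr 1
      unfold ft
      rw [Finset.sum_mul]
      refine Finset.sum_congr rfl fun t _ => ?_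
      rw [mul_add, AddChar.map_add_eq_mul]
      ring
    have h2 : ‖ft (bt N θ') r‖ * ‖1 - ZMod.stdAddChar (r * x)‖ ≤ 2 * (θ' * N x) := by
      rw [norm_sub_rev, ← norm_mul, h1]
      refine (norm_sum_le _ _).trans ?_
      have h3 : ∀ t, ‖((bt N θ' (t - x) : ℂ) - (bt N θ' t : ℂ)) * ZMod.stdAddChar (r * t)‖ ≤
          (Real.exp (θ' * N x) - 1) * bt N θ' t := by
        intro t
        rw [norm_mul, AddChar.norm_apply, mul_one, ← Complex.ofReal_sub, Complex.norm_real,
          Real.norm_eq_abs, abs_le]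
        have a1 := bt_shift hN hθ'.le t (-x)
        rw [hN.neg, ← sub_eq_add_neg] at a1
        have a2 := bt_shift hN hθ'.le (t - x) x
        rw [sub_add_cancel] at a2
        have a3 := bt_pos N θ' t
        have a4 := bt_pos N θ' (t - x)
        have a5 : 1 ≤ Real.exp (θ' * N x) := Real.one_le_exp hu0
        constructor
        · -- b(t) - b(t-x) ≤ (e-1) b(t)
          have a6 : bt N θ' t * (2 - Real.exp (θ' * N x)) ≤ bt N θ' (t - x) := by
            have a7 : (2 - Real.exp (θ' * N x)) * Real.exp (θ' * N x) ≤ 1 := by nlinarith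
            rcases le_or_gt (2 - Real.exp (θ' * N x)) 0 with h0 | h0
            · have : bt N θ' t * (2 - Real.exp (θ' * N x)) ≤ 0 :=
                mul_nonpos_of_nonneg_of_nonpos a3.le h0
              linarith
            · calc bt N θ' t * (2 - Real.exp (θ' * N x))
                  ≤ (Real.exp (θ' * N x) * bt N θ' (t - x)) * (2 - Real.exp (θ' * N x)) :=
                    mul_le_mul_of_nonneg_right a2 h0.le
                _ = ((2 - Real.exp (θ' * N x)) * Real.exp (θ' * N x)) * bt N θ' (t - x) := by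
                    ring
                _ ≤ 1 * bt N θ' (t - x) := mul_le_mul_of_nonneg_right a7 a4.le
                _ = _ := one_mul _
          nlinarith
        · nlinarith
      refine (Finset.sum_le_sum fun t _ => h3 t).trans ?_
      rw [← Finset.mul_sum, (bt_pw N θ').2, mul_one]
      have h4 := (abs_le.1 (Real.abs_exp_sub_one_sub_id_le (by rw [abs_of_nonneg hu0]; exact hu))).2
      nlinarith
    have h5 := norm_nonneg (1 - ZMod.stdAddChar (r * x))
    nlinarith
  · have h1 : ‖1 - ZMod.stdAddChar (r * x)‖ ≤ 2 := by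
      refine (norm_sub_le _ _).trans ?_
      rw [norm_one, AddChar.norm_apply]
      norm_num
    linarith

theorem Dissoc_mono {μ : ZMod M → ℝ} {Λ Λ' : Finset (ZMod M)} (h : Dissoc μ Λ)
    (hs : Λ' ⊆ Λ) : Dissoc μ Λ' := by
  classical
  intro ε hε hne
  obtain ⟨l, hl, hl0⟩ := hne
  set ε' : ZMod M → ℤ := fun l => if l ∈ Λ' then ε l else 0 with hε'
  have h1 : ∀ l, ε' l = -1 ∨ ε' l = 0 ∨ ε' l = 1 := by
    intro l
    simp only [hε']
    split_ifs
    · exact hε l
    · exact Or.inr (Or.inl rfl)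
  have h2 := h ε' h1 ⟨l, hs hl, by simp only [hε', if_pos hl]; exact hl0⟩
  have h3 : ∑ l ∈ Λ, (ε' l : ZMod M) * l = ∑ l ∈ Λ', (ε l : ZMod M) * l := by
    rw [← Finset.sum_subset hs]
    · refine Finset.sum_congr rfl fun l hl => ?_
      simp only [hε', if_pos hl]
    · intro l _ hl
      simp only [hε', if_neg hl]
      simp
  rwa [h3] at h2

end Chang

open Chang in
theorem chang {N : ZMod M → ℝ} {D : ℝ} (hN : IsNrm N) (hD : Dbl N D) (hD0 : 0 ≤ D)
    {θ₅ θ' R : ℝ} (hθ₅ : 0 < θ₅) (hθ : 200 * R * (D + 1) * θ₅ ≤ θ') (hR : 1 ≤ R)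
    {X : Finset (ZMod M)} (hX : Real.exp (-R) ≤ ∑ u ∈ X, bt N θ₅ u) :
    ∃ Λ : Finset (ZMod M), (Λ.card : ℝ) ≤ 24 * R ∧
      ∀ r, 1 / 2 * (∑ u ∈ X, bt N θ₅ u) ^ 2 ≤
          ‖∑ u ∈ X, (bt N θ₅ u : ℂ) * ZMod.stdAddChar (r * u)‖ ^ 2 →
        ∀ x, ‖1 - ZMod.stdAddChar (r * x)‖ ≤ 7 * (θ' * N x + NG Λ.val x) := by
  classical
  have hθ' : 0 < θ' := lt_of_lt_of_le (by positivity) hθ
  set Sp : Finset (ZMod M) := Finset.univ.filter fun r =>
    1 / 2 * (∑ u ∈ X, bt N θ₅ u) ^ 2 ≤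
      ‖∑ u ∈ X, (bt N θ₅ u : ℂ) * ZMod.stdAddChar (r * u)‖ ^ 2 with hSp
  have hcard : ∀ Λ : Finset (ZMod M), Λ ⊆ Sp → Dissoc (bt N θ') Λ →
      (Λ.card : ℝ) ≤ 24 * R := by
    intro Λ hΛ hdis
    by_contra hcon
    push Not at hcon
    -- a subset of size `⌊24 R⌋ + 1`
    have h1 : ⌊24 * R⌋₊ + 1 ≤ Λ.card := by
      have : ⌊24 * R⌋₊ < Λ.card := by
        rw [Nat.floor_lt (by positivity)]
        exact hcon
      omega
    obtain ⟨Λ', hs, hc⟩ := Finset.exists_subset_card_eq h1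
    have h2 : (Λ'.card : ℝ) ≤ 24 * R + 1 := by
      rw [hc]
      push_cast
      have := Nat.floor_le (show (0 : ℝ) ≤ 24 * R by positivity)
      linarith
    have h3 : 24 * R < (Λ'.card : ℝ) := by
      rw [hc]
      push_cast
      exact Nat.lt_floor_add_one _
    have h4 : 4 * (Λ'.card : ℝ) * (D + 1) * θ₅ ≤ θ' := by
      refine le_trans ?_ hθ
      have h5 : 4 * (Λ'.card : ℝ) ≤ 200 * R := by linarith
      have h6 : 0 ≤ (D + 1) * θ₅ := by positivity
      calc 4 * (Λ'.card : ℝ) * (D + 1) * θ₅ = 4 * (Λ'.card : ℝ) * ((D + 1) * θ₅) := by ring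
        _ ≤ 200 * R * ((D + 1) * θ₅) := mul_le_mul_of_nonneg_right h5 h6
        _ = _ := by ring
    have h7 := dissoc_card_le hN hD hD0 hθ₅ hθ' hR hX (Dissoc_mono hdis hs) h4 (by
      intro l hl
      have := hΛ (hs hl)
      rw [hSp, Finset.mem_filter] at this
      exact this.2)
    linarith
  -- maximal dissociated subset
  have hne : ((Sp.powerset).filter fun Λ => Dissoc (bt N θ') Λ).Nonempty := by
    refine ⟨∅, ?_⟩
    rw [Finset.mem_filter]
    refine ⟨Finset.empty_mem_powerset _, ?_⟩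
    intro ε _ h
    obtain ⟨l, hl, _⟩ := h
    exact absurd hl (Finset.notMem_empty l)
  obtain ⟨Λ, hΛm, hmax⟩ := Finset.exists_max_image _ (fun Λ : Finset (ZMod M) => Λ.card) hne
  rw [Finset.mem_filter, Finset.mem_powerset] at hΛm
  obtain ⟨hΛs, hΛd⟩ := hΛm
  refine ⟨Λ, hcard Λ hΛs hΛd, ?_⟩
  intro r hr x
  have hNG : NG Λ.val x = ∑ l ∈ Λ, nrm (l * x) := rfl
  have hu0 : 0 ≤ θ' * N x := mul_nonneg hθ'.le (hN.nonneg x)
  have hnrm : ∀ y : ZMod M, 0 ≤ nrm y := fun y => by unfold nrm; positivity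
  have hsumle : ∑ l ∈ Λ, ‖1 - ZMod.stdAddChar (l * x)‖ ≤ 7 * NG Λ.val x := by
    rw [hNG, Finset.mul_sum]
    exact Finset.sum_le_sum fun l _ => norm_one_sub_char_le _
  by_cases hrΛ : r ∈ Λ
  · have h1 : ‖1 - ZMod.stdAddChar (r * x)‖ ≤ ∑ l ∈ Λ, ‖1 - ZMod.stdAddChar (l * x)‖ :=
      Finset.single_le_sum (f := fun l => ‖1 - ZMod.stdAddChar (l * x)‖)
        (fun l _ => norm_nonneg _) hrΛ
    linarith
  · have hins : ¬ Dissoc (bt N θ') (insert r Λ) := by
      intro hd
      have h1 := hmax (insert r Λ) (by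
        rw [Finset.mem_filter, Finset.mem_powerset]
        refine ⟨?_, hd⟩
        intro z hz
        rcases Finset.mem_insert.1 hz with h | h
        · rw [h, hSp, Finset.mem_filter]
          exact ⟨Finset.mem_univ _, hr⟩
        · exact hΛs h)
      rw [Finset.card_insert_of_notMem hrΛ] at h1
      omega
    unfold Dissoc at hins
    push Not at hins
    obtain ⟨ε, hε, ⟨l₀, hl₀, hl₀'⟩, hbig⟩ := hins
    rw [Finset.sum_insert hrΛ] at hbig
    set s := ∑ l ∈ Λ, (ε l : ZMod M) * l with hs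
    have hr0 : ε r ≠ 0 := by
      intro h0
      rw [h0, Int.cast_zero, zero_mul, zero_add] at hbig
      have hl₁ : l₀ ∈ Λ := by
        rcases Finset.mem_insert.1 hl₀ with h | h
        · rw [h] at hl₀'; exact absurd h0 hl₀'
        · exact h
      have := hΛd ε hε ⟨l₀, hl₁, hl₀'⟩
      linarith
    have hlarge := large_ft hN hθ' hbig x
    have hsum := norm_one_sub_sum_le Λ ε hε x
    rw [← hs] at hsum
    have hkey : ‖1 - ZMod.stdAddChar (r * x)‖ ≤
        ‖1 - ZMod.stdAddChar (((ε r : ZMod M) * r + s) * x)‖ +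
          ‖1 - ZMod.stdAddChar (s * x)‖ := by
      rcases hε r with h | h | h
      · rw [h]
        have e : -(r * x) = (((-1 : ℤ) : ZMod M) * r + s) * x + -(s * x) := by
          push_cast; ring
        rw [← norm_one_sub_neg (r * x), e, AddChar.map_add_eq_mul, ← norm_one_sub_neg (s * x)]
        exact norm_one_sub_mul_le (AddChar.norm_apply _ _)
      · exact absurd h hr0
      · rw [h]
        have e : r * x = (((1 : ℤ) : ZMod M) * r + s) * x + -(s * x) := by
          push_cast; ring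
        conv_lhs => rw [e]
        rw [AddChar.map_add_eq_mul, ← norm_one_sub_neg (s * x)]
        exact norm_one_sub_mul_le (AddChar.norm_apply _ _)
    linarith

end Vale.Agent.P057R3
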