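import Vale.Agent.P057R3.Weights1
import Vale.Agent.P057R3.Bohr

/-!
[G2] Doubling of the concrete weights.
-/

namespace Vale.Agent.P057R3

open Finset Vale.Agent.P057R3.Bohr

variable {M : ℕ} [NeZero M]

namespace DblNG

/-- all differences of elements of `S` are small on `Γ` -/
def Small (ρ : ℝ) (Γ : Multiset (ZMod M)) (S : Finset (ZMod M)) : Prop :=
  ∀ x ∈ S, ∀ y ∈ S, ∀ r ∈ Γ, nrm (r * (x - y)) ≤ ρ

theorem geom_bound (J : ℕ) : ∑ j ∈ range J, Real.exp (-((j : ℝ) / 2)) ≤ 3 := by
  set q : ℝ := Real.exp (-(1 / 2)) with hq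
  have hq1 : q ≤ 2 / 3 := by
    have h1 := Real.add_one_le_exp (1 / 2 : ℝ)
    rw [hq, Real.exp_neg, inv_le_comm₀ (Real.exp_pos _) (by norm_num)]
    norm_num at h1 ⊢
    linarith
  have hq0 : 0 < q := Real.exp_pos _
  have h1 : ∑ j ∈ range J, Real.exp (-((j : ℝ) / 2)) = ∑ j ∈ range J, q ^ j := by
    refine Finset.sum_congr rfl fun j _ => ?_
    rw [hq, ← Real.exp_nat_mul]
    congr 1; ring
  rw [h1]
  have h2 : (∑ j ∈ range J, q ^ j) * (1 - q) = 1 - q ^ J := by
    have := geom_sum_mul q J
    linarith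
  have h3 : 0 < q ^ J := by positivity
  nlinarith

/-- same sign and same integer part means small difference -/
theorem cell_small {θ : ℝ} (hθ : 0 < θ) {u v : ℝ} (hs : (0 ≤ u) ↔ (0 ≤ v))
    (hf : ⌊θ * |u|⌋₊ = ⌊θ * |v|⌋₊) : |u - v| ≤ 1 / θ := by
  have h1 := Nat.floor_le (by positivity : 0 ≤ θ * |u|)
  have h2 := Nat.lt_floor_add_one (θ * |u|)
  have h3 := Nat.floor_le (by positivity : 0 ≤ θ * |v|)
  have h4 := Nat.lt_floor_add_one (θ * |v|)
  rw [hf] at h1 h2
  rw [le_div_iff₀ hθ]
  have key : |u - v| * θ = abs (θ * |u| - θ * |v|) := by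
    rcases le_or_gt 0 u with hu | hu
    · have hv := hs.1 hu
      rw [abs_of_nonneg hu, abs_of_nonneg hv, ← mul_sub, abs_mul, abs_of_pos hθ, mul_comm]
    · have hv : v < 0 := by
        by_contra h
        exact absurd (hs.2 (not_lt.1 h)) (not_le.2 hu)
      rw [abs_of_neg hu, abs_of_neg hv, ← mul_sub, abs_mul, abs_of_pos hθ, mul_comm,
        show -u - -v = -(u - v) by ring, abs_neg]
  rw [key, abs_le]
  constructor <;> linarith

/-- the inductive claim -/
theorem claim {θ : ℝ} (hθ : 0 < θ) (Γ : Multiset (ZMod M)) :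
    ∀ (f : ZMod M → ℝ) (K : ℝ), (∀ x, 0 ≤ f x) → 0 ≤ K →
      (∀ S : Finset (ZMod M), Small (1 / θ) Γ S → ∑ x ∈ S, f x ≤ K) →
      ∑ x, f x * Real.exp (-(θ / 2 * NG Γ x)) ≤ 6 ^ (Multiset.card Γ) * K := by
  classical
  induction Γ using Multiset.induction_on with
  | empty =>
    intro f K hf hK h
    have h1 := h Finset.univ (fun x _ y _ r hr => absurd hr (Multiset.notMem_zero r))
    simpa [NG] using h1
  | cons r Γ ih =>
    intro f K hf hK h
    set cell : ZMod M → Bool × ℕ := fun x =>
      (decide (0 ≤ ((r * x).valMinAbs : ℝ) / M), ⌊θ * |((r * x).valMinAbs : ℝ) / M|⌋₊) with hcell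
    set J : ℕ := (Finset.univ.sup fun x => (cell x).2) + 1 with hJ
    have hmaps : ∀ x ∈ (Finset.univ : Finset (ZMod M)),
        cell x ∈ (Finset.univ : Finset Bool) ×ˢ range J := by
      intro x _
      rw [Finset.mem_product, Finset.mem_range, hJ, Nat.lt_succ_iff]
      exact ⟨Finset.mem_univ _, Finset.le_sup (f := fun x => (cell x).2) (Finset.mem_univ x)⟩
    rw [← Finset.sum_fiberwise_of_maps_to hmaps]
    have hcellbd : ∀ c ∈ (Finset.univ : Finset Bool) ×ˢ range J,
        ∑ x with cell x = c, f x * Real.exp (-(θ / 2 * NG (r ::ₘ Γ) x)) ≤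
          Real.exp (-((c.2 : ℝ) / 2)) * (6 ^ (Multiset.card Γ) * K) := by
      intro c _
      have h1 := ih (fun x => if cell x = c then f x else 0) K (fun x => by
        split_ifs
        · exact hf x
        · exact le_rfl) hK (by
        intro S hS
        rw [← Finset.sum_filter]
        refine h _ ?_
        intro x hx y hy t ht
        have hx' := Finset.mem_filter.1 hx
        have hy' := Finset.mem_filter.1 hy
        rcases Multiset.mem_cons.1 ht with rfl | ht
        · rw [mul_sub]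
          refine (nrm_sub_le _ _).trans ?_
          have e1 : cell x = cell y := hx'.2.trans hy'.2.symm
          have e2 := congrArg Prod.fst e1
          have e3 := congrArg Prod.snd e1
          simp only [hcell, decide_eq_decide] at e2
          simp only [hcell] at e3
          exact cell_small hθ e2 e3
        · exact hS x hx'.1 y hy'.1 t ht)
      rw [Finset.sum_filter]
      refine le_trans ?_ (mul_le_mul_of_nonneg_left h1 (Real.exp_pos _).le)
      rw [Finset.mul_sum]
      refine Finset.sum_le_sum fun x _ => ?_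
      split_ifs with hx
      · rw [NG_cons]
        have e1 : (c.2 : ℝ) ≤ θ * nrm (r * x) := by
          have e2 : (cell x).2 = c.2 := by rw [hx]
          rw [← e2]
          have e3 : θ * nrm (r * x) = θ * |((r * x).valMinAbs : ℝ) / M| := by
            have hM : (0 : ℝ) < M := by exact_mod_cast NeZero.pos M
            unfold nrm
            rw [abs_div, abs_of_pos hM]
          rw [e3]
          exact Nat.floor_le (by positivity)
        have e2 : Real.exp (-(θ / 2 * (nrm (r * x) + NG Γ x))) ≤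
            Real.exp (-((c.2 : ℝ) / 2)) * Real.exp (-(θ / 2 * NG Γ x)) := by
          rw [← Real.exp_add]
          refine Real.exp_le_exp.2 ?_
          linarith
        calc f x * Real.exp (-(θ / 2 * (nrm (r * x) + NG Γ x)))
            ≤ f x * (Real.exp (-((c.2 : ℝ) / 2)) * Real.exp (-(θ / 2 * NG Γ x))) :=
              mul_le_mul_of_nonneg_left e2 (hf x)
          _ = _ := by ring
      · rw [zero_mul, mul_zero]
    refine (Finset.sum_le_sum hcellbd).trans ?_
    rw [Finset.sum_product]
    simp only [Finset.sum_const, Finset.card_univ, Fintype.card_bool, nsmul_eq_mul]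
    rw [← Finset.sum_mul, Multiset.card_cons, pow_succ]
    have h2 := geom_bound J
    have h3 : (0 : ℝ) ≤ 6 ^ (Multiset.card Γ) * K := by positivity
    push_cast
    nlinarith

end DblNG

open DblNG in
theorem dbl_NG (Γ : Multiset (ZMod M)) : Dbl (NG Γ) (4 * (Multiset.card Γ : ℝ)) := by
  classical
  intro θ hθ
  set d := Multiset.card Γ with hd
  set B : Finset (ZMod M) := Finset.univ.filter fun x => ∀ r ∈ Γ, nrm (r * x) ≤ 1 / θ with hB
  have h1 := claim hθ Γ (fun _ => 1) (B.card : ℝ) (fun _ => zero_le_one) (Nat.cast_nonneg _) (by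
    intro S hS
    rw [Finset.sum_const, nsmul_eq_mul, mul_one]
    rcases S.eq_empty_or_nonempty with rfl | ⟨x0, hx0⟩
    · simp
    · have h2 : S.card ≤ B.card := by
        refine Finset.card_le_card_of_injOn (fun x => x - x0) ?_ ?_
        · intro x hx
          rw [Finset.mem_coe, hB, Finset.mem_filter]
          exact ⟨Finset.mem_univ _, fun r hr => hS x hx x0 hx0 r hr⟩
        · intro x _ y _ hxy
          exact sub_left_injective hxy
      exact_mod_cast h2)
  have h2 : Zf (NG Γ) (θ / 2) ≤ 6 ^ d * B.card := by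
    unfold Zf wt
    simpa using h1
  have h3 : (B.card : ℝ) * Real.exp (-(d : ℝ)) ≤ Zf (NG Γ) θ := by
    have e1 : ∀ x ∈ B, Real.exp (-(d : ℝ)) ≤ wt (NG Γ) θ x := by
      intro x hx
      have hx' := (Finset.mem_filter.1 hx).2
      unfold wt
      refine Real.exp_le_exp.2 (neg_le_neg ?_)
      have e2 : NG Γ x ≤ d * (1 / θ) := by
        unfold NG
        have := Multiset.sum_le_card_nsmul (Γ.map fun r => nrm (r * x)) (1 / θ) (by
          intro y hy
          obtain ⟨r, hr, rfl⟩ := Multiset.mem_map.1 hy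
          exact hx' r hr)
        rw [Multiset.card_map, nsmul_eq_mul] at this
        exact this
      calc θ * NG Γ x ≤ θ * (d * (1 / θ)) := mul_le_mul_of_nonneg_left e2 hθ.le
        _ = d := by field_simp
    calc (B.card : ℝ) * Real.exp (-(d : ℝ)) = ∑ _x ∈ B, Real.exp (-(d : ℝ)) := by
          rw [Finset.sum_const, nsmul_eq_mul]
      _ ≤ ∑ x ∈ B, wt (NG Γ) θ x := Finset.sum_le_sum e1
      _ ≤ Zf (NG Γ) θ := Finset.sum_le_sum_of_subset_of_nonneg (Finset.subset_univ B)
          fun x _ _ => (Weights1.wt_pos _ _ x).le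
  have h4 : (B.card : ℝ) ≤ Real.exp d * Zf (NG Γ) θ := by
    have := mul_le_mul_of_nonneg_left h3 (Real.exp_pos (d : ℝ)).le
    rwa [mul_left_comm, ← Real.exp_add, add_neg_cancel, Real.exp_zero, mul_one] at this
  have h5 : (6 : ℝ) ^ d ≤ Real.exp (3 * d) := by
    rw [show (3 * (d : ℝ)) = ((d : ℕ) : ℝ) * 3 by ring, Real.exp_nat_mul]
    refine pow_le_pow_left₀ (by norm_num) ?_ d
    have e1 : (2 : ℝ) ≤ Real.exp 1 := by
      have := Real.add_one_le_exp (1 : ℝ)
      linarith
    have e2 : Real.exp 3 = Real.exp 1 ^ 3 := by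
      rw [← Real.exp_nat_mul]; norm_num
    rw [e2]
    have e3 : (2 : ℝ) ^ 3 ≤ Real.exp 1 ^ 3 := pow_le_pow_left₀ (by norm_num) e1 3
    linarith
  have hZ := (Zf_pos (NG Γ) θ).le
  calc Zf (NG Γ) (θ / 2) ≤ 6 ^ d * B.card := h2
    _ ≤ Real.exp (3 * d) * (Real.exp d * Zf (NG Γ) θ) := by gcongr
    _ = Real.exp (4 * d) * Zf (NG Γ) θ := by
        rw [← mul_assoc, ← Real.exp_add]; congr 2; ring

end Vale.Agent.P057R3
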