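import Vale.Agent.P057R3.Half

/-!
[E] Decoupling.
-/

namespace Vale.Agent.P057R3

open Finset

variable {M : ℕ} [NeZero M]

/-- powers of a correlation as a sum over tuples -/
theorem Decouple.cr_pow (h : ZMod M → ℝ) (j : ℕ) (t t' : ZMod M) :
    cr h h (t - t') ^ j = ∑ s : Fin j → ZMod M, (∏ i, h (s i + t)) * ∏ i, h (s i + t') := by
  have h1 : cr h h (t - t') = ∑ s, h (s + t) * h (s + t') := by
    unfold cr
    rw [← Equiv.sum_comp (Equiv.addRight t')]
    refine Finset.sum_congr rfl fun s _ => ?_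
    simp only [Equiv.coe_addRight]
    rw [show s + t' + (t - t') = s + t by ring]
    ring
  rw [h1, Fintype.sum_pow]
  refine Finset.sum_congr rfl fun s _ => ?_
  rw [Finset.prod_mul_distrib]

/-- exchanging sums -/
theorem Decouple.swap {S : Type*} [Fintype S] (β : ZMod M → ℝ) (a b : S → ZMod M → ℝ) :
    ∑ t, ∑ t', β t * β t' * ∑ s, a s t * b s t' =
      ∑ s, (∑ t, β t * a s t) * ∑ t', β t' * b s t' := by
  calc ∑ t, ∑ t', β t * β t' * ∑ s, a s t * b s t'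
      = ∑ t, ∑ t', ∑ s, (β t * a s t) * (β t' * b s t') := by
        refine Finset.sum_congr rfl fun t _ => Finset.sum_congr rfl fun t' _ => ?_
        rw [Finset.mul_sum]
        exact Finset.sum_congr rfl fun s _ => by ring
    _ = ∑ t, ∑ s, ∑ t', (β t * a s t) * (β t' * b s t') :=
        Finset.sum_congr rfl fun t _ => Finset.sum_comm
    _ = ∑ s, ∑ t, ∑ t', (β t * a s t) * (β t' * b s t') := Finset.sum_comm
    _ = ∑ s, (∑ t, β t * a s t) * ∑ t', β t' * b s t' := by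
        refine Finset.sum_congr rfl fun s _ => ?_
        rw [Finset.sum_mul_sum]

theorem Decouple.Mom_eq (β h : ZMod M → ℝ) (j : ℕ) :
    Mom β (cr h h) j = ∑ s : Fin j → ZMod M, (∑ t, β t * ∏ i, h (s i + t)) ^ 2 := by
  unfold Mom
  simp_rw [Decouple.cr_pow]
  rw [Decouple.swap β (fun (s : Fin j → ZMod M) t => ∏ i, h (s i + t))
    (fun (s : Fin j → ZMod M) t => ∏ i, h (s i + t))]
  exact Finset.sum_congr rfl fun s _ => by rw [sq]

theorem Mom_cr_nonneg (β h : ZMod M → ℝ) (j : ℕ) : 0 ≤ Mom β (cr h h) j := by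
  rw [Decouple.Mom_eq]
  exact Finset.sum_nonneg fun s _ => sq_nonneg _

/-- the pointwise Cauchy-Schwarz bound -/
theorem Decouple.fixed {β : ZMod M → ℝ} (hβ : ∀ x, β (-x) = β x) (h : ZMod M → ℝ) (p : ℕ)
    (w : ZMod M) :
    ∑ t, ∑ t', β t * β t' * cv h h (w + t - t') ^ p ≤ Mom β (cr h h) p := by
  have h1 : ∀ t t', cv h h (w + t - t') ^ p =
      ∑ s : Fin p → ZMod M, (∏ i, h (s i + t)) * ∏ i, h (w - t' - s i) := by
    intro t t'
    have h2 : cv h h (w + t - t') = ∑ s, h (s + t) * h (w - t' - s) := by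
      unfold cv
      rw [← Equiv.sum_comp (Equiv.addRight t)]
      refine Finset.sum_congr rfl fun s _ => ?_
      simp only [Equiv.coe_addRight]
      rw [show w + t - t' - (s + t) = w - t' - s by ring]
    rw [h2, Fintype.sum_pow]
    exact Finset.sum_congr rfl fun s _ => by rw [Finset.prod_mul_distrib]
  simp_rw [h1]
  rw [Decouple.swap β (fun (s : Fin p → ZMod M) t => ∏ i, h (s i + t))
    (fun (s : Fin p → ZMod M) t' => ∏ i, h (w - t' - s i))]
  -- the second factor is a relabelling of the first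
  have h3 : ∑ s : Fin p → ZMod M, (∑ t', β t' * ∏ i, h (w - t' - s i)) ^ 2 =
      ∑ s : Fin p → ZMod M, (∑ t, β t * ∏ i, h (s i + t)) ^ 2 := by
    rw [← Equiv.sum_comp (Equiv.arrowCongr (Equiv.refl (Fin p)) (Equiv.subLeft w))]
    refine Finset.sum_congr rfl fun s _ => ?_
    congr 1
    rw [← Equiv.sum_comp (Equiv.neg (ZMod M))]
    refine Finset.sum_congr rfl fun t _ => ?_
    simp only [Equiv.neg_apply]
    rw [hβ]
    congr 1
    refine Finset.prod_congr rfl fun i _ => ?_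
    congr 1
    simp only [Equiv.arrowCongr_apply, Equiv.coe_refl, Equiv.refl_symm, Function.comp,
      Equiv.subLeft_apply, id]
    ring
  rw [Decouple.Mom_eq]
  have h4 : ∀ s : Fin p → ZMod M,
      (∑ t, β t * ∏ i, h (s i + t)) * ∑ t', β t' * ∏ i, h (w - t' - s i) ≤
        ((∑ t, β t * ∏ i, h (s i + t)) ^ 2 + (∑ t', β t' * ∏ i, h (w - t' - s i)) ^ 2) / 2 := by
    intro s
    nlinarith [sq_nonneg ((∑ t, β t * ∏ i, h (s i + t)) - ∑ t', β t' * ∏ i, h (w - t' - s i))]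
  refine (Finset.sum_le_sum fun s _ => h4 s).trans ?_
  rw [← Finset.sum_div, Finset.sum_add_distrib, h3]
  linarith

theorem decouple (hM : Odd M) {N : ZMod M → ℝ} {D : ℝ} (hN : IsNrm N) (hD : Dbl N D)
    {θ₂ θ₁ : ℝ} (hθ₂ : 0 < θ₂) (hθ₁ : 0 < θ₁) (h12 : 8 * D * θ₂ ≤ θ₁) (h : ZMod M → ℝ)
    {p : ℕ} (hp : Even p) :
    ∑ z, bt N θ₂ z * (cv h h (2 * z)) ^ p ≤ 2 * Mom (bt (hf N) θ₁) (cr h h) p := by
  have hN' := isNrm_hf hN
  have hD' := dbl_hf hM hD
  set N' := hf N with hN'def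
  have h1 : ∑ z, bt N θ₂ z * (cv h h (2 * z)) ^ p = ∑ w, bt N' θ₂ w * (cv h h w) ^ p := by
    rw [← Equiv.sum_comp (Half.dbl hM) (fun w => bt N' θ₂ w * (cv h h w) ^ p)]
    refine Finset.sum_congr rfl fun z _ => ?_
    rw [Half.dbl_apply, hN'def, Half.bt_hf hM]
  rw [h1]
  have h2 := bt_smooth hN' hD' hθ₂.le hθ₁ (g := fun w => (cv h h w) ^ p) fun w => hp.pow_nonneg _
  have hE0 : 0 < Real.exp (2 * θ₂ * D / θ₁) := Real.exp_pos _
  have h3 := bt_smooth hN' hD' hθ₂.le hθ₁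
    (g := fun w => ∑ t, bt N' θ₁ t * (cv h h (w + t)) ^ p) fun w =>
      Finset.sum_nonneg fun t _ => mul_nonneg (bt_pos N' θ₁ t).le (hp.pow_nonneg _)
  have h4 : ∑ x, ∑ t, bt N' θ₂ x * bt N' θ₁ t * (cv h h (x + t)) ^ p =
      ∑ x, bt N' θ₂ x * ∑ t, bt N' θ₁ t * (cv h h (x + t)) ^ p := by
    refine Finset.sum_congr rfl fun x _ => ?_
    rw [Finset.mul_sum]
    exact Finset.sum_congr rfl fun t _ => by ring
  rw [h4] at h2
  -- the doubly smoothed average is at most the moment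
  have h5 : ∑ x, ∑ t', bt N' θ₂ x * bt N' θ₁ t' *
      ∑ t, bt N' θ₁ t * (cv h h (x + t' + t)) ^ p ≤ Mom (bt N' θ₁) (cr h h) p := by
    have h6 : ∀ x, ∑ t', bt N' θ₂ x * bt N' θ₁ t' *
        ∑ t, bt N' θ₁ t * (cv h h (x + t' + t)) ^ p ≤
          bt N' θ₂ x * Mom (bt N' θ₁) (cr h h) p := by
      intro x
      have h7 := Decouple.fixed (β := bt N' θ₁) (fun y => bt_neg hN' θ₁ y) h p x
      have h8 : ∑ t', bt N' θ₂ x * bt N' θ₁ t' *
          ∑ t, bt N' θ₁ t * (cv h h (x + t' + t)) ^ p =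
          bt N' θ₂ x * ∑ t, ∑ t', bt N' θ₁ t * bt N' θ₁ t' * cv h h (x + t - t') ^ p := by
        rw [Finset.sum_comm, Finset.mul_sum, ← Equiv.sum_comp (Equiv.neg (ZMod M))]
        refine Finset.sum_congr rfl fun t' _ => ?_
        rw [Finset.mul_sum, Finset.mul_sum]
        refine Finset.sum_congr rfl fun t _ => ?_
        simp only [Equiv.neg_apply]
        rw [bt_neg hN' θ₁ t', show x + -t' + t = x + t - t' by ring]
        ring
      rw [h8]
      exact mul_le_mul_of_nonneg_left h7 (bt_pos N' θ₂ x).le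
    refine (Finset.sum_le_sum fun x _ => h6 x).trans ?_
    rw [← Finset.sum_mul, (bt_pw N' θ₂).2, one_mul]
  have hMom := Mom_cr_nonneg (bt N' θ₁) h p
  have hexp : Real.exp (2 * θ₂ * D / θ₁) ^ 2 ≤ 2 := by
    rw [← Real.exp_nat_mul]
    have h9 : ((2 : ℕ) : ℝ) * (2 * θ₂ * D / θ₁) ≤ 1 / 2 := by
      rw [← mul_div_assoc, div_le_iff₀ hθ₁]
      push_cast
      linarith
    refine (Real.exp_le_exp.2 h9).trans ?_
    have h10 : Real.exp (1 / 2) = Real.sqrt (Real.exp 1) := by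
      rw [Real.exp_half]
    rw [h10]
    refine Real.sqrt_le_iff.2 ⟨by norm_num, ?_⟩
    have := Real.exp_one_lt_d9
    norm_num
    linarith
  calc ∑ w, bt N' θ₂ w * (cv h h w) ^ p
      ≤ Real.exp (2 * θ₂ * D / θ₁) * ∑ x, bt N' θ₂ x * ∑ t, bt N' θ₁ t * (cv h h (x + t)) ^ p := h2
    _ ≤ Real.exp (2 * θ₂ * D / θ₁) * (Real.exp (2 * θ₂ * D / θ₁) *
        ∑ x, ∑ t', bt N' θ₂ x * bt N' θ₁ t' *
          ∑ t, bt N' θ₁ t * (cv h h (x + t' + t)) ^ p) := mul_le_mul_of_nonneg_left h3 hE0.le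
    _ ≤ Real.exp (2 * θ₂ * D / θ₁) * (Real.exp (2 * θ₂ * D / θ₁) *
        Mom (bt N' θ₁) (cr h h) p) := by gcongr
    _ = Real.exp (2 * θ₂ * D / θ₁) ^ 2 * Mom (bt N' θ₁) (cr h h) p := by ring
    _ ≤ 2 * Mom (bt N' θ₁) (cr h h) p := mul_le_mul_of_nonneg_right hexp hMom

end Vale.Agent.P057R3
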