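import Mathlib

/-!
Definitions for the upper bound for sets without three term progressions (P057).
Everything lives on `ZMod M`; all sums are plain sums over `ZMod M`.
-/

namespace Vale.Agent.P057R3

open Finset

variable {M : ℕ} [NeZero M]

/-- distance of `y / M` to the nearest integer -/
noncomputable def nrm (y : ZMod M) : ℝ := |(y.valMinAbs : ℝ)| / M

/-- `N_Γ(x) = ∑_{r ∈ Γ} ‖r x / M‖` -/
noncomputable def NG (Γ : Multiset (ZMod M)) (x : ZMod M) : ℝ :=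
  (Γ.map fun r => nrm (r * x)).sum

/-- a nonnegative even subadditive function -/
structure IsNrm (N : ZMod M → ℝ) : Prop where
  nonneg : ∀ x, 0 ≤ N x
  zero : N 0 = 0
  neg : ∀ x, N (-x) = N x
  add : ∀ x y, N (x + y) ≤ N x + N y

/-- unnormalised weight -/
noncomputable def wt (N : ZMod M → ℝ) (θ : ℝ) (x : ZMod M) : ℝ := Real.exp (-(θ * N x))

/-- total weight -/
noncomputable def Zf (N : ZMod M → ℝ) (θ : ℝ) : ℝ := ∑ x, wt N θ x

/-- normalised weight: a probability measure on `ZMod M` -/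
noncomputable def bt (N : ZMod M → ℝ) (θ : ℝ) (x : ZMod M) : ℝ := wt N θ x / Zf N θ

/-- doubling with constant `exp D` -/
def Dbl (N : ZMod M → ℝ) (D : ℝ) : Prop :=
  ∀ θ : ℝ, 0 < θ → Zf N (θ / 2) ≤ Real.exp D * Zf N θ

/-- real indicator function -/
noncomputable def ind (A : Finset (ZMod M)) (x : ZMod M) : ℝ :=
  open Classical in if x ∈ A then 1 else 0

/-- density of `A` on the translate of the weight to `c` -/
noncomputable def dens (N : ZMod M → ℝ) (θ : ℝ) (A : Finset (ZMod M)) (c : ZMod M) : ℝ :=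
  ∑ x, bt N θ x * ind A (c + x)

/-- density of `A` on the weight itself -/
noncomputable def al (N : ZMod M → ℝ) (θ : ℝ) (A : Finset (ZMod M)) : ℝ :=
  ∑ x, bt N θ x * ind A x

/-- square root of the weight -/
noncomputable def sb (N : ZMod M → ℝ) (θ : ℝ) (x : ZMod M) : ℝ := Real.sqrt (bt N θ x)

/-- `F = 1_A √β` -/
noncomputable def FA (N : ZMod M → ℝ) (θ : ℝ) (A : Finset (ZMod M)) (x : ZMod M) : ℝ :=
  ind A x * sb N θ x

/-- `h = F - α₁ √β` -/
noncomputable def HA (N : ZMod M → ℝ) (θ : ℝ) (A : Finset (ZMod M)) (x : ZMod M) : ℝ :=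
  FA N θ A x - al N θ A * sb N θ x

/-- convolution -/
def cv (f g : ZMod M → ℝ) (w : ZMod M) : ℝ := ∑ y, f y * g (w - y)

/-- correlation -/
def cr (f g : ZMod M → ℝ) (w : ZMod M) : ℝ := ∑ y, f y * g (y + w)

/-- probability measure on `ZMod M` -/
def PW (μ : ZMod M → ℝ) : Prop := (∀ x, 0 ≤ μ x) ∧ ∑ x, μ x = 1

/-- `j`-th moment of `f (t - t')` for `t, t'` independent with law `β` -/
def Mom (β f : ZMod M → ℝ) (j : ℕ) : ℝ := ∑ t, ∑ t', β t * β t' * f (t - t') ^ j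

/-- `x ↦ N (x / 2)` -/
noncomputable def hf (N : ZMod M → ℝ) (x : ZMod M) : ℝ := N ((2 : ZMod M)⁻¹ * x)

/-- average of `g (t - t' + v)` for `t, t'` independent with law `lam` -/
def pr (lam g : ZMod M → ℝ) (v : ZMod M) : ℝ := ∑ t, ∑ t', lam t * lam t' * g (t - t' + v)

/-- smoothing of `g` by `μ` -/
def sm (μ g : ZMod M → ℝ) (z : ZMod M) : ℝ := ∑ t, μ t * g (z + t)

/-- Fourier transform -/
noncomputable def ft (μ : ZMod M → ℝ) (r : ZMod M) : ℂ :=
  ∑ x, (μ x : ℂ) * ZMod.stdAddChar (r * x)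

/-- `Λ` is dissociated with respect to `μ` -/
def Dissoc (μ : ZMod M → ℝ) (Λ : Finset (ZMod M)) : Prop :=
  ∀ ε : ZMod M → ℤ, (∀ l, ε l = -1 ∨ ε l = 0 ∨ ε l = 1) → (∃ l ∈ Λ, ε l ≠ 0) →
    ‖ft μ (∑ l ∈ Λ, (ε l : ZMod M) * l)‖ ≤ 1 / 2

/-- sifted mass -/
def Nsf (β F : ZMod M → ℝ) {p : ℕ} (s : Fin p → ZMod M) : ℝ := ∑ t, β t * ∏ i, F (s i + t)

/-- `k(x) = E_{t ∼ lam} 1_S(x - t)` -/
noncomputable def kf (lam : ZMod M → ℝ) (S : Finset (ZMod M)) (x : ZMod M) : ℝ :=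
  ∑ t, lam t * ind S (x - t)

/-- empirical version of `kf` -/
noncomputable def emp (S : Finset (ZMod M)) {m : ℕ} (a : Fin m → ZMod M) (x : ZMod M) : ℝ :=
  (∑ i, ind S (x - a i)) / m

end Vale.Agent.P057R3
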