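import Vale.Agent.P057R3.Weights1
import Vale.Agent.P057R3.Weights2

/-!
[V]: the density upper bound.
-/

namespace Vale.Agent.P057R3

open Finset

variable {M : ℕ} [NeZero M]

namespace DensUpper

theorem sb_pos (N : ZMod M → ℝ) (θ : ℝ) (x : ZMod M) : 0 < sb N θ x :=
  Real.sqrt_pos.2 (bt_pos N θ x)

omit [NeZero M] in
theorem ind_nonneg (A : Finset (ZMod M)) (x : ZMod M) : 0 ≤ ind A x := by
  unfold ind
  split_ifs <;> norm_num

theorem FA_nonneg (N : ZMod M → ℝ) (θ : ℝ) (A : Finset (ZMod M)) (x : ZMod M) :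
    0 ≤ FA N θ A x := mul_nonneg (ind_nonneg A x) (sb_pos N θ x).le

theorem al_nonneg (N : ZMod M → ℝ) (θ : ℝ) (A : Finset (ZMod M)) : 0 ≤ al N θ A :=
  Finset.sum_nonneg fun x _ => mul_nonneg (bt_pos N θ x).le (ind_nonneg A x)

theorem exp_small {x : ℝ} (_h0 : 0 ≤ x) (h : x ≤ 7 / 10000) : Real.exp x ≤ 1 + 1 / 1000 := by
  have h1 := Real.add_one_le_exp (-(7 / 10000 : ℝ))
  have h2 : Real.exp (7 / 10000) ≤ 1 + 1 / 1000 := by
    rw [Real.exp_neg] at h1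
    have h3 := Real.exp_pos (7 / 10000 : ℝ)
    have h4 : (9993 / 10000 : ℝ) * Real.exp (7 / 10000) ≤ 1 := by
      calc (9993 / 10000 : ℝ) * Real.exp (7 / 10000)
          ≤ (Real.exp (7 / 10000))⁻¹ * Real.exp (7 / 10000) := by
            refine mul_le_mul_of_nonneg_right ?_ h3.le
            linarith
        _ = 1 := inv_mul_cancel₀ h3.ne'
    linarith
  exact (Real.exp_le_exp.2 h).trans h2

/-- the translate of the indicator tilted by `e^{θ N₃}` -/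
theorem tilt_dens {N₃ : ZMod M → ℝ} {D₃ : ℝ} (hN₃ : IsNrm N₃) (hD₃ : Dbl N₃ D₃)
    (hD₃0 : 0 ≤ D₃) {θ θ₃ : ℝ} (hθ : 0 < θ) (hθ₃ : 10 ^ 4 * (D₃ + 1) * θ ≤ θ₃)
    (A : Finset (ZMod M)) {Ds : ℝ} (hDs : ∀ c, dens N₃ (θ₃ - θ) A c ≤ Ds) (y : ZMod M) :
    ∑ x, bt N₃ θ₃ x * Real.exp (θ * N₃ x) * ind A (y + x) ≤ (1 + 1 / 1000) * Ds := by
  have hθ₃0 : 0 < θ₃ := lt_of_lt_of_le (by positivity) hθ₃
  have h1 : ∑ x, bt N₃ θ₃ x * Real.exp (θ * N₃ x) * ind A (y + x) =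
      (Zf N₃ (θ₃ - θ) / Zf N₃ θ₃) * dens N₃ (θ₃ - θ) A y := by
    unfold dens
    rw [Finset.mul_sum]
    refine Finset.sum_congr rfl fun x _ => ?_
    rw [bt_tilt]
    ring
  have h2 : Zf N₃ (θ₃ - θ) / Zf N₃ θ₃ ≤ 1 + 1 / 1000 := by
    have hD : 0 ≤ D₃ * θ := by positivity
    refine (Zf_ratio hN₃ hD₃ hθ₃0 hθ.le (by nlinarith)).trans ?_
    refine exp_small (by positivity) ?_
    rw [div_le_iff₀ hθ₃0]
    nlinarith
  have h3 : 0 ≤ dens N₃ (θ₃ - θ) A y :=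
    Finset.sum_nonneg fun x _ => mul_nonneg (bt_pos _ _ x).le (ind_nonneg A _)
  rw [h1]
  exact mul_le_mul h2 (hDs y) h3 (by norm_num)

/-- first factor -/
theorem factor {N N' N₃ : ZMod M → ℝ} {D₃ : ℝ} (hN : IsNrm N) (hN₃ : IsNrm N₃)
    (hD₃ : Dbl N₃ D₃) (hD₃0 : 0 ≤ D₃)
    (hle : ∀ x, N x ≤ 2 * N' x) (hle₃ : ∀ x, N' x ≤ N₃ x) {θ θ₃ : ℝ} (hθ : 0 < θ)
    {lam : ZMod M → ℝ} (hlam : PW lam) (hθ₃ : 10 ^ 4 * (D₃ + 1) * θ ≤ θ₃)
    (A : Finset (ZMod M)) {Ds : ℝ} (hDs : ∀ c, dens N₃ (θ₃ - θ) A c ≤ Ds) (z : ZMod M) :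
    sm (bt N₃ θ₃) (sm lam (FA N θ A)) z ≤
      (1 + 1 / 1000) * Ds * ∑ t, lam t * sb N θ (z + t) := by
  unfold sm
  have h1 : ∀ x t, FA N θ A (z + x + t) ≤
      Real.exp (θ * N₃ x) * ind A (z + t + x) * sb N θ (z + t) := by
    intro x t
    have e : z + x + t = z + t + x := by ring
    unfold FA
    rw [e]
    have h2 := sb_shift hN hθ.le (z + t) x
    have h3 : Real.exp (θ * N x / 2) ≤ Real.exp (θ * N₃ x) := by
      refine Real.exp_le_exp.2 ?_
      have := hle x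
      have := hle₃ x
      nlinarith
    calc ind A (z + t + x) * sb N θ (z + t + x)
        ≤ ind A (z + t + x) * (Real.exp (θ * N₃ x) * sb N θ (z + t)) := by
          refine mul_le_mul_of_nonneg_left (h2.trans ?_) (ind_nonneg A _)
          exact mul_le_mul_of_nonneg_right h3 (sb_pos N θ _).le
      _ = _ := by ring
  calc ∑ x, bt N₃ θ₃ x * ∑ t, lam t * FA N θ A (z + x + t)
      ≤ ∑ x, bt N₃ θ₃ x * ∑ t, lam t *
          (Real.exp (θ * N₃ x) * ind A (z + t + x) * sb N θ (z + t)) := by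
        refine Finset.sum_le_sum fun x _ => mul_le_mul_of_nonneg_left ?_ (bt_pos _ _ x).le
        exact Finset.sum_le_sum fun t _ => mul_le_mul_of_nonneg_left (h1 x t) (hlam.1 t)
    _ = ∑ t, lam t * sb N θ (z + t) *
          ∑ x, bt N₃ θ₃ x * Real.exp (θ * N₃ x) * ind A (z + t + x) := by
        simp only [Finset.mul_sum]
        rw [Finset.sum_comm]
        refine Finset.sum_congr rfl fun t _ => Finset.sum_congr rfl fun x _ => ?_
        ring
    _ ≤ ∑ t, lam t * sb N θ (z + t) * ((1 + 1 / 1000) * Ds) := by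
        refine Finset.sum_le_sum fun t _ => mul_le_mul_of_nonneg_left ?_
          (mul_nonneg (hlam.1 t) (sb_pos N θ _).le)
        exact tilt_dens hN₃ hD₃ hD₃0 hθ hθ₃ A hDs (z + t)
    _ = _ := by
        rw [← Finset.sum_mul]
        ring

/-- correlation of `√β` and `F` -/
theorem corr {N : ZMod M → ℝ} (hN : IsNrm N) {θ : ℝ} (hθ : 0 < θ)
    (A : Finset (ZMod M)) (t t' x : ZMod M) :
    ∑ z, sb N θ (z + t) * FA N θ A (z + x + t') ≤
      Real.exp (θ * N t / 2) * Real.exp (θ * N t' / 2) * Real.exp (θ * N x / 2) *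
        al N θ A := by
  rw [← Equiv.sum_comp (Equiv.subRight (x + t'))
    (fun z => sb N θ (z + t) * FA N θ A (z + x + t'))]
  unfold al
  rw [Finset.mul_sum]
  refine Finset.sum_le_sum fun y _ => ?_
  simp only [Equiv.subRight_apply]
  have e1 : y - (x + t') + t = y + (t + (-t' + -x)) := by ring
  have e2 : y - (x + t') + x + t' = y := by ring
  rw [e1, e2]
  have h1 := sb_shift hN hθ.le y (t + (-t' + -x))
  have h2 : N (t + (-t' + -x)) ≤ N t + N t' + N x := by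
    have a1 := hN.add t (-t' + -x)
    have a2 := hN.add (-t') (-x)
    rw [hN.neg, hN.neg] at a2
    linarith
  have h3 : Real.exp (θ * N (t + (-t' + -x)) / 2) ≤
      Real.exp (θ * N t / 2) * Real.exp (θ * N t' / 2) * Real.exp (θ * N x / 2) := by
    rw [← Real.exp_add, ← Real.exp_add]
    refine Real.exp_le_exp.2 ?_
    nlinarith
  have h4 : sb N θ y * sb N θ y = bt N θ y := Real.mul_self_sqrt (bt_pos N θ y).le
  unfold FA
  calc sb N θ (y + (t + (-t' + -x))) * (ind A y * sb N θ y)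
      ≤ (Real.exp (θ * N t / 2) * Real.exp (θ * N t' / 2) * Real.exp (θ * N x / 2) *
          sb N θ y) * (ind A y * sb N θ y) := by
        refine mul_le_mul_of_nonneg_right (h1.trans ?_)
          (mul_nonneg (ind_nonneg A y) (sb_pos N θ y).le)
        exact mul_le_mul_of_nonneg_right h3 (sb_pos N θ y).le
    _ = Real.exp (θ * N t / 2) * Real.exp (θ * N t' / 2) * Real.exp (θ * N x / 2) *
          (sb N θ y * sb N θ y * ind A y) := by ring
    _ = _ := by rw [h4]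

theorem cross {N : ZMod M → ℝ} (hN : IsNrm N) {θ : ℝ} (hθ : 0 < θ)
    {lam b₃ : ZMod M → ℝ} (hlam : ∀ t, 0 ≤ lam t) (hb₃ : ∀ x, 0 ≤ b₃ x)
    (A : Finset (ZMod M)) :
    ∑ z, (∑ t, lam t * sb N θ (z + t)) * sm b₃ (sm lam (FA N θ A)) z ≤
      (∑ t, lam t * Real.exp (θ * N t / 2)) ^ 2 * (∑ x, b₃ x * Real.exp (θ * N x / 2)) *
        al N θ A := by
  have h1 : ∑ z, (∑ t, lam t * sb N θ (z + t)) * sm b₃ (sm lam (FA N θ A)) z =
      ∑ t, ∑ x, ∑ t', lam t * b₃ x * lam t' *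
        ∑ z, sb N θ (z + t) * FA N θ A (z + x + t') := by
    have hz : ∀ z, (∑ t, lam t * sb N θ (z + t)) * sm b₃ (sm lam (FA N θ A)) z =
        ∑ t, ∑ x, ∑ t', lam t * b₃ x * lam t' * (sb N θ (z + t) * FA N θ A (z + x + t')) := by
      intro z
      unfold sm
      rw [Finset.sum_mul_sum]
      refine Finset.sum_congr rfl fun t _ => Finset.sum_congr rfl fun x _ => ?_
      simp only [Finset.mul_sum]
      refine Finset.sum_congr rfl fun t' _ => ?_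
      ring
    simp only [hz]
    rw [Finset.sum_comm]
    refine Finset.sum_congr rfl fun t _ => ?_
    rw [Finset.sum_comm]
    refine Finset.sum_congr rfl fun x _ => ?_
    rw [Finset.sum_comm]
    refine Finset.sum_congr rfl fun t' _ => ?_
    rw [Finset.mul_sum]
  rw [h1]
  have h2 : ∑ t, ∑ x, ∑ t', lam t * b₃ x * lam t' *
        ∑ z, sb N θ (z + t) * FA N θ A (z + x + t') ≤
      ∑ t, ∑ x, ∑ t', lam t * b₃ x * lam t' *
        (Real.exp (θ * N t / 2) * Real.exp (θ * N t' / 2) * Real.exp (θ * N x / 2) *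
        al N θ A) := by
    refine Finset.sum_le_sum fun t _ => Finset.sum_le_sum fun x _ =>
      Finset.sum_le_sum fun t' _ => ?_
    exact mul_le_mul_of_nonneg_left (corr hN hθ A t t' x)
      (mul_nonneg (mul_nonneg (hlam t) (hb₃ x)) (hlam t'))
  refine h2.trans (le_of_eq ?_)
  have h3 : ∀ t x, ∑ t', lam t * b₃ x * lam t' *
        (Real.exp (θ * N t / 2) * Real.exp (θ * N t' / 2) * Real.exp (θ * N x / 2) *
        al N θ A) = (lam t * Real.exp (θ * N t / 2)) * ((b₃ x * Real.exp (θ * N x / 2)) *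
        ((∑ t', lam t' * Real.exp (θ * N t' / 2)) * al N θ A)) := by
    intro t x
    rw [Finset.sum_mul, Finset.mul_sum, Finset.mul_sum]
    refine Finset.sum_congr rfl fun t' _ => ?_
    ring
  simp only [h3]
  simp only [← Finset.mul_sum, ← Finset.sum_mul]
  ring

theorem lam_exp {N N' : ZMod M → ℝ} {D : ℝ} (hN' : IsNrm N')
    (hD' : Dbl N' D) (hD0 : 0 ≤ D)
    (hle : ∀ x, N x ≤ 2 * N' x) {θ θp : ℝ} (hθ : 0 < θ)
    {q : ℕ} (hq : 1 ≤ q) {lam : ZMod M → ℝ} (hlam : PW lam)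
    (hlb : ∀ t, lam t ≤ Real.exp q * bt N' θp t)
    (hθp : 10 ^ 4 * (D + 1) * q * θ ≤ θp) :
    ∑ t, lam t * Real.exp (θ * N t / 2) ≤ 1 + 1 / 1000 := by
  have hq0 : (1 : ℝ) ≤ q := by exact_mod_cast hq
  have hqθ : 0 < (q : ℝ) * θ := by positivity
  have hθp0 : 0 < θp := lt_of_lt_of_le (by positivity) hθp
  have h1 : ∑ t, lam t * Real.exp (θ * N t / 2) ≤ ∑ t, lam t * Real.exp (θ * N' t) := by
    refine Finset.sum_le_sum fun t _ => mul_le_mul_of_nonneg_left ?_ (hlam.1 t)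
    refine Real.exp_le_exp.2 ?_
    have := hle t
    nlinarith
  refine h1.trans ?_
  have h2 := Real.pow_arith_mean_le_arith_mean_pow Finset.univ lam
    (fun t => Real.exp (θ * N' t)) (fun t _ => hlam.1 t) hlam.2
    (fun t _ => (Real.exp_pos _).le) (2000 * q)
  have h3 : ∑ t, lam t * Real.exp (θ * N' t) ^ (2000 * q) ≤
      Real.exp q * Real.exp (2 / 5) := by
    calc ∑ t, lam t * Real.exp (θ * N' t) ^ (2000 * q)
        ≤ ∑ t, (Real.exp q * bt N' θp t) * Real.exp ((2000 * q * θ) * N' t) := by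
          refine Finset.sum_le_sum fun t _ => ?_
          rw [← Real.exp_nat_mul]
          have e : ((2000 * q : ℕ) : ℝ) * (θ * N' t) = (2000 * q * θ) * N' t := by
            push_cast
            ring
          rw [e]
          exact mul_le_mul_of_nonneg_right (hlb t) (Real.exp_pos _).le
      _ = Real.exp q * ∑ t, bt N' θp t * Real.exp ((2000 * q * θ) * N' t) := by
          rw [Finset.mul_sum]
          refine Finset.sum_congr rfl fun t _ => ?_
          ring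
      _ ≤ Real.exp q * Real.exp (2 / 5) := by
          refine mul_le_mul_of_nonneg_left ?_ (Real.exp_pos _).le
          have hDq : 0 ≤ D * (q * θ) := by positivity
          refine (bt_exp hN' hD' hθp0 (by positivity) (by nlinarith)).trans ?_
          refine Real.exp_le_exp.2 ?_
          rw [div_le_iff₀ hθp0]
          nlinarith
  have h4 : Real.exp q * Real.exp (2 / 5) ≤ (1 + 1 / 1000) ^ (2000 * q) := by
    have h5 : Real.exp (7 / 10000) ≤ 1 + 1 / 1000 := exp_small (by norm_num) le_rfl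
    have h6 : Real.exp (7 / 10000) ^ (2000 * q) ≤ (1 + 1 / 1000) ^ (2000 * q) :=
      pow_le_pow_left₀ (Real.exp_pos _).le h5 _
    refine le_trans ?_ h6
    rw [← Real.exp_nat_mul, ← Real.exp_add]
    refine Real.exp_le_exp.2 ?_
    push_cast
    linarith
  have h7 := (h2.trans h3).trans h4
  exact (pow_le_pow_iff_left₀ (Finset.sum_nonneg fun t _ =>
    mul_nonneg (hlam.1 t) (Real.exp_pos _).le) (by norm_num) (by omega)).1 h7

end DensUpper

open DensUpper in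
theorem densUpper {N N' N₃ : ZMod M → ℝ} {D D₃ : ℝ} (hN : IsNrm N) (hN' : IsNrm N')
    (hN₃ : IsNrm N₃) (hD' : Dbl N' D) (hD₃ : Dbl N₃ D₃) (hD0 : 0 ≤ D) (hD₃0 : 0 ≤ D₃)
    (hle : ∀ x, N x ≤ 2 * N' x) (hle₃ : ∀ x, N' x ≤ N₃ x) {θ θp θ₃ : ℝ} (hθ : 0 < θ)
    {q : ℕ} (hq : 1 ≤ q) {lam : ZMod M → ℝ} (hlam : PW lam)
    (hlb : ∀ t, lam t ≤ Real.exp q * bt N' θp t)
    (hθp : 10 ^ 4 * (D + 1) * q * θ ≤ θp) (hθ₃ : 10 ^ 4 * (D₃ + 1) * θ ≤ θ₃)
    (A : Finset (ZMod M)) {Ds : ℝ} (hDs : ∀ c, dens N₃ (θ₃ - θ) A c ≤ Ds) :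
    ∑ z, sm (bt N₃ θ₃) (sm lam (FA N θ A)) z ^ 2 ≤ (1 + 8 / 1000) * Ds * al N θ A := by
  have hθ₃0 : 0 < θ₃ := lt_of_lt_of_le (by positivity) hθ₃
  have hb₃ : ∀ x, 0 ≤ bt N₃ θ₃ x := fun x => (bt_pos _ _ x).le
  have hDs0 : 0 ≤ Ds := le_trans (Finset.sum_nonneg fun x _ =>
    mul_nonneg (bt_pos _ _ x).le (ind_nonneg A _)) (hDs 0)
  have hsm : ∀ z, 0 ≤ sm (bt N₃ θ₃) (sm lam (FA N θ A)) z := fun z =>
    Finset.sum_nonneg fun x _ => mul_nonneg (hb₃ x) (Finset.sum_nonneg fun t _ =>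
      mul_nonneg (hlam.1 t) (FA_nonneg N θ A _))
  have h1 : ∑ z, sm (bt N₃ θ₃) (sm lam (FA N θ A)) z ^ 2 ≤
      (1 + 1 / 1000) * Ds *
        ∑ z, (∑ t, lam t * sb N θ (z + t)) * sm (bt N₃ θ₃) (sm lam (FA N θ A)) z := by
    rw [Finset.mul_sum]
    refine Finset.sum_le_sum fun z _ => ?_
    have h2 := factor hN hN₃ hD₃ hD₃0 hle hle₃ hθ hlam hθ₃ A hDs z
    calc sm (bt N₃ θ₃) (sm lam (FA N θ A)) z ^ 2
        = sm (bt N₃ θ₃) (sm lam (FA N θ A)) z * sm (bt N₃ θ₃) (sm lam (FA N θ A)) z := sq _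
      _ ≤ ((1 + 1 / 1000) * Ds * ∑ t, lam t * sb N θ (z + t)) *
            sm (bt N₃ θ₃) (sm lam (FA N θ A)) z := mul_le_mul_of_nonneg_right h2 (hsm z)
      _ = _ := by ring
  have h3 := cross hN hθ hlam.1 hb₃ A
  have hT := lam_exp (N := N) hN' hD' hD0 hle hθ hq hlam hlb hθp
  have hT0 : 0 ≤ ∑ t, lam t * Real.exp (θ * N t / 2) :=
    Finset.sum_nonneg fun t _ => mul_nonneg (hlam.1 t) (Real.exp_pos _).le
  have hS0 : 0 ≤ ∑ x, bt N₃ θ₃ x * Real.exp (θ * N x / 2) :=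
    Finset.sum_nonneg fun t _ => mul_nonneg (hb₃ t) (Real.exp_pos _).le
  have hS : ∑ x, bt N₃ θ₃ x * Real.exp (θ * N x / 2) ≤ 1 + 1 / 1000 := by
    have h4 : ∑ x, bt N₃ θ₃ x * Real.exp (θ * N x / 2) ≤
        ∑ x, bt N₃ θ₃ x * Real.exp (θ * N₃ x) := by
      refine Finset.sum_le_sum fun x _ => mul_le_mul_of_nonneg_left ?_ (hb₃ x)
      refine Real.exp_le_exp.2 ?_
      have := hle x
      have := hle₃ x
      nlinarith
    refine h4.trans ?_
    have hDθ : 0 ≤ D₃ * θ := by positivity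
    refine (bt_exp hN₃ hD₃ hθ₃0 hθ.le (by nlinarith)).trans ?_
    refine exp_small (by positivity) ?_
    rw [div_le_iff₀ hθ₃0]
    nlinarith
  have hal := al_nonneg N θ A
  have h5 : (∑ t, lam t * Real.exp (θ * N t / 2)) ^ 2 *
      (∑ x, bt N₃ θ₃ x * Real.exp (θ * N x / 2)) ≤ (1 + 1 / 1000) ^ 2 * (1 + 1 / 1000) :=
    mul_le_mul (pow_le_pow_left₀ hT0 hT 2) hS hS0 (by norm_num)
  calc ∑ z, sm (bt N₃ θ₃) (sm lam (FA N θ A)) z ^ 2
      ≤ (1 + 1 / 1000) * Ds *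
        ∑ z, (∑ t, lam t * sb N θ (z + t)) * sm (bt N₃ θ₃) (sm lam (FA N θ A)) z := h1
    _ ≤ (1 + 1 / 1000) * Ds * ((1 + 1 / 1000) ^ 2 * (1 + 1 / 1000) * al N θ A) := by
        refine mul_le_mul_of_nonneg_left (h3.trans ?_) (by positivity)
        exact mul_le_mul_of_nonneg_right h5 hal
    _ ≤ (1 + 8 / 1000) * Ds * al N θ A := by
        have h6 : 0 ≤ Ds * al N θ A := mul_nonneg hDs0 hal
        nlinarith

end Vale.Agent.P057R3
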