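import Vale.Agent.P057R3.Defs

/-!
[F] Fourier analysis.
-/

namespace Vale.Agent.P057R3

open Finset

set_option linter.unusedSectionVars false

variable {M : ℕ} [NeZero M]

namespace Fourier

theorem sum_char (b : ZMod M) :
    ∑ r : ZMod M, ZMod.stdAddChar (r * b) = if b = 0 then (M : ℂ) else 0 := by
  rw [AddChar.sum_mulShift b (ZMod.isPrimitive_stdAddChar M)]
  simp [ZMod.card]

theorem char_neg (y : ZMod M) :
    (starRingEnd ℂ) (ZMod.stdAddChar y) = ZMod.stdAddChar (-y) := by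
  rw [AddChar.map_neg_eq_conj]

theorem norm_char (y : ZMod M) : ‖(ZMod.stdAddChar y : ℂ)‖ = 1 := AddChar.norm_apply _ _

theorem conj_ft (g : ZMod M → ℝ) (r : ZMod M) :
    (starRingEnd ℂ) (ft g r) = ∑ x, (g x : ℂ) * ZMod.stdAddChar (-(r * x)) := by
  unfold ft
  rw [map_sum]
  refine Finset.sum_congr rfl fun x _ => ?_
  rw [map_mul, Complex.conj_ofReal, char_neg]

theorem norm_ft_le {μ : ZMod M → ℝ} (hμ : PW μ) (r : ZMod M) : ‖ft μ r‖ ≤ 1 := by
  unfold ft
  refine (norm_sum_le _ _).trans ?_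
  rw [← hμ.2]
  refine Finset.sum_le_sum fun x _ => ?_
  rw [norm_mul, norm_char, mul_one, Complex.norm_real, Real.norm_of_nonneg (hμ.1 x)]

/-- smoothing a correlation -/
theorem pr_eq_cr (lam F : ZMod M → ℝ) (v : ZMod M) :
    pr lam (cr F F) v = cr (sm lam F) (sm lam F) v := by
  unfold pr cr sm
  have h1 : ∀ t t' : ZMod M, lam t * lam t' * ∑ y, F y * F (y + (t - t' + v)) =
      ∑ z, (lam t' * F (z + t')) * (lam t * F (z + v + t)) := by
    intro t t'
    rw [← Equiv.sum_comp (Equiv.addRight t'), Finset.mul_sum]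
    refine Finset.sum_congr rfl fun z _ => ?_
    simp only [Equiv.coe_addRight]
    rw [show z + t' + (t - t' + v) = z + v + t by ring]
    ring
  simp_rw [h1]
  calc ∑ t, ∑ t', ∑ z, (lam t' * F (z + t')) * (lam t * F (z + v + t))
      = ∑ t, ∑ z, ∑ t', (lam t' * F (z + t')) * (lam t * F (z + v + t)) :=
        Finset.sum_congr rfl fun t _ => Finset.sum_comm
    _ = ∑ z, ∑ t, ∑ t', (lam t' * F (z + t')) * (lam t * F (z + v + t)) := Finset.sum_comm
    _ = ∑ z, ∑ t', ∑ t, (lam t' * F (z + t')) * (lam t * F (z + v + t)) :=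
        Finset.sum_congr rfl fun z _ => Finset.sum_comm
    _ = _ := Finset.sum_congr rfl fun z _ => by rw [Finset.sum_mul_sum]

theorem cr_zero (G : ZMod M → ℝ) : cr G G 0 = ∑ z, G z ^ 2 := by
  unfold cr
  exact Finset.sum_congr rfl fun z _ => by rw [add_zero, sq]

end Fourier

open Vale.Agent.P057R3.Fourier

theorem parseval (g : ZMod M → ℝ) : ∑ z, g z ^ 2 = (1 / M : ℝ) * ∑ r, ‖ft g r‖ ^ 2 := by
  have hM : (M : ℝ) ≠ 0 := by exact_mod_cast NeZero.ne M
  have h1 : ((∑ r : ZMod M, ‖ft g r‖ ^ 2 : ℝ) : ℂ) = ((M * ∑ z, g z ^ 2 : ℝ) : ℂ) := by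
    push_cast
    have h2 : ∀ r : ZMod M, ((‖ft g r‖ : ℂ)) ^ 2 =
        ∑ x, ∑ y, (g x : ℂ) * (g y : ℂ) * ZMod.stdAddChar (r * (x - y)) := by
      intro r
      rw [← Complex.mul_conj', conj_ft]
      unfold ft
      rw [Finset.sum_mul_sum]
      refine Finset.sum_congr rfl fun x _ => Finset.sum_congr rfl fun y _ => ?_
      rw [show r * (x - y) = r * x + -(r * y) by ring, AddChar.map_add_eq_mul]
      ring
    simp_rw [h2]
    rw [Finset.sum_comm]
    rw [Finset.mul_sum]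
    refine Finset.sum_congr rfl fun x _ => ?_
    rw [Finset.sum_comm]
    have h3 : ∀ y, ∑ r : ZMod M, (g x : ℂ) * (g y : ℂ) * ZMod.stdAddChar (r * (x - y)) =
        if y = x then (g x : ℂ) * (g y : ℂ) * M else 0 := by
      intro y
      rw [← Finset.mul_sum, sum_char]
      by_cases h : y = x
      · subst h; simp
      · rw [if_neg h, if_neg (fun h' => h (sub_eq_zero.1 h').symm), mul_zero]
    simp_rw [h3]
    rw [Finset.sum_ite_eq' Finset.univ x]
    simp only [Finset.mem_univ, if_true]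
    ring
  have h4 : ∑ r : ZMod M, ‖ft g r‖ ^ 2 = M * ∑ z, g z ^ 2 := by exact_mod_cast h1
  rw [h4]
  field_simp

theorem ft_sm (μ g : ZMod M → ℝ) (r : ZMod M) :
    ft (sm μ g) r = (starRingEnd ℂ) (ft μ r) * ft g r := by
  rw [conj_ft]
  unfold ft sm
  rw [Finset.sum_mul]
  have h1 : ∀ z : ZMod M, ((∑ t, μ t * g (z + t) : ℝ) : ℂ) * ZMod.stdAddChar (r * z) =
      ∑ t, ((μ t : ℂ) * g (z + t)) * ZMod.stdAddChar (r * z) := by
    intro z
    push_cast
    rw [Finset.sum_mul]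
  simp_rw [h1]
  rw [Finset.sum_comm]
  refine Finset.sum_congr rfl fun t _ => ?_
  rw [Finset.mul_sum, ← Equiv.sum_comp (Equiv.addRight t)
    (fun x => (μ t : ℂ) * ZMod.stdAddChar (-(r * t)) * ((g x : ℂ) * ZMod.stdAddChar (r * x)))]
  refine Finset.sum_congr rfl fun z _ => ?_
  simp only [Equiv.coe_addRight]
  have h2 : (ZMod.stdAddChar (r * z) : ℂ) =
      ZMod.stdAddChar (-(r * t)) * ZMod.stdAddChar (r * (z + t)) := by
    rw [← AddChar.map_add_eq_mul]
    congr 1; ring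
  rw [h2]; ring

theorem pr_cr_zero (lam F : ZMod M → ℝ) : pr lam (cr F F) 0 = ∑ z, sm lam F z ^ 2 := by
  rw [pr_eq_cr, cr_zero]

theorem sum_pr_cr (lam xi F : ZMod M → ℝ) :
    ∑ u, ∑ u', xi u * xi u' * pr lam (cr F F) (u - u') = ∑ z, sm xi (sm lam F) z ^ 2 := by
  rw [← pr_cr_zero]
  unfold pr
  refine Finset.sum_congr rfl fun u _ => Finset.sum_congr rfl fun u' _ => ?_
  rw [add_zero]
  congr 1
  exact pr_eq_cr lam F (u - u')

end Vale.Agent.P057R3
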