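import Vale.Agent.P057R3.Weights2

/-!
[H] Halving.
-/

namespace Vale.Agent.P057R3

open Finset

set_option linter.unusedSectionVars false

variable {M : ℕ} [NeZero M]

/-- Multiplication by two as a bijection. -/
noncomputable def Half.dbl (hM : Odd M) : ZMod M ≃ ZMod M where
  toFun x := 2 * x
  invFun x := (2 : ZMod M)⁻¹ * x
  left_inv x := by
    have h : IsUnit (2 : ZMod M) := by
      have := (ZMod.isUnit_iff_coprime 2 M).2 (Nat.coprime_two_left.2 hM)
      exact_mod_cast this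
    show (2 : ZMod M)⁻¹ * (2 * x) = x
    rw [← mul_assoc, ZMod.inv_mul_of_unit _ h, one_mul]
  right_inv x := by
    have h : IsUnit (2 : ZMod M) := by
      have := (ZMod.isUnit_iff_coprime 2 M).2 (Nat.coprime_two_left.2 hM)
      exact_mod_cast this
    show 2 * ((2 : ZMod M)⁻¹ * x) = x
    rw [← mul_assoc, ZMod.mul_inv_of_unit _ h, one_mul]

theorem Half.dbl_apply (hM : Odd M) (x : ZMod M) : Half.dbl hM x = 2 * x := rfl

theorem Half.hf_two (hM : Odd M) (N : ZMod M → ℝ) (x : ZMod M) : hf N (2 * x) = N x := by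
  unfold hf
  have := (Half.dbl hM).left_inv x
  exact congrArg N this


theorem isNrm_hf {N : ZMod M → ℝ} (hN : IsNrm N) : IsNrm (hf N) where
  nonneg x := hN.nonneg _
  zero := by unfold hf; rw [mul_zero]; exact hN.zero
  neg x := by unfold hf; rw [mul_neg]; exact hN.neg _
  add x y := by unfold hf; rw [mul_add]; exact hN.add _ _

theorem Half.Zf_hf (hM : Odd M) (N : ZMod M → ℝ) (θ : ℝ) : Zf (hf N) θ = Zf N θ := by
  unfold Zf
  rw [← Equiv.sum_comp (Half.dbl hM)]
  refine Finset.sum_congr rfl fun x _ => ?_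
  unfold wt
  rw [Half.dbl_apply, Half.hf_two hM]

theorem Half.bt_hf (hM : Odd M) (N : ZMod M → ℝ) (θ : ℝ) (x : ZMod M) :
    bt (hf N) θ (2 * x) = bt N θ x := by
  unfold bt wt
  rw [Half.Zf_hf hM, Half.hf_two hM]

theorem dbl_hf (hM : Odd M) {N : ZMod M → ℝ} {D : ℝ} (hD : Dbl N D) : Dbl (hf N) D := by
  intro θ hθ
  rw [Half.Zf_hf hM, Half.Zf_hf hM]
  exact hD θ hθ

theorem le_hf (hM : Odd M) {N : ZMod M → ℝ} (hN : IsNrm N) (x : ZMod M) :
    N x ≤ 2 * hf N x := by
  obtain ⟨y, rfl⟩ := (Half.dbl hM).surjective x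
  rw [Half.dbl_apply, Half.hf_two hM, two_mul y]
  linarith [hN.add y y]


theorem hf_NG (Γ : Multiset (ZMod M)) :
    hf (NG Γ) = NG (Γ.map fun r => r * (2 : ZMod M)⁻¹) := by
  funext x
  unfold hf NG
  rw [Multiset.map_map]
  congr 1
  refine Multiset.map_congr rfl fun r _ => ?_
  simp only [Function.comp, mul_assoc]

end Vale.Agent.P057R3
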