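import Vale.Agent.P057R3.Unbalance

/-!
[L] No progressions gives a large p-norm.
-/

namespace Vale.Agent.P057R3

open Finset

set_option linter.unusedSectionVars false

variable {M : ℕ} [NeZero M]

namespace Lift

open Unbalance

theorem cv_HA (N : ZMod M → ℝ) (θ : ℝ) (A : Finset (ZMod M)) (w : ZMod M) :
    cv (HA N θ A) (HA N θ A) w = cv (FA N θ A) (FA N θ A) w -
      2 * al N θ A * cv (FA N θ A) (sb N θ) w + al N θ A ^ 2 * cv (sb N θ) (sb N θ) w := by
  have h1 : cv (sb N θ) (FA N θ A) w = cv (FA N θ A) (sb N θ) w := by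
    unfold cv
    rw [← Equiv.sum_comp (Equiv.subLeft w)]
    refine Finset.sum_congr rfl fun x _ => ?_
    simp only [Equiv.subLeft_apply, sub_sub_cancel]
    ring
  have h2 : cv (HA N θ A) (HA N θ A) w = cv (FA N θ A) (FA N θ A) w -
      al N θ A * (cv (FA N θ A) (sb N θ) w + cv (sb N θ) (FA N θ A) w) +
      al N θ A ^ 2 * cv (sb N θ) (sb N θ) w := by
    unfold cv HA
    rw [mul_add, Finset.mul_sum, Finset.mul_sum, Finset.mul_sum, ← Finset.sum_add_distrib,
      ← Finset.sum_sub_distrib, ← Finset.sum_add_distrib]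
    exact Finset.sum_congr rfl fun x _ => by ring
  rw [h2, h1]; ring

theorem sb_neg {N : ZMod M → ℝ} (hN : IsNrm N) (θ : ℝ) (x : ZMod M) :
    sb N θ (-x) = sb N θ x := by
  unfold sb; rw [bt_neg hN]

theorem cv_sb {N : ZMod M → ℝ} (hN : IsNrm N) (θ : ℝ) (F : ZMod M → ℝ) (w : ZMod M) :
    cv F (sb N θ) w = cr F (sb N θ) (-w) := by
  unfold cv cr
  refine Finset.sum_congr rfl fun x _ => ?_
  rw [← sb_neg hN θ (w - x), show -(w - x) = x + -w by ring]

theorem FF_small {N : ZMod M → ℝ} (hN : IsNrm N) {θ : ℝ} (hθ : 0 < θ) {A : Finset (ZMod M)}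
    (hfree : ThreeAPFree (A : Set (ZMod M))) {z : ZMod M} (hz : z ∈ A) :
    cv (FA N θ A) (FA N θ A) (2 * z) ≤ 1 / Zf N θ := by
  have h1 : cv (FA N θ A) (FA N θ A) (2 * z) = FA N θ A z * FA N θ A z := by
    unfold cv
    rw [Finset.sum_eq_single z]
    · rw [show 2 * z - z = z by ring]
    · intro y _ hy
      by_contra hne
      have hA : ∀ x, FA N θ A x ≠ 0 → x ∈ A := by
        intro x hx
        by_contra hxA
        apply hx
        unfold FA ind
        rw [if_neg hxA, zero_mul]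
      have h2 : y ∈ A := hA y (left_ne_zero_of_mul hne)
      have h3 : 2 * z - y ∈ A := hA _ (right_ne_zero_of_mul hne)
      exact hy (hfree (by exact_mod_cast h2) (by exact_mod_cast hz) (by exact_mod_cast h3)
        (by ring))
    · intro h; exact absurd (Finset.mem_univ z) h
  rw [h1]
  have h2 : FA N θ A z * FA N θ A z ≤ bt N θ z := by
    unfold FA
    rw [show ind A z * sb N θ z * (ind A z * sb N θ z) =
      (ind A z * ind A z) * (sb N θ z * sb N θ z) by ring, ind_sq, sb_sq]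
    have := bt_pos N θ z
    unfold ind; split_ifs <;> simp [this.le]
  exact h2.trans (bt_le hN hθ.le z)

end Lift

open Lift Unbalance in
theorem lift {N : ZMod M → ℝ} {D : ℝ} (hN : IsNrm N) (hD : Dbl N D) {θ θ₂ : ℝ}
    (hθ : 0 < θ) (hθ₂ : 0 < θ₂) {A : Finset (ZMod M)} (hfree : ThreeAPFree (A : Set (ZMod M)))
    {p : ℕ} (hp : Even p) {a₂ : ℝ} (ha₂ : a₂ ≤ al N θ₂ A)
    (htail : Real.exp (D - θ₂ / (2000 * θ)) ≤ a₂ / 2)
    (hZ : 1 / Zf N θ ≤ al N θ A ^ 2 / 1000) :
    a₂ / 2 * ((997 / 1000) * al N θ A ^ 2) ^ p ≤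
      ∑ z, bt N θ₂ z * (cv (HA N θ A) (HA N θ A) (2 * z)) ^ p := by
  set a := al N θ A with ha
  have ha0 : 0 ≤ a := Finset.sum_nonneg fun x _ => mul_nonneg (bt_pos N θ x).le (ind_nonneg A x)
  set c : ℝ := (997 / 1000) * a ^ 2 with hc
  have hc0 : 0 ≤ c := by positivity
  set bd : ZMod M → ℝ := fun z => if 1 / (1000 * θ) ≤ N z then 1 else 0 with hbd
  have h1 : ∀ z, bt N θ₂ z * ((ind A z - bd z) * c ^ p) ≤
      bt N θ₂ z * (cv (HA N θ A) (HA N θ A) (2 * z)) ^ p := by
    intro z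
    refine mul_le_mul_of_nonneg_left ?_ (bt_pos N θ₂ z).le
    by_cases hz : z ∈ A ∧ ¬ 1 / (1000 * θ) ≤ N z
    · have e1 : ind A z - bd z = 1 := by
        rw [hbd]; simp only; rw [if_neg hz.2]; unfold ind; rw [if_pos hz.1]; ring
      rw [e1, one_mul]
      have hNz := lt_of_not_ge hz.2
      have hw : θ * N (2 * z) / 2 ≤ 1 / 1000 := by
        have e2 : N (2 * z) ≤ 2 * N z := by
          rw [two_mul z]; linarith [hN.add z z]
        have e3 : θ * N z ≤ θ * (1 / (1000 * θ)) := mul_le_mul_of_nonneg_left hNz.le hθ.le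
        have e4 : θ * (1 / (1000 * θ)) = 1 / 1000 := by field_simp
        nlinarith
      set u := θ * N (2 * z) / 2 with hu
      have e5 := FF_small hN hθ hfree hz.1
      have e6 := (cr_sb_bounds hN hθ.le (FA_nonneg N θ A) (-(2 * z))).1
      rw [sum_FA_sb, hN.neg, ← hu, ← ha, ← cv_sb hN] at e6
      have e7 : cv (sb N θ) (sb N θ) (2 * z) ≤ 1 := by
        rw [cv_sb hN]
        have := (abs_le.1 (cr_le (sb N θ) (sb N θ) (-(2 * z)))).2
        rw [sum_sb] at this
        linarith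
      have e8 : 1 - u ≤ Real.exp (-u) := by
        have := Real.add_one_le_exp (-u)
        linarith
      have e9 : cv (HA N θ A) (HA N θ A) (2 * z) ≤ -c := by
        rw [cv_HA, ← ha]
        have g1 : 2 * a * ((1 - u) * a) ≤ 2 * a * cv (FA N θ A) (sb N θ) (2 * z) := by
          refine mul_le_mul_of_nonneg_left ?_ (by positivity)
          exact (mul_le_mul_of_nonneg_right e8 ha0).trans e6
        have g2 : a ^ 2 * cv (sb N θ) (sb N θ) (2 * z) ≤ a ^ 2 * 1 :=
          mul_le_mul_of_nonneg_left e7 (by positivity)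
        have g3 : 2 * a * ((1 - 1 / 1000) * a) ≤ 2 * a * ((1 - u) * a) := by gcongr
        nlinarith
      calc c ^ p ≤ (-(cv (HA N θ A) (HA N θ A) (2 * z))) ^ p :=
            pow_le_pow_left₀ hc0 (by linarith) p
        _ = (cv (HA N θ A) (HA N θ A) (2 * z)) ^ p := hp.neg_pow _
    · have e1 : ind A z - bd z ≤ 0 := by
        rw [hbd]; simp only
        by_cases hz1 : z ∈ A
        · have hz2 : 1 / (1000 * θ) ≤ N z := by
            by_contra h; exact hz ⟨hz1, h⟩
          rw [if_pos hz2]; unfold ind; rw [if_pos hz1]; norm_num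
        · unfold ind; rw [if_neg hz1]; split_ifs <;> norm_num
      have e2 : (ind A z - bd z) * c ^ p ≤ 0 :=
        mul_nonpos_of_nonpos_of_nonneg e1 (by positivity)
      exact e2.trans (hp.pow_nonneg _)
  refine le_trans ?_ (Finset.sum_le_sum fun z _ => h1 z)
  have h2 : ∑ z, bt N θ₂ z * ((ind A z - bd z) * c ^ p) =
      (al N θ₂ A - ∑ z, bt N θ₂ z * bd z) * c ^ p := by
    unfold al
    rw [← Finset.sum_sub_distrib, Finset.sum_mul]
    exact Finset.sum_congr rfl fun z _ => by ring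
  rw [h2]
  have h3 : ∑ z, bt N θ₂ z * bd z ≤ a₂ / 2 := by
    have e1 := bt_tail hN hD hθ₂ (1 / (1000 * θ))
    have e2 : ∑ t, bt N θ₂ t * bd t = ∑ x, if 1 / (1000 * θ) ≤ N x then bt N θ₂ x else 0 := by
      refine Finset.sum_congr rfl fun x _ => ?_
      rw [hbd]; simp only
      split_ifs <;> simp
    have e3 : θ₂ * (1 / (1000 * θ)) / 2 = θ₂ / (2000 * θ) := by
      field_simp; norm_num
    rw [e2]; rw [e3] at e1; exact e1.trans htail
  refine mul_le_mul_of_nonneg_right ?_ (by positivity)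
  linarith

end Vale.Agent.P057R3
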