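import Vale.Agent.P057R3.Unbalance

/-!
[M] Moments of `F ∘ F`.
-/

namespace Vale.Agent.P057R3

open Finset

set_option linter.unusedSectionVars false

variable {M : ℕ} [NeZero M]

theorem Mom_zero {β : ZMod M → ℝ} (hβ : PW β) (f : ZMod M → ℝ) : Mom β f 0 = 1 := by
  unfold Mom
  simp only [pow_zero, mul_one]
  simp_rw [← Finset.mul_sum, hβ.2, mul_one]
  exact hβ.2

theorem Mom_logconvex {β f : ZMod M → ℝ} (hβ : ∀ x, 0 ≤ β x) (hf0 : ∀ x, 0 ≤ f x) (j : ℕ) :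
    Mom β f (j + 1) ^ 2 ≤ Mom β f j * Mom β f (j + 2) := by
  have h1 : ∀ i, Mom β f i = ∑ x : ZMod M × ZMod M, β x.1 * β x.2 * f (x.1 - x.2) ^ i := by
    intro i
    unfold Mom
    rw [Fintype.sum_prod_type]
  rw [h1, h1, h1]
  refine Finset.sum_sq_le_sum_mul_sum_of_sq_le_mul _ (fun x _ => ?_) (fun x _ => ?_)
    (fun x _ => ?_)
  · have := hβ x.1; have := hβ x.2; have := hf0 (x.1 - x.2)
    positivity
  · have := hβ x.1; have := hβ x.2; have := hf0 (x.1 - x.2)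
    positivity
  · exact le_of_eq (by ring)

open Unbalance in
theorem Mom_FA_pos (N' N : ZMod M → ℝ) (θ₁ θ : ℝ) (A : Finset (ZMod M))
    (hα : 0 < al N θ A) (j : ℕ) : 0 < Mom (bt N' θ₁) (cr (FA N θ A) (FA N θ A)) j := by
  have hY0 : ∀ w, 0 ≤ cr (FA N θ A) (FA N θ A) w := fun w =>
    Finset.sum_nonneg fun x _ => mul_nonneg (FA_nonneg N θ A x) (FA_nonneg N θ A _)
  have h0 : cr (FA N θ A) (FA N θ A) 0 = al N θ A := by
    rw [← sum_FA_FA]
    unfold cr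
    exact Finset.sum_congr rfl fun x _ => by rw [add_zero]
  unfold Mom
  have hterm : ∀ t t', 0 ≤ bt N' θ₁ t * bt N' θ₁ t' * cr (FA N θ A) (FA N θ A) (t - t') ^ j := by
    intro t t'
    have e1 := (bt_pos N' θ₁ t).le
    have e2 := (bt_pos N' θ₁ t').le
    have e3 := hY0 (t - t')
    positivity
  refine Finset.sum_pos' (fun t _ => Finset.sum_nonneg fun t' _ => hterm t t')
    ⟨0, Finset.mem_univ _, Finset.sum_pos' (fun t' _ => hterm 0 t') ⟨0, Finset.mem_univ _, ?_⟩⟩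
  rw [sub_zero, h0]
  have e1 := bt_pos N' θ₁ 0
  positivity

open Unbalance in
theorem Mom_FA_succ_le (N' N : ZMod M → ℝ) (θ₁ θ : ℝ) (A : Finset (ZMod M)) (j : ℕ) :
    Mom (bt N' θ₁) (cr (FA N θ A) (FA N θ A)) (j + 1) ≤
      al N θ A * Mom (bt N' θ₁) (cr (FA N θ A) (FA N θ A)) j := by
  have hY0 : ∀ w, 0 ≤ cr (FA N θ A) (FA N θ A) w := fun w =>
    Finset.sum_nonneg fun x _ => mul_nonneg (FA_nonneg N θ A x) (FA_nonneg N θ A _)
  have hY1 : ∀ w, cr (FA N θ A) (FA N θ A) w ≤ al N θ A := by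
    intro w
    have := (abs_le.1 (cr_le (FA N θ A) (FA N θ A) w)).2
    rw [sum_FA_FA] at this
    linarith
  unfold Mom
  rw [Finset.mul_sum]
  refine Finset.sum_le_sum fun t _ => ?_
  rw [Finset.mul_sum]
  refine Finset.sum_le_sum fun t' _ => ?_
  have e1 := (bt_pos N' θ₁ t).le
  have e2 := (bt_pos N' θ₁ t').le
  have e3 := hY0 (t - t')
  rw [pow_succ]
  have h1 : bt N' θ₁ t * bt N' θ₁ t' * cr (FA N θ A) (FA N θ A) (t - t') ^ j *
      cr (FA N θ A) (FA N θ A) (t - t') ≤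
      bt N' θ₁ t * bt N' θ₁ t' * cr (FA N θ A) (FA N θ A) (t - t') ^ j * al N θ A :=
    mul_le_mul_of_nonneg_left (hY1 _) (by positivity)
  linarith

end Vale.Agent.P057R3
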