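import Vale.Agent.P057R3.Defs

/-!
[NC] A pure real sequence lemma.
-/

namespace Vale.Agent.P057R3

open Finset

/-- pure real sequence lemma -/
theorem nearConst {m : ℕ → ℝ} (hpos : ∀ j, 0 < m j) (h0 : m 0 = 1)
    (hlc : ∀ j, m (j + 1) ^ 2 ≤ m j * m (j + 2)) {a : ℝ} (ha : 0 < a) (ha1 : a ≤ 1)
    (hle : ∀ j, m (j + 1) ≤ a * m j) {P : ℕ} (hP : 1 ≤ P)
    (hbig : ((11 / 10) * a ^ 2) ^ P ≤ m P) :
    ∃ p : ℕ, P ≤ p ∧ (p : ℝ) ≤ P + 10 ^ 10 * (1 + Real.log (1 / a)) ∧
      m (p + 1) * m (p - 1) ≤ (1 + 1 / (3 * 10 ^ 9)) * m p ^ 2 ∧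
      (11 / 10) * a ^ 2 * m (p - 1) ≤ m p ∧ ((11 / 10) * a ^ 2) ^ p ≤ m p := by
  set r : ℕ → ℝ := fun j => m (j + 1) / m j with hr
  have hrpos : ∀ j, 0 < r j := fun j => div_pos (hpos _) (hpos _)
  have hrm : ∀ j, r j * m j = m (j + 1) := fun j => div_mul_cancel₀ _ (hpos j).ne'
  have hmono : Monotone r := by
    refine monotone_nat_of_le_succ fun j => ?_
    rw [hr]
    simp only
    rw [div_le_div_iff₀ (hpos _) (hpos _)]
    have := hlc j
    nlinarith
  have hra : ∀ j, r j ≤ a := fun j => (div_le_iff₀ (hpos j)).2 (hle j)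
  set c : ℝ := (11 / 10) * a ^ 2 with hc
  have hc0 : 0 < c := by positivity
  obtain ⟨Q, rfl⟩ : ∃ Q, P = Q + 1 := ⟨P - 1, by omega⟩
  -- `m (Q+1) ≤ r Q ^ (Q+1)`
  have hprod : ∀ j, j ≤ Q + 1 → m j ≤ r Q ^ j := by
    intro j
    induction j with
    | zero => intro _; rw [h0, pow_zero]
    | succ j ih =>
      intro hj
      rw [← hrm, pow_succ, mul_comm]
      exact mul_le_mul (ih (by omega)) (hmono (by omega)) (hrpos j).le
        (pow_nonneg (hrpos Q).le _)
  have hcQ : c ≤ r Q := by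
    by_contra h
    have h1 : r Q ^ (Q + 1) < c ^ (Q + 1) :=
      pow_lt_pow_left₀ (lt_of_not_ge h) (hrpos Q).le (by omega)
    have := hprod (Q + 1) le_rfl
    linarith
  have hcj : ∀ j, Q ≤ j → c ≤ r j := fun j hj => hcQ.trans (hmono hj)
  have hmp : ∀ j, c ^ (Q + 1 + j) ≤ m (Q + 1 + j) := by
    intro j
    induction j with
    | zero => exact hbig
    | succ j ih =>
      rw [← add_assoc, pow_succ, ← hrm, mul_comm]
      exact mul_le_mul (hcj _ (by omega)) ih (by positivity) (hrpos _).le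
  have hlog : 0 ≤ Real.log (1 / a) := Real.log_nonneg (by rw [le_div_iff₀ ha]; linarith)
  set δ : ℝ := 1 / (3 * 10 ^ 9) with hδ
  have hδ0 : 0 < δ := by rw [hδ]; norm_num
  set n : ℕ := ⌊(10 : ℝ) ^ 10 * (1 + Real.log (1 / a))⌋₊ with hn
  have hnle : (n : ℝ) ≤ 10 ^ 10 * (1 + Real.log (1 / a)) := Nat.floor_le (by positivity)
  have hnlt : (10 : ℝ) ^ 10 * (1 + Real.log (1 / a)) < n + 1 := Nat.lt_floor_add_one _
  have hex : ∃ i ≤ n, r (Q + i + 1) ≤ (1 + δ) * r (Q + i) := by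
    by_contra hcon
    push Not at hcon
    have h1 : ∀ i, i ≤ n + 1 → (1 + δ) ^ i * c ≤ r (Q + i) := by
      intro i
      induction i with
      | zero => intro _; simpa using hcQ
      | succ i ih =>
        intro hi
        have h2 := hcon i (by omega)
        calc (1 + δ) ^ (i + 1) * c = (1 + δ) * ((1 + δ) ^ i * c) := by ring
          _ ≤ (1 + δ) * r (Q + i) := mul_le_mul_of_nonneg_left (ih (by omega)) (by linarith)
          _ ≤ r (Q + (i + 1)) := by rw [← add_assoc]; exact h2.le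
    have h2 := (h1 (n + 1) le_rfl).trans (hra _)
    have h3 : δ / 2 ≤ Real.log (1 + δ) := by
      have h4 := Real.one_sub_inv_le_log_of_pos (by linarith : 0 < 1 + δ)
      have h5 : δ / 2 ≤ 1 - (1 + δ)⁻¹ := by
        rw [hδ]; norm_num
      linarith
    have h4 : 1 / a ≤ (1 + δ) ^ (n + 1) := by
      have h5 : Real.log (1 / a) ≤ ((n + 1 : ℕ) : ℝ) * Real.log (1 + δ) := by
        have h6 : ((n + 1 : ℕ) : ℝ) * (δ / 2) ≤ ((n + 1 : ℕ) : ℝ) * Real.log (1 + δ) :=
          mul_le_mul_of_nonneg_left h3 (Nat.cast_nonneg _)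
        refine le_trans ?_ h6
        push_cast
        rw [hδ]
        nlinarith
      rw [← Real.log_pow] at h5
      exact (Real.log_le_log_iff (by positivity) (by positivity)).1 h5
    have h5 : 1 / a * c ≤ a := (mul_le_mul_of_nonneg_right h4 hc0.le).trans h2
    have h6 : 1 / a * c = 11 / 10 * a := by
      rw [hc]; field_simp
    rw [h6] at h5
    linarith
  obtain ⟨i, hin, hi⟩ := hex
  refine ⟨Q + 1 + i, by omega, ?_, ?_, ?_, hmp i⟩
  · push_cast
    have : (i : ℝ) ≤ n := by exact_mod_cast hin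
    linarith
  · have e1 : Q + 1 + i - 1 = Q + i := by omega
    have e2 : Q + 1 + i = Q + i + 1 := by omega
    rw [e1, e2]
    have h1 := hrm (Q + i)
    have h2 := hrm (Q + i + 1)
    have h3 := hpos (Q + i)
    have h4 := hpos (Q + i + 1)
    rw [← h2]
    calc r (Q + i + 1) * m (Q + i + 1) * m (Q + i)
        ≤ ((1 + δ) * r (Q + i)) * m (Q + i + 1) * m (Q + i) := by gcongr
      _ = (1 + δ) * (r (Q + i) * m (Q + i)) * m (Q + i + 1) := by ring
      _ = (1 + δ) * m (Q + i + 1) ^ 2 := by rw [h1]; ring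
  · have e1 : Q + 1 + i - 1 = Q + i := by omega
    have e2 : Q + 1 + i = Q + i + 1 := by omega
    rw [e1, e2, ← hrm]
    exact mul_le_mul_of_nonneg_right (hcj _ (by omega)) (hpos _).le

end Vale.Agent.P057R3
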