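import Vale.Agent.P057R3.Sift1

/-!
[S2]: conclusion of the sifting.
-/

namespace Vale.Agent.P057R3

open Finset

variable {M : ℕ} [NeZero M]

namespace Sift2

open Sift1

theorem exp_half_le : Real.exp (1 / 2) ≤ 2 := by
  have h5 : Real.exp (1 / 2) ^ 2 = Real.exp 1 := by
    rw [← Real.exp_nat_mul]; norm_num
  have h6 := Real.exp_one_lt_d9
  have h7 : Real.exp (1 / 2) ^ 2 ≤ 2 ^ 2 := by rw [h5]; linarith
  exact (pow_le_pow_iff_left₀ (Real.exp_pos _).le (by norm_num) two_ne_zero).1 h7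

theorem FA_le (N : ZMod M → ℝ) (θ : ℝ) (A : Finset (ZMod M)) (x : ZMod M) :
    FA N θ A x ≤ sb N θ x := by
  unfold FA ind
  split_ifs
  · rw [one_mul]
  · rw [zero_mul]; exact (sb_pos N θ x).le

theorem prod_FA_le {N N' : ZMod M → ℝ} (hN : IsNrm N) (hle : ∀ x, N x ≤ 2 * N' x) {θ : ℝ}
    (hθ : 0 < θ) (A : Finset (ZMod M)) {p : ℕ} (s : Fin p → ZMod M) (t : ZMod M) :
    ∏ i, FA N θ A (s i + t) ≤ Real.exp (p * θ * N' t) * ∏ i, sb N θ (s i) := by
  have h1 : ∀ i ∈ (Finset.univ : Finset (Fin p)), FA N θ A (s i + t) ≤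
      Real.exp (θ * N' t) * sb N θ (s i) := by
    intro i _
    refine (FA_le N θ A _).trans ((sb_shift hN hθ.le (s i) t).trans ?_)
    refine mul_le_mul_of_nonneg_right ?_ (sb_pos N θ _).le
    refine Real.exp_le_exp.2 ?_
    have := hle t
    nlinarith
  refine (Finset.prod_le_prod (fun i _ => FA_nonneg N θ A _) h1).trans ?_
  rw [Finset.prod_mul_distrib, Finset.prod_const, Finset.card_univ, Fintype.card_fin,
    ← Real.exp_nat_mul, mul_assoc]

theorem lam_le {N N' : ZMod M → ℝ} {D : ℝ} (hN : IsNrm N) (hN' : IsNrm N')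
    (hD' : Dbl N' D) (hD0 : 0 ≤ D) (hle : ∀ x, N x ≤ 2 * N' x) {θ θ₁ : ℝ} (hθ : 0 < θ)
    (hθ₁ : 0 < θ₁) (A : Finset (ZMod M)) (hα : 0 < al N θ A) {p : ℕ}
    (hpθ : 4 * (D + 1) * p * θ ≤ θ₁) (s : Fin p → ZMod M) {c : ℝ} (hc : 0 < c)
    (hs : al N θ A ^ p / 8 * ∏ i, sb N θ (s i) ≤ c) (t : ZMod M) :
    bt N' θ₁ t * (∏ i, FA N θ A (s i + t)) / c ≤
      16 * (1 / al N θ A) ^ p * bt N' (θ₁ - p * θ) t := by
  have hap : 0 < al N θ A ^ p := pow_pos hα p
  have hb1 := (bt_pos N' θ₁ t).le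
  have hb2 := (bt_pos N' (θ₁ - p * θ) t).le
  have hpθ0 : 0 ≤ (p : ℝ) * θ := by positivity
  have hB : 0 < ∏ i, sb N θ (s i) := Finset.prod_pos fun i _ => sb_pos N θ _
  have h1 : (∏ i, sb N θ (s i)) / c ≤ 8 * (1 / al N θ A) ^ p := by
    rw [div_le_iff₀ hc, one_div, inv_pow]
    calc ∏ i, sb N θ (s i) = 8 * (al N θ A ^ p)⁻¹ * (al N θ A ^ p / 8 * ∏ i, sb N θ (s i)) := by
          field_simp
      _ ≤ 8 * (al N θ A ^ p)⁻¹ * c := mul_le_mul_of_nonneg_left hs (by positivity)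
  have h2 : bt N' θ₁ t * Real.exp (p * θ * N' t) ≤ 2 * bt N' (θ₁ - p * θ) t := by
    rw [bt_tilt]
    refine mul_le_mul_of_nonneg_right ?_ hb2
    have hs2 : 2 * (p * θ) ≤ θ₁ := by
      have : 0 ≤ D * p * θ := by positivity
      nlinarith
    refine (Zf_ratio hN' hD' hθ₁ hpθ0 hs2).trans ?_
    have h3 : 2 * (p * θ) * D / θ₁ ≤ 1 / 2 := by
      rw [div_le_iff₀ hθ₁]
      nlinarith
    exact (Real.exp_le_exp.2 h3).trans exp_half_le
  calc bt N' θ₁ t * (∏ i, FA N θ A (s i + t)) / c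
      ≤ bt N' θ₁ t * (Real.exp (p * θ * N' t) * ∏ i, sb N θ (s i)) / c := by
        refine div_le_div_of_nonneg_right ?_ hc.le
        exact mul_le_mul_of_nonneg_left (prod_FA_le hN hle hθ A s t) hb1
    _ = (bt N' θ₁ t * Real.exp (p * θ * N' t)) * ((∏ i, sb N θ (s i)) / c) := by ring
    _ ≤ (2 * bt N' (θ₁ - p * θ) t) * (8 * (1 / al N θ A) ^ p) := by
        refine mul_le_mul h2 h1 ?_ (by positivity)
        positivity
    _ = _ := by ring

end Sift2

open Sift1 Sift2 in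
/-- [S2] conclusion of the sifting (uses [S1]) -/
theorem sift {N N' : ZMod M → ℝ} {D : ℝ} (hN : IsNrm N) (hN' : IsNrm N')
    (hD' : Dbl N' D) (hD0 : 0 ≤ D) (hle : ∀ x, N x ≤ 2 * N' x) {θ θ₁ : ℝ} (hθ : 0 < θ)
    (hθ₁ : 0 < θ₁) (A : Finset (ZMod M)) (hα : 0 < al N θ A) {p : ℕ} (hp : 1 ≤ p)
    (hpθ : 4 * (D + 1) * p * θ ≤ θ₁) {F₀ : ℝ} (hF₀ : 0 < F₀)
    (h1 : F₀ * Mom (bt N' θ₁) (cr (FA N θ A) (FA N θ A)) (p - 1) ≤
      Mom (bt N' θ₁) (cr (FA N θ A) (FA N θ A)) p)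
    (h2 : Mom (bt N' θ₁) (cr (FA N θ A) (FA N θ A)) (p + 1) ≤
      (1 + 1 / (3 * 10 ^ 9)) * F₀ * Mom (bt N' θ₁) (cr (FA N θ A) (FA N θ A)) p)
    (h3 : (al N θ A ^ 2) ^ p ≤ Mom (bt N' θ₁) (cr (FA N θ A) (FA N θ A)) p) :
    ∃ lam : ZMod M → ℝ, PW lam ∧
      (∀ t, lam t ≤ 16 * (1 / al N θ A) ^ p * bt N' (θ₁ - p * θ) t) ∧
      (∑ t, ∑ t', lam t * lam t' *
        (if cr (FA N θ A) (FA N θ A) (t - t') < (999 / 1000) * F₀ then (1 : ℝ) else 0))
          ≤ 1 / 2000 ∧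
      pr lam (cr (FA N θ A) (FA N θ A)) 0 ≤ (1 + 2 / 1000) * F₀ ∧
      (1 - 2 / 1000) * F₀ ≤ pr lam (cr (FA N θ A) (FA N θ A)) 0 := by
  obtain ⟨s, hs0, hs1, hs2⟩ :=
    sift1 hN hN' hD' hD0 hle hθ hθ₁ A hα hp hpθ hF₀ h1 h2 h3
  set c := Nsf (bt N' θ₁) (FA N θ A) s with hc
  set f := cr (FA N θ A) (FA N θ A) with hf
  have hF := FA_nonneg N θ A
  have hfn : ∀ w, 0 ≤ f w := cr_nonneg hF
  have hβ := fun x => (bt_pos N' θ₁ x).le
  set lam : ZMod M → ℝ := fun t => bt N' θ₁ t * (∏ i, FA N θ A (s i + t)) / c with hlam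
  have hlam0 : ∀ t, 0 ≤ lam t := fun t =>
    div_nonneg (mul_nonneg (hβ t) (Finset.prod_nonneg fun i _ => hF _)) hs0.le
  have hlam1 : ∑ t, lam t = 1 := by
    rw [hlam]
    simp only
    rw [← Finset.sum_div]
    exact div_self hs0.ne'
  have hmul : ∀ t, bt N' θ₁ t * (∏ i, FA N θ A (s i + t)) = lam t * c := by
    intro t
    rw [hlam]
    simp only
    rw [div_mul_cancel₀ _ hs0.ne']
  -- positivity of `f` on the support
  have hpos : ∀ t t', lam t * lam t' ≠ 0 → 0 < f (t - t') := by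
    intro t t' h
    obtain ⟨q, rfl⟩ : ∃ q, p = q + 1 := ⟨p - 1, by omega⟩
    have ht : lam t ≠ 0 := left_ne_zero_of_mul h
    have ht' : lam t' ≠ 0 := right_ne_zero_of_mul h
    have e1 : FA N θ A (s 0 + t) ≠ 0 := by
      intro h0
      apply ht
      rw [hlam]
      simp only
      rw [Finset.prod_eq_zero (Finset.mem_univ (0 : Fin (q + 1))) h0, mul_zero, zero_div]
    have e2 : FA N θ A (s 0 + t') ≠ 0 := by
      intro h0
      apply ht'
      rw [hlam]
      simp only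
      rw [Finset.prod_eq_zero (Finset.mem_univ (0 : Fin (q + 1))) h0, mul_zero, zero_div]
    have e3 : 0 < FA N θ A (s 0 + t) := lt_of_le_of_ne (hF _) (Ne.symm e1)
    have e4 : 0 < FA N θ A (s 0 + t') := lt_of_le_of_ne (hF _) (Ne.symm e2)
    have e5 := sum_shift (FA N θ A) t t'
    rw [hf, ← e5]
    exact lt_of_lt_of_le (mul_pos e3 e4) (Finset.single_le_sum
      (f := fun x => FA N θ A (x + t) * FA N θ A (x + t'))
      (fun x _ => mul_nonneg (hF _) (hF _)) (Finset.mem_univ (s 0)))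
  -- the main estimate
  set Ψ : ZMod M → ℝ := fun w => (f w - F₀) ^ 2 / (F₀ * f w) with hΨ
  have hΨn : ∀ w, 0 ≤ Ψ w := fun w => div_nonneg (sq_nonneg _) (mul_nonneg hF₀.le (hfn w))
  have hE : ∑ t, ∑ t', lam t * lam t' * Ψ (t - t') ≤ 1 / (2 * 10 ^ 9) := by
    have e1 : ∑ t, ∑ t', (bt N' θ₁ t * ∏ i, FA N θ A (s i + t)) *
          (bt N' θ₁ t' * ∏ i, FA N θ A (s i + t')) * Ψ (t - t') =
        c ^ 2 * ∑ t, ∑ t', lam t * lam t' * Ψ (t - t') := by
      rw [Finset.mul_sum]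
      refine Finset.sum_congr rfl fun t _ => ?_
      rw [Finset.mul_sum]
      refine Finset.sum_congr rfl fun t' _ => ?_
      rw [hmul, hmul]
      ring
    have e2 : c ^ 2 * ∑ t, ∑ t', lam t * lam t' * Ψ (t - t') ≤ 1 / (2 * 10 ^ 9) * c ^ 2 := by
      rw [← e1]
      exact hs2
    have hc2 : 0 < c ^ 2 := by positivity
    rw [mul_comm] at e2
    exact le_of_mul_le_mul_right e2 hc2
  have hbadP : ∑ t, ∑ t', lam t * lam t' *
        (if f (t - t') < (999 / 1000) * F₀ then (1 : ℝ) else 0) ≤ 1 / 2000 := by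
    have e1 : ∑ t, ∑ t', lam t * lam t' *
        (if f (t - t') < (999 / 1000) * F₀ then (1 : ℝ) else 0) ≤
        ∑ t, ∑ t', 10 ^ 6 * (lam t * lam t' * Ψ (t - t')) := by
      refine Finset.sum_le_sum fun t _ => Finset.sum_le_sum fun t' _ => ?_
      by_cases h0 : lam t * lam t' = 0
      · rw [h0]; simp
      · have hw : 0 ≤ lam t * lam t' := mul_nonneg (hlam0 _) (hlam0 _)
        have hx := hpos t t' h0
        have e2 : (if f (t - t') < (999 / 1000) * F₀ then (1 : ℝ) else 0) ≤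
            10 ^ 6 * Ψ (t - t') := by
          split_ifs with h
          · rw [hΨ]
            simp only
            rw [← mul_div_assoc, le_div_iff₀ (mul_pos hF₀ hx), one_mul]
            nlinarith
          · exact mul_nonneg (by norm_num) (hΨn _)
        calc lam t * lam t' * (if f (t - t') < (999 / 1000) * F₀ then (1 : ℝ) else 0)
            ≤ lam t * lam t' * (10 ^ 6 * Ψ (t - t')) := mul_le_mul_of_nonneg_left e2 hw
          _ = _ := by ring
    refine e1.trans ?_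
    simp only [← Finset.mul_sum]
    calc (10 : ℝ) ^ 6 * ∑ t, ∑ t', lam t * lam t' * Ψ (t - t')
        ≤ 10 ^ 6 * (1 / (2 * 10 ^ 9)) := mul_le_mul_of_nonneg_left hE (by norm_num)
      _ = 1 / 2000 := by norm_num
  have hpr : pr lam f 0 = ∑ t, ∑ t', lam t * lam t' * f (t - t') := by
    unfold pr
    simp only [add_zero]
  refine ⟨lam, ⟨hlam0, hlam1⟩, ?_, hbadP, ?_, ?_⟩
  · intro t
    exact lam_le hN hN' hD' hD0 hle hθ hθ₁ A hα hpθ s hs0 hs1 t
  · rw [hpr]
    have e1 : ∑ t, ∑ t', lam t * lam t' * f (t - t') ≤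
        ∑ t, ∑ t', (1001 / 1000 * F₀ * (lam t * lam t') +
          1001 * F₀ * (lam t * lam t' * Ψ (t - t'))) := by
      refine Finset.sum_le_sum fun t _ => Finset.sum_le_sum fun t' _ => ?_
      by_cases h0 : lam t * lam t' = 0
      · rw [h0]; simp
      · have hw : 0 ≤ lam t * lam t' := mul_nonneg (hlam0 _) (hlam0 _)
        have hx := hpos t t' h0
        have e2 : f (t - t') ≤ 1001 / 1000 * F₀ + 1001 * F₀ * Ψ (t - t') := by
          rcases le_or_gt (f (t - t')) (1001 / 1000 * F₀) with h | h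
          · have := mul_nonneg (mul_nonneg (by norm_num : (0 : ℝ) ≤ 1001) hF₀.le)
              (hΨn (t - t'))
            linarith
          · have e3 : F₀ * Ψ (t - t') = (f (t - t') - F₀) ^ 2 / f (t - t') := by
              rw [hΨ]
              simp only
              field_simp
            have e4 : (f (t - t') - F₀) / 1001 ≤ (f (t - t') - F₀) ^ 2 / f (t - t') := by
              rw [div_le_div_iff₀ (by norm_num) hx]
              nlinarith
            rw [← e3] at e4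
            linarith
        calc lam t * lam t' * f (t - t')
            ≤ lam t * lam t' * (1001 / 1000 * F₀ + 1001 * F₀ * Ψ (t - t')) :=
              mul_le_mul_of_nonneg_left e2 hw
          _ = _ := by ring
    refine e1.trans ?_
    simp only [Finset.sum_add_distrib, ← Finset.mul_sum, hlam1, mul_one]
    have e5 : 1001 * F₀ * ∑ t, ∑ t', lam t * lam t' * Ψ (t - t') ≤
        1001 * F₀ * (1 / (2 * 10 ^ 9)) := mul_le_mul_of_nonneg_left hE (by positivity)
    nlinarith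
  · rw [hpr]
    have e1 : ∑ t, ∑ t', (999 / 1000 * F₀ * (lam t * lam t') -
          999 / 1000 * F₀ * (lam t * lam t' *
            (if f (t - t') < (999 / 1000) * F₀ then (1 : ℝ) else 0))) ≤
        ∑ t, ∑ t', lam t * lam t' * f (t - t') := by
      refine Finset.sum_le_sum fun t _ => Finset.sum_le_sum fun t' _ => ?_
      have hw : 0 ≤ lam t * lam t' := mul_nonneg (hlam0 _) (hlam0 _)
      have hx := hfn (t - t')
      split_ifs with h
      · have := mul_nonneg hw hx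
        linarith
      · push Not at h
        have := mul_le_mul_of_nonneg_left h hw
        linarith
    refine le_trans ?_ e1
    simp only [Finset.sum_sub_distrib, ← Finset.mul_sum, hlam1, mul_one]
    have e5 : 999 / 1000 * F₀ * ∑ t, ∑ t', lam t * lam t' *
            (if f (t - t') < (999 / 1000) * F₀ then (1 : ℝ) else 0) ≤
        999 / 1000 * F₀ * (1 / 2000) := mul_le_mul_of_nonneg_left hbadP (by positivity)
    nlinarith

end Vale.Agent.P057R3
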