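import Vale.Agent.P057R3.Weights1
import Vale.Agent.P057R3.Bohr

/-!
[G3] Size of the concrete weights.
-/

namespace Vale.Agent.P057R3

open Finset Vale.Agent.P057R3.Bohr

variable {M : ℕ} [NeZero M]

namespace SizeNG

theorem claim {θ : ℝ} (hθ : 1 ≤ θ) (Γ : Multiset (ZMod M)) (S : Finset (ZMod M)) :
    ∃ S' ⊆ S, (S.card : ℝ) ≤ (2 * θ) ^ (Multiset.card Γ) * S'.card ∧
      ∀ x ∈ S', ∀ y ∈ S', ∀ r ∈ Γ, nrm (r * (x - y)) ≤ 1 / θ := by
  classical
  have hM : (0 : ℝ) < M := by exact_mod_cast NeZero.pos M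
  have hθ0 : 0 < θ := by linarith
  induction Γ using Multiset.induction_on with
  | empty =>
    exact ⟨S, Finset.Subset.refl _, by simp, fun x _ y _ r hr => absurd hr (Multiset.notMem_zero r)⟩
  | cons r Γ ih =>
    obtain ⟨S', hS', hcard, hsmall⟩ := ih
    set idx : ZMod M → ℕ := fun x => ⌊θ * (((r * x).valMinAbs : ℝ) / M + 1 / 2)⌋₊ with hidx
    have hval : ∀ y : ZMod M, -(1 / 2) ≤ (y.valMinAbs : ℝ) / M ∧ (y.valMinAbs : ℝ) / M ≤ 1 / 2 := by
      intro y
      have h1 := ZMod.valMinAbs_mem_Ioc y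
      have h2 : (-(M : ℤ)) < y.valMinAbs * 2 := h1.1
      have h3 : y.valMinAbs * 2 ≤ (M : ℤ) := h1.2
      have h2' : (-(M : ℝ)) < y.valMinAbs * 2 := by exact_mod_cast h2
      have h3' : (y.valMinAbs : ℝ) * 2 ≤ M := by exact_mod_cast h3
      constructor
      · rw [le_div_iff₀ hM]; linarith
      · rw [div_le_iff₀ hM]; linarith
    have hmaps : ∀ x ∈ S', idx x ∈ range (⌊θ⌋₊ + 1) := by
      intro x _
      rw [Finset.mem_range, Nat.lt_succ_iff]
      refine Nat.floor_le_floor ?_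
      have := (hval (r * x)).2
      nlinarith
    have hex : ∃ y ∈ range (⌊θ⌋₊ + 1),
        S'.card ≤ (range (⌊θ⌋₊ + 1)).card * (S'.filter fun x => idx x = y).card := by
      refine Finset.exists_le_of_sum_le (s := range (⌊θ⌋₊ + 1)) (f := fun _ => S'.card)
        (g := fun y => (range (⌊θ⌋₊ + 1)).card * (S'.filter fun x => idx x = y).card)
        ⟨0, Finset.mem_range.2 (Nat.succ_pos _)⟩ ?_
      rw [← Finset.mul_sum, ← Finset.card_eq_sum_card_fiberwise hmaps, Finset.sum_const,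
        smul_eq_mul]
    obtain ⟨y, -, hy⟩ := hex
    rw [Finset.card_range] at hy
    refine ⟨S'.filter fun x => idx x = y, (Finset.filter_subset _ _).trans hS', ?_, ?_⟩
    · have h1 : ((⌊θ⌋₊ + 1 : ℕ) : ℝ) ≤ 2 * θ := by
        push_cast
        have := Nat.floor_le hθ0.le
        linarith
      have h2 : (S'.card : ℝ) ≤ ((⌊θ⌋₊ + 1 : ℕ) : ℝ) * (S'.filter fun x => idx x = y).card := by
        exact_mod_cast hy
      rw [Multiset.card_cons, pow_succ]
      calc (S.card : ℝ) ≤ (2 * θ) ^ (Multiset.card Γ) * S'.card := hcard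
        _ ≤ (2 * θ) ^ (Multiset.card Γ) *
            (((⌊θ⌋₊ + 1 : ℕ) : ℝ) * (S'.filter fun x => idx x = y).card) := by gcongr
        _ ≤ (2 * θ) ^ (Multiset.card Γ) *
            ((2 * θ) * (S'.filter fun x => idx x = y).card) := by gcongr
        _ = _ := by ring
    · intro x hx z hz t ht
      have hx' := Finset.mem_filter.1 hx
      have hz' := Finset.mem_filter.1 hz
      rcases Multiset.mem_cons.1 ht with rfl | ht
      · rw [mul_sub]
        refine (nrm_sub_le _ _).trans ?_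
        have e1 : idx x = idx z := hx'.2.trans hz'.2.symm
        have b1 := (hval (t * x)).1
        have b2 := (hval (t * z)).1
        simp only [hidx] at e1
        set u := ((t * x).valMinAbs : ℝ) / M
        set v := ((t * z).valMinAbs : ℝ) / M
        have h1 := Nat.floor_le (mul_nonneg hθ0.le (by linarith : 0 ≤ u + 1 / 2))
        have h2 := Nat.lt_floor_add_one (θ * (u + 1 / 2))
        have h3 := Nat.floor_le (mul_nonneg hθ0.le (by linarith : 0 ≤ v + 1 / 2))
        have h4 := Nat.lt_floor_add_one (θ * (v + 1 / 2))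
        rw [e1] at h1 h2
        rw [le_div_iff₀ hθ0]
        have e2 : |u - v| * θ = abs (θ * (u + 1 / 2) - θ * (v + 1 / 2)) := by
          rw [← mul_sub, abs_mul, abs_of_pos hθ0, mul_comm]
          congr 2; ring
        rw [e2, abs_le]
        constructor <;> linarith
      · exact hsmall x hx'.1 z hz'.1 t ht

end SizeNG

theorem Zf_NG_ge (Γ : Multiset (ZMod M)) {θ : ℝ} (hθ : 1 ≤ θ) :
    (M : ℝ) ≤ (20 * θ) ^ (Multiset.card Γ) * Zf (NG Γ) θ := by
  classical
  have hθ0 : 0 < θ := by linarith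
  obtain ⟨S, -, hcard, hsmall⟩ := SizeNG.claim hθ Γ (Finset.univ : Finset (ZMod M))
  rw [Finset.card_univ, ZMod.card] at hcard
  set d := Multiset.card Γ with hd
  have hM : (0 : ℝ) < M := by exact_mod_cast NeZero.pos M
  have hSne : S.Nonempty := by
    rw [Finset.nonempty_iff_ne_empty]
    rintro rfl
    simp only [Finset.card_empty, Nat.cast_zero, mul_zero] at hcard
    linarith
  obtain ⟨x0, hx0⟩ := hSne
  have h1 : (S.card : ℝ) * Real.exp (-(d : ℝ)) ≤ Zf (NG Γ) θ := by
    have e1 : ∀ x ∈ S, Real.exp (-(d : ℝ)) ≤ wt (NG Γ) θ (x - x0) := by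
      intro x hx
      unfold wt
      refine Real.exp_le_exp.2 (neg_le_neg ?_)
      have e2 : NG Γ (x - x0) ≤ d * (1 / θ) := by
        unfold NG
        have := Multiset.sum_le_card_nsmul (Γ.map fun r => nrm (r * (x - x0))) (1 / θ) (by
          intro y hy
          obtain ⟨r, hr, rfl⟩ := Multiset.mem_map.1 hy
          exact hsmall x hx x0 hx0 r hr)
        rw [Multiset.card_map, nsmul_eq_mul] at this
        exact this
      calc θ * NG Γ (x - x0) ≤ θ * (d * (1 / θ)) := mul_le_mul_of_nonneg_left e2 hθ0.le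
        _ = d := by field_simp
    calc (S.card : ℝ) * Real.exp (-(d : ℝ)) = ∑ _x ∈ S, Real.exp (-(d : ℝ)) := by
          rw [Finset.sum_const, nsmul_eq_mul]
      _ ≤ ∑ x ∈ S, wt (NG Γ) θ (x - x0) := Finset.sum_le_sum e1
      _ ≤ ∑ x, wt (NG Γ) θ (x - x0) := Finset.sum_le_sum_of_subset_of_nonneg
          (Finset.subset_univ S) fun x _ _ => (Weights1.wt_pos _ _ _).le
      _ = Zf (NG Γ) θ := Equiv.sum_comp (Equiv.subRight x0) (fun x => wt (NG Γ) θ x)
  have h2 : (S.card : ℝ) ≤ Real.exp d * Zf (NG Γ) θ := by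
    have := mul_le_mul_of_nonneg_left h1 (Real.exp_pos (d : ℝ)).le
    rwa [mul_left_comm, ← Real.exp_add, add_neg_cancel, Real.exp_zero, mul_one] at this
  have h3 : Real.exp d ≤ (10 : ℝ) ^ d := by
    have e1 : Real.exp (d : ℝ) = Real.exp 1 ^ d := by
      rw [← Real.exp_nat_mul]; simp
    rw [e1]
    refine pow_le_pow_left₀ (Real.exp_pos _).le ?_ d
    have := Real.exp_one_lt_d9
    linarith
  have hZ := (Zf_pos (NG Γ) θ).le
  calc (M : ℝ) ≤ (2 * θ) ^ d * S.card := hcard
    _ ≤ (2 * θ) ^ d * ((10 : ℝ) ^ d * Zf (NG Γ) θ) := by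
        gcongr
        exact h2.trans (mul_le_mul_of_nonneg_right h3 hZ)
    _ = (20 * θ) ^ d * Zf (NG Γ) θ := by
        rw [← mul_assoc, ← mul_pow]; congr 2; ring

end Vale.Agent.P057R3
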