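import Vale.Agent.P057R3.Fourier

/-!
[SP] Spectral positivity.
-/

namespace Vale.Agent.P057R3

open Finset

variable {M : ℕ} [NeZero M]

/-- spectral positivity: almost invariance under `X - X` gives almost invariance under
any measure whose Fourier transform is close to one on the large spectrum of `X` -/
theorem spectral {F lam xi b₃ : ZMod M → ℝ} (hxi : PW xi) (hb₃ : PW b₃)
    (X : Finset (ZMod M)) (hX : ∀ u, u ∉ X → xi u = 0)
    (hinv : ∀ u ∈ X, ∀ u' ∈ X,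
      (1 - 4 / 1000) * pr lam (cr F F) 0 ≤ pr lam (cr F F) (u - u'))
    (hb : ∀ r, 1 / 2 ≤ ‖ft xi r‖ ^ 2 → ‖1 - ft b₃ r‖ ≤ 1 / 1000) :
    (1 - 10 / 1000) * pr lam (cr F F) 0 ≤ ∑ z, sm b₃ (sm lam F) z ^ 2 := by
  have hM : (0 : ℝ) < M := by exact_mod_cast NeZero.pos M
  set Z0 := pr lam (cr F F) 0 with hZ0
  set G := sm lam F with hG
  set W : ZMod M → ℝ := fun r => (1 / M : ℝ) * ‖ft G r‖ ^ 2 with hW
  have hW0 : ∀ r, 0 ≤ W r := fun r => by rw [hW]; positivity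
  have hZ : Z0 = ∑ r, W r := by
    rw [hZ0, pr_cr_zero, ← hG, parseval, Finset.mul_sum]
  -- smoothing multiplies the spectral weights
  have hsm : ∀ μ : ZMod M → ℝ, ∑ z, sm μ G z ^ 2 = ∑ r, W r * ‖ft μ r‖ ^ 2 := by
    intro μ
    rw [parseval, Finset.mul_sum]
    refine Finset.sum_congr rfl fun r _ => ?_
    rw [ft_sm, norm_mul, RCLike.norm_conj, mul_pow, hW]
    ring
  -- almost invariance on average
  have h1 : (1 - 4 / 1000) * Z0 ≤ ∑ r, W r * ‖ft xi r‖ ^ 2 := by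
    rw [← hsm, hG, ← sum_pr_cr]
    have e1 : (1 - 4 / 1000) * Z0 = ∑ u, ∑ u', xi u * xi u' * ((1 - 4 / 1000) * Z0) := by
      simp_rw [← Finset.sum_mul, ← Finset.mul_sum, hxi.2, mul_one]
      rw [hxi.2, one_mul]
    rw [e1]
    refine Finset.sum_le_sum fun u _ => Finset.sum_le_sum fun u' _ => ?_
    by_cases hu : u ∈ X
    · by_cases hu' : u' ∈ X
      · exact mul_le_mul_of_nonneg_left (hinv u hu u' hu') (mul_nonneg (hxi.1 u) (hxi.1 u'))
      · rw [hX u' hu']; simp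
    · rw [hX u hu]; simp
  -- split according to the size of the transform of `xi`
  classical
  set Bd : ZMod M → ℝ := fun r => if 1 / 2 ≤ ‖ft xi r‖ ^ 2 then 0 else W r with hBd
  have hBd0 : ∀ r, 0 ≤ Bd r := fun r => by
    rw [hBd]; simp only; split_ifs
    · exact le_rfl
    · exact hW0 r
  have h2 : ∑ r, W r * ‖ft xi r‖ ^ 2 ≤ ∑ r, W r - 1 / 2 * ∑ r, Bd r := by
    rw [Finset.mul_sum, ← Finset.sum_sub_distrib]
    refine Finset.sum_le_sum fun r _ => ?_
    have e1 : ‖ft xi r‖ ^ 2 ≤ 1 := pow_le_one₀ (norm_nonneg _) (Fourier.norm_ft_le hxi r)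
    rw [hBd]; simp only
    have := hW0 r
    split_ifs with h
    · nlinarith
    · push Not at h
      nlinarith
  have h3 : ∑ r, Bd r ≤ 8 / 1000 * Z0 := by
    rw [← hZ] at h2
    linarith
  have h4 : (1 - 2 / 1000) * (∑ r, W r - ∑ r, Bd r) ≤ ∑ r, W r * ‖ft b₃ r‖ ^ 2 := by
    rw [← Finset.sum_sub_distrib, Finset.mul_sum]
    refine Finset.sum_le_sum fun r _ => ?_
    rw [hBd]; simp only
    have hWr := hW0 r
    split_ifs with h
    · have e1 := hb r h
      have e2 : 1 - 1 / 1000 ≤ ‖ft b₃ r‖ := by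
        have e3 : ‖(1 : ℂ)‖ ≤ ‖1 - ft b₃ r‖ + ‖ft b₃ r‖ := by
          have := norm_add_le (1 - ft b₃ r) (ft b₃ r)
          rwa [sub_add_cancel] at this
        rw [norm_one] at e3
        linarith
      have e4 : (1 - 2 / 1000 : ℝ) ≤ ‖ft b₃ r‖ ^ 2 := by
        nlinarith
      rw [sub_zero]
      nlinarith
    · rw [sub_self, mul_zero]
      positivity
  rw [hsm]
  have hZ00 : 0 ≤ Z0 := by rw [hZ]; exact Finset.sum_nonneg fun r _ => hW0 r
  rw [← hZ] at h4
  nlinarith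

end Vale.Agent.P057R3
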