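import Vale.Agent.P057R3.Decouple

/-!
[U] Unbalancing.
-/

namespace Vale.Agent.P057R3

open Finset

set_option linter.unusedSectionVars false
set_option linter.unusedVariables false

variable {M : ℕ} [NeZero M]

namespace Unbalance

theorem choose_ge (p : ℕ) (hp : 1 ≤ p) : (6 : ℝ) ^ p ≤ ((6 * p).choose p : ℝ) := by
  have h1 : (6 * p) ^ p * p.factorial ≤ p ^ p * (6 * p).descFactorial p := by
    have e1 : p.factorial = ∏ i ∈ range p, (p - i) := by
      rw [← Nat.descFactorial_eq_prod_range, Nat.descFactorial_self]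
    rw [Nat.descFactorial_eq_prod_range, e1]
    have e2 : (6 * p) ^ p = ∏ _i ∈ range p, (6 * p) := by simp
    have e3 : p ^ p = ∏ _i ∈ range p, p := by simp
    rw [e2, e3, ← Finset.prod_mul_distrib, ← Finset.prod_mul_distrib]
    refine Finset.prod_le_prod' fun i hi => ?_
    have hi' := Finset.mem_range.1 hi
    obtain ⟨k, rfl⟩ : ∃ k, p = i + k := ⟨p - i, by omega⟩
    have e4 : i + k - i = k := by omega
    have e5 : 6 * (i + k) - i = 5 * i + 6 * k := by omega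
    rw [e4, e5]
    nlinarith [Nat.zero_le (i * i), Nat.zero_le (i * k)]
  rw [Nat.descFactorial_eq_factorial_mul_choose] at h1
  have h2 : 6 ^ p * (p ^ p * p.factorial) ≤ (6 * p).choose p * (p ^ p * p.factorial) := by
    calc 6 ^ p * (p ^ p * p.factorial) = (6 * p) ^ p * p.factorial := by ring
      _ ≤ p ^ p * (p.factorial * (6 * p).choose p) := h1
      _ = _ := by ring
  have h3 : 0 < p ^ p * p.factorial := by
    have := Nat.factorial_pos p
    have : 0 < p ^ p := Nat.pow_pos (by omega)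
    positivity
  have h4 := Nat.le_of_mul_le_mul_right h2 h3
  exact_mod_cast h4

theorem ind_sq (A : Finset (ZMod M)) (x : ZMod M) : ind A x * ind A x = ind A x := by
  unfold ind; split_ifs <;> norm_num

theorem ind_nonneg (A : Finset (ZMod M)) (x : ZMod M) : 0 ≤ ind A x := by
  unfold ind; split_ifs <;> norm_num

theorem sb_nonneg (N : ZMod M → ℝ) (θ : ℝ) (x : ZMod M) : 0 ≤ sb N θ x := Real.sqrt_nonneg _

theorem sb_sq (N : ZMod M → ℝ) (θ : ℝ) (x : ZMod M) : sb N θ x * sb N θ x = bt N θ x :=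
  Real.mul_self_sqrt (bt_pos N θ x).le

theorem FA_nonneg (N : ZMod M → ℝ) (θ : ℝ) (A : Finset (ZMod M)) (x : ZMod M) :
    0 ≤ FA N θ A x := mul_nonneg (ind_nonneg A x) (sb_nonneg N θ x)

theorem sum_sb (N : ZMod M → ℝ) (θ : ℝ) : ∑ x, sb N θ x * sb N θ x = 1 := by
  simp_rw [sb_sq]; exact (bt_pw N θ).2

theorem sum_FA_sb (N : ZMod M → ℝ) (θ : ℝ) (A : Finset (ZMod M)) :
    ∑ x, FA N θ A x * sb N θ x = al N θ A := by
  unfold FA al
  refine Finset.sum_congr rfl fun x _ => ?_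
  rw [mul_assoc, sb_sq, mul_comm]

theorem sum_FA_FA (N : ZMod M → ℝ) (θ : ℝ) (A : Finset (ZMod M)) :
    ∑ x, FA N θ A x * FA N θ A x = al N θ A := by
  unfold FA al
  refine Finset.sum_congr rfl fun x _ => ?_
  rw [show ind A x * sb N θ x * (ind A x * sb N θ x) =
    (ind A x * ind A x) * (sb N θ x * sb N θ x) by ring, ind_sq, sb_sq, mul_comm]

theorem sb_lower {N : ZMod M → ℝ} (hN : IsNrm N) {θ : ℝ} (hθ : 0 ≤ θ) (x t : ZMod M) :
    Real.exp (-(θ * N t / 2)) * sb N θ x ≤ sb N θ (x + t) := by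
  have h1 := sb_shift hN hθ (x + t) (-t)
  rw [add_neg_cancel_right, hN.neg] at h1
  calc Real.exp (-(θ * N t / 2)) * sb N θ x
      ≤ Real.exp (-(θ * N t / 2)) * (Real.exp (θ * N t / 2) * sb N θ (x + t)) :=
        mul_le_mul_of_nonneg_left h1 (Real.exp_pos _).le
    _ = sb N θ (x + t) := by rw [← mul_assoc, ← Real.exp_add]; simp

/-- `cr F b` for nonnegative `F` -/
theorem cr_sb_bounds {N : ZMod M → ℝ} (hN : IsNrm N) {θ : ℝ} (hθ : 0 ≤ θ)
    {F : ZMod M → ℝ} (hF : ∀ x, 0 ≤ F x) (w : ZMod M) :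
    Real.exp (-(θ * N w / 2)) * (∑ x, F x * sb N θ x) ≤ cr F (sb N θ) w ∧
    cr F (sb N θ) w ≤ Real.exp (θ * N w / 2) * (∑ x, F x * sb N θ x) := by
  unfold cr
  rw [Finset.mul_sum, Finset.mul_sum]
  constructor
  · refine Finset.sum_le_sum fun x _ => ?_
    have := mul_le_mul_of_nonneg_left (sb_lower hN hθ x w) (hF x)
    linarith
  · refine Finset.sum_le_sum fun x _ => ?_
    have := mul_le_mul_of_nonneg_left (sb_shift hN hθ x w) (hF x)
    linarith

theorem cr_comm (f g : ZMod M → ℝ) (w : ZMod M) : cr f g w = cr g f (-w) := by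
  unfold cr
  rw [← Equiv.sum_comp (Equiv.addRight (-w))]
  refine Finset.sum_congr rfl fun x _ => ?_
  simp only [Equiv.coe_addRight, neg_add_cancel_right]
  ring

/-- Cauchy-Schwarz for correlations -/
theorem cr_le (f g : ZMod M → ℝ) (w : ZMod M) :
    |cr f g w| ≤ (∑ x, f x * f x + ∑ x, g x * g x) / 2 := by
  have h1 : ∑ x, g (x + w) * g (x + w) = ∑ x, g x * g x :=
    Equiv.sum_comp (Equiv.addRight w) (fun x => g x * g x)
  rw [← h1, ← Finset.sum_add_distrib, Finset.sum_div, abs_le]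
  unfold cr
  constructor
  · rw [← Finset.sum_neg_distrib]
    refine Finset.sum_le_sum fun x _ => ?_
    nlinarith [sq_nonneg (f x + g (x + w))]
  · refine Finset.sum_le_sum fun x _ => ?_
    nlinarith [sq_nonneg (f x - g (x + w))]

theorem cr_HA (N : ZMod M → ℝ) (θ : ℝ) (A : Finset (ZMod M)) (w : ZMod M) :
    cr (HA N θ A) (HA N θ A) w = cr (FA N θ A) (FA N θ A) w -
      al N θ A * (cr (FA N θ A) (sb N θ) w + cr (sb N θ) (FA N θ A) w) +
      al N θ A ^ 2 * cr (sb N θ) (sb N θ) w := by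
  unfold cr HA
  rw [mul_add, Finset.mul_sum, Finset.mul_sum, Finset.mul_sum, ← Finset.sum_add_distrib,
    ← Finset.sum_sub_distrib, ← Finset.sum_add_distrib]
  exact Finset.sum_congr rfl fun x _ => by ring

theorem al_le_one (N : ZMod M → ℝ) (θ : ℝ) (A : Finset (ZMod M)) : al N θ A ≤ 1 := by
  rw [← (bt_pw N θ).2]
  unfold al
  refine Finset.sum_le_sum fun x _ => ?_
  have := bt_pos N θ x
  unfold ind; split_ifs <;> simp [this.le]

/-- the good estimate -/
theorem good {N : ZMod M → ℝ} (hN : IsNrm N) {θ : ℝ} (hθ : 0 ≤ θ) (A : Finset (ZMod M))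
    (hα : 0 < al N θ A) (w : ZMod M) (hw : θ * N w / 2 ≤ 1 / 2) :
    |al N θ A ^ 2 + cr (HA N θ A) (HA N θ A) w| ≤
      cr (FA N θ A) (FA N θ A) w + 4 * (θ * N w / 2) * al N θ A ^ 2 := by
  set a := al N θ A with ha
  set u := θ * N w / 2 with hu
  have hu0 : 0 ≤ u := by
    have := mul_nonneg hθ (hN.nonneg w)
    linarith
  have h1 := cr_sb_bounds hN hθ (FA_nonneg N θ A) w
  rw [sum_FA_sb, ← hu, ← ha] at h1
  have h2 := cr_sb_bounds hN hθ (FA_nonneg N θ A) (-w)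
  rw [sum_FA_sb, hN.neg, ← hu, ← ha, ← cr_comm] at h2
  have h3 := cr_sb_bounds hN hθ (sb_nonneg N θ) w
  rw [sum_sb, ← hu, mul_one, mul_one] at h3
  have h4 := (abs_le.1 (cr_le (sb N θ) (sb N θ) w)).2
  rw [sum_sb] at h4
  have hY : 0 ≤ cr (FA N θ A) (FA N θ A) w := by
    unfold cr
    exact Finset.sum_nonneg fun x _ => mul_nonneg (FA_nonneg N θ A x) (FA_nonneg N θ A _)
  have he1 : 1 - u ≤ Real.exp (-u) := by
    have := Real.add_one_le_exp (-u)
    linarith
  have he2 : Real.exp u ≤ 1 + u + u ^ 2 := by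
    have h5 := Real.abs_exp_sub_one_sub_id_le (x := u) (by rw [abs_of_nonneg hu0]; linarith)
    have := (abs_le.1 h5).2
    linarith
  have he3 : Real.exp (-u) ≤ 1 := Real.exp_le_one_iff.2 (by linarith)
  rw [cr_HA, ← ha]
  set c1 := cr (FA N θ A) (sb N θ) w
  set c2 := cr (sb N θ) (FA N θ A) w
  set c3 := cr (sb N θ) (sb N θ) w
  set Y := cr (FA N θ A) (FA N θ A) w
  have ha2 : 0 < a ^ 2 := by positivity
  have hu2 : u ^ 2 ≤ u / 2 := by nlinarith
  -- bounds for a * c1 etc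
  have b1 : a * c1 ≤ Real.exp u * a ^ 2 := by nlinarith [h1.2]
  have b2 : Real.exp (-u) * a ^ 2 ≤ a * c1 := by nlinarith [h1.1]
  have b3 : a * c2 ≤ Real.exp u * a ^ 2 := by nlinarith [h2.2]
  have b4 : Real.exp (-u) * a ^ 2 ≤ a * c2 := by nlinarith [h2.1]
  have b5 : a ^ 2 * Real.exp (-u) ≤ a ^ 2 * c3 := mul_le_mul_of_nonneg_left h3.1 ha2.le
  have b6 : a ^ 2 * c3 ≤ a ^ 2 * 1 := mul_le_mul_of_nonneg_left (by linarith) ha2.le
  have b7 : Real.exp u * a ^ 2 ≤ (1 + 3 / 2 * u) * a ^ 2 :=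
    mul_le_mul_of_nonneg_right (by linarith) ha2.le
  have b8 : (1 - u) * a ^ 2 ≤ Real.exp (-u) * a ^ 2 := mul_le_mul_of_nonneg_right he1 ha2.le
  rw [abs_le]
  constructor
  · nlinarith
  · nlinarith

theorem bad {N : ZMod M → ℝ} (θ : ℝ) (A : Finset (ZMod M))
    (hα : 0 < al N θ A) (w : ZMod M) :
    |al N θ A ^ 2 + cr (HA N θ A) (HA N θ A) w| ≤ 2 := by
  have h1 := cr_le (HA N θ A) (HA N θ A) w
  have h2 : ∑ x, HA N θ A x * HA N θ A x = al N θ A - al N θ A ^ 2 := by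
    have e1 : ∀ x, HA N θ A x * HA N θ A x = FA N θ A x * FA N θ A x -
        2 * al N θ A * (FA N θ A x * sb N θ x) + al N θ A ^ 2 * (sb N θ x * sb N θ x) := by
      intro x; unfold HA; ring
    simp_rw [e1]
    rw [Finset.sum_add_distrib, Finset.sum_sub_distrib, ← Finset.mul_sum, ← Finset.mul_sum,
      sum_FA_FA, sum_FA_sb, sum_sb]
    ring
  rw [h2] at h1
  have h3 := al_le_one N θ A
  have h4 := abs_le.1 h1
  rw [abs_le]
  constructor <;> nlinarith

/-- expectation over independent `t, t'` -/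
noncomputable def Ex (β : ZMod M → ℝ) (g : ZMod M → ZMod M → ℝ) : ℝ :=
  ∑ t, ∑ t', β t * β t' * g t t'

theorem Ex_mono {β : ZMod M → ℝ} (hβ : PW β) {g g' : ZMod M → ZMod M → ℝ}
    (h : ∀ t t', g t t' ≤ g' t t') : Ex β g ≤ Ex β g' :=
  Finset.sum_le_sum fun t _ => Finset.sum_le_sum fun t' _ =>
    mul_le_mul_of_nonneg_left (h t t') (mul_nonneg (hβ.1 t) (hβ.1 t'))

theorem Ex_add (β : ZMod M → ℝ) (g g' : ZMod M → ZMod M → ℝ) :
    Ex β (fun t t' => g t t' + g' t t') = Ex β g + Ex β g' := by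
  unfold Ex
  simp_rw [mul_add, Finset.sum_add_distrib]

theorem Ex_smul (β : ZMod M → ℝ) (c : ℝ) (g : ZMod M → ZMod M → ℝ) :
    Ex β (fun t t' => c * g t t') = c * Ex β g := by
  unfold Ex
  rw [Finset.mul_sum]
  refine Finset.sum_congr rfl fun t _ => ?_
  rw [Finset.mul_sum]
  exact Finset.sum_congr rfl fun t' _ => by ring

theorem Ex_const {β : ZMod M → ℝ} (hβ : PW β) (c : ℝ) : Ex β (fun _ _ => c) = c := by
  unfold Ex
  simp_rw [← Finset.sum_mul, ← Finset.mul_sum, hβ.2]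
  simp [hβ.2]

theorem Ex_left {β : ZMod M → ℝ} (hβ : PW β) (φ : ZMod M → ℝ) :
    Ex β (fun t _ => φ t) = ∑ t, β t * φ t := by
  unfold Ex
  refine Finset.sum_congr rfl fun t _ => ?_
  rw [← Finset.sum_mul, ← Finset.mul_sum, hβ.2, mul_one]

theorem Ex_right {β : ZMod M → ℝ} (hβ : PW β) (φ : ZMod M → ℝ) :
    Ex β (fun _ t' => φ t') = ∑ t, β t * φ t := by
  unfold Ex
  rw [Finset.sum_comm]
  refine Finset.sum_congr rfl fun t _ => ?_
  rw [← Finset.sum_mul, ← Finset.sum_mul, hβ.2, one_mul]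

theorem numeric (p : ℕ) (hp : 2 ≤ p) : ((1155 / 1000 : ℝ)) ^ (6 * p) ≤ 3 ^ p - 2 := by
  rw [pow_mul]
  have h1 : ((1155 / 1000 : ℝ)) ^ 6 ≤ 3 := by norm_num
  have h2 : (0 : ℝ) ≤ ((1155 / 1000 : ℝ)) ^ 6 := by positivity
  have h3 : (((1155 / 1000 : ℝ)) ^ 6) ^ 2 ≤ 3 ^ 2 - 2 := by norm_num
  generalize ((1155 / 1000 : ℝ)) ^ 6 = q at h1 h2 h3
  induction p, hp using Nat.le_induction with
  | base => exact h3
  | succ p hp ih =>
    rw [pow_succ, pow_succ]
    have h4 : (0 : ℝ) ≤ q ^ p := by positivity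
    nlinarith

theorem pointwise {x Y c : ℝ} {n : ℕ} (hY : 0 ≤ Y) (hc : 0 ≤ c)
    (hx : |x| ≤ Y + c / 500) (hn : Even n) :
    x ^ n ≤ (21 / 20) ^ n * Y ^ n + (42 / 1000) ^ n * c ^ n := by
  rw [← hn.pow_abs]
  have h0 : 0 ≤ |x| := abs_nonneg x
  rcases le_total (c / 25) Y with h | h
  · have h1 : |x| ≤ 21 / 20 * Y := by linarith
    calc |x| ^ n ≤ (21 / 20 * Y) ^ n := pow_le_pow_left₀ h0 h1 n
      _ = (21 / 20) ^ n * Y ^ n := mul_pow _ _ _
      _ ≤ _ := le_add_of_nonneg_right (by positivity)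
  · have h1 : |x| ≤ 42 / 1000 * c := by linarith
    calc |x| ^ n ≤ (42 / 1000 * c) ^ n := pow_le_pow_left₀ h0 h1 n
      _ = (42 / 1000) ^ n * c ^ n := mul_pow _ _ _
      _ ≤ _ := le_add_of_nonneg_left (by positivity)

theorem lower {β f : ZMod M → ℝ} (hMom : ∀ j, 0 ≤ Mom β f j) {c : ℝ} (hc : 0 < c) {p : ℕ}
    (hp : 1 ≤ p) (h : (c / 2) ^ p ≤ Mom β f p) :
    3 ^ p * c ^ (6 * p) ≤ Ex β (fun t t' => (f (t - t') + c) ^ (6 * p)) := by
  have h1 : Ex β (fun t t' => (f (t - t') + c) ^ (6 * p)) =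
      ∑ m ∈ range (6 * p + 1), c ^ (6 * p - m) * ((6 * p).choose m : ℝ) * Mom β f m := by
    unfold Ex Mom
    simp_rw [add_pow, Finset.mul_sum]
    calc ∑ t, ∑ t', ∑ m ∈ range (6 * p + 1),
          β t * β t' * (f (t - t') ^ m * c ^ (6 * p - m) * ((6 * p).choose m : ℝ))
        = ∑ t, ∑ m ∈ range (6 * p + 1), ∑ t',
          β t * β t' * (f (t - t') ^ m * c ^ (6 * p - m) * ((6 * p).choose m : ℝ)) :=
          Finset.sum_congr rfl fun t _ => Finset.sum_comm
      _ = ∑ m ∈ range (6 * p + 1), ∑ t, ∑ t',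
          β t * β t' * (f (t - t') ^ m * c ^ (6 * p - m) * ((6 * p).choose m : ℝ)) :=
          Finset.sum_comm
      _ = _ := Finset.sum_congr rfl fun m _ => Finset.sum_congr rfl fun t _ =>
          Finset.sum_congr rfl fun t' _ => by ring
  rw [h1]
  have h2 : c ^ (6 * p - p) * ((6 * p).choose p : ℝ) * Mom β f p ≤
      ∑ m ∈ range (6 * p + 1), c ^ (6 * p - m) * ((6 * p).choose m : ℝ) * Mom β f m :=
    Finset.single_le_sum
      (f := fun m => c ^ (6 * p - m) * ((6 * p).choose m : ℝ) * Mom β f m)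
      (fun m _ => mul_nonneg (by positivity) (hMom m)) (Finset.mem_range.2 (by omega))
  refine le_trans ?_ h2
  have h3 := choose_ge p hp
  calc 3 ^ p * c ^ (6 * p) = c ^ (6 * p - p) * 6 ^ p * (c / 2) ^ p := by
        have e1 : c ^ (6 * p) = c ^ (6 * p - p) * c ^ p := by
          rw [← pow_add]; congr 1; omega
        have e2 : (3 : ℝ) ^ p * c ^ p = 6 ^ p * (c / 2) ^ p := by
          rw [← mul_pow, ← mul_pow]; congr 1; ring
        rw [e1]
        calc (3 : ℝ) ^ p * (c ^ (6 * p - p) * c ^ p)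
            = c ^ (6 * p - p) * ((3 : ℝ) ^ p * c ^ p) := by ring
          _ = c ^ (6 * p - p) * (6 ^ p * (c / 2) ^ p) := by rw [e2]
          _ = _ := by ring
    _ ≤ c ^ (6 * p - p) * ((6 * p).choose p : ℝ) * Mom β f p := by gcongr

end Unbalance

open Unbalance in
theorem unbalance {N N' : ZMod M → ℝ} {D : ℝ} (hN : IsNrm N) (hN' : IsNrm N')
    (hD' : Dbl N' D) (hle : ∀ x, N x ≤ 2 * N' x) {θ θ₁ : ℝ} (hθ : 0 < θ) (hθ₁ : 0 < θ₁)
    (A : Finset (ZMod M)) (hα : 0 < al N θ A) {p : ℕ} (hp : Even p) (hp2 : 2 ≤ p)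
    (htail : 2 * Real.exp (D - θ₁ / (8000 * θ)) * (2 / al N θ A ^ 2) ^ (6 * p) ≤ 1)
    (hmom : (al N θ A ^ 2 / 2) ^ p ≤ Mom (bt N' θ₁) (cr (HA N θ A) (HA N θ A)) p) :
    ((11 / 10) * al N θ A ^ 2) ^ (6 * p) ≤
      Mom (bt N' θ₁) (cr (FA N θ A) (FA N θ A)) (6 * p) := by
  set a := al N θ A with ha
  set β := bt N' θ₁ with hβdef
  have hβ : PW β := bt_pw N' θ₁
  set c : ℝ := a ^ 2 with hc
  have hc0 : 0 < c := by positivity
  set n : ℕ := 6 * p with hn
  have hneven : Even n := by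
    rw [hn]; exact Even.mul_left hp 6
  set Y : ZMod M → ℝ := cr (FA N θ A) (FA N θ A) with hY
  set f : ZMod M → ℝ := cr (HA N θ A) (HA N θ A) with hf
  have hY0 : ∀ w, 0 ≤ Y w := by
    intro w
    rw [hY]; unfold cr
    exact Finset.sum_nonneg fun x _ => mul_nonneg (FA_nonneg N θ A x) (FA_nonneg N θ A _)
  have h1 := lower (β := β) (f := f) (fun j => Mom_cr_nonneg β (HA N θ A) j) hc0
    (by omega : 1 ≤ p) hmom
  rw [← hn] at h1
  set bd : ZMod M → ℝ := fun t => if 1 / (4000 * θ) ≤ N' t then 1 else 0 with hbd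
  have hbd0 : ∀ t, 0 ≤ bd t := by
    intro t; rw [hbd]; simp only; split_ifs <;> norm_num
  have h2 : ∀ t t', (f (t - t') + c) ^ n ≤
      (21 / 20) ^ n * Y (t - t') ^ n + ((42 / 1000) ^ n * c ^ n +
        (2 ^ n * bd t + 2 ^ n * bd t')) := by
    intro t t'
    by_cases hb : 1 / (4000 * θ) ≤ N' t ∨ 1 / (4000 * θ) ≤ N' t'
    · have h3 := bad (N := N) θ A hα (t - t')
      rw [← ha, ← hc, ← hf, add_comm c] at h3
      have h4 : (f (t - t') + c) ^ n ≤ 2 ^ n := by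
        rw [← hneven.pow_abs]
        exact pow_le_pow_left₀ (abs_nonneg _) h3 n
      have h5 : 1 ≤ bd t + bd t' := by
        rcases hb with hb | hb
        · have : bd t = 1 := by rw [hbd]; simp only; rw [if_pos hb]
          linarith [hbd0 t']
        · have : bd t' = 1 := by rw [hbd]; simp only; rw [if_pos hb]
          linarith [hbd0 t]
      have h6 : (0 : ℝ) ≤ (21 / 20) ^ n * Y (t - t') ^ n := by
        have := hY0 (t - t'); positivity
      have h7 : (0 : ℝ) ≤ (42 / 1000) ^ n * c ^ n := by positivity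
      have h8 : (2 : ℝ) ^ n * 1 ≤ 2 ^ n * (bd t + bd t') :=
        mul_le_mul_of_nonneg_left h5 (by positivity)
      linarith
    · push Not at hb
      have hNw : N (t - t') ≤ 2 * (N' t + N' t') := by
        have e1 := hle (t - t')
        have e2 := hN'.add t (-t')
        rw [hN'.neg, ← sub_eq_add_neg] at e2
        linarith
      have hu : θ * N (t - t') / 2 ≤ 1 / 2000 := by
        have e1 : θ * N (t - t') ≤ θ * (2 * (1 / (4000 * θ) + 1 / (4000 * θ))) := by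
          refine mul_le_mul_of_nonneg_left (hNw.trans ?_) hθ.le
          linarith [hb.1, hb.2]
        have e2 : θ * (2 * (1 / (4000 * θ) + 1 / (4000 * θ))) = 1 / 1000 := by
          field_simp; norm_num
        linarith
      have h3 := good hN hθ.le A hα (t - t') (by linarith)
      rw [← ha, ← hc, ← hf, ← hY, add_comm c] at h3
      have h4 : |f (t - t') + c| ≤ Y (t - t') + c / 500 := by
        refine h3.trans ?_
        have : 4 * (θ * N (t - t') / 2) * c ≤ 4 * (1 / 2000) * c := by gcongr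
        linarith
      have h5 := pointwise (hY0 _) hc0.le h4 hneven
      have h6 : (0 : ℝ) ≤ 2 ^ n * bd t := mul_nonneg (by positivity) (hbd0 t)
      have h7 : (0 : ℝ) ≤ 2 ^ n * bd t' := mul_nonneg (by positivity) (hbd0 t')
      linarith
  have h3 := h1.trans (Ex_mono hβ h2)
  rw [Ex_add, Ex_add, Ex_add, Ex_smul, Ex_const hβ, Ex_smul β (2 ^ n) (fun t _ => bd t),
    Ex_smul β (2 ^ n) (fun _ t' => bd t'), Ex_left hβ, Ex_right hβ] at h3
  have h4 : Ex β (fun t t' => Y (t - t') ^ n) = Mom β Y n := rfl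
  rw [h4] at h3
  have htl : ∑ t, β t * bd t ≤ Real.exp (D - θ₁ / (8000 * θ)) := by
    have e1 := bt_tail hN' hD' hθ₁ (1 / (4000 * θ))
    have e2 : ∑ t, β t * bd t = ∑ x, if 1 / (4000 * θ) ≤ N' x then bt N' θ₁ x else 0 := by
      refine Finset.sum_congr rfl fun x _ => ?_
      rw [hbd]; simp only
      split_ifs <;> simp [hβdef]
    have e3 : θ₁ * (1 / (4000 * θ)) / 2 = θ₁ / (8000 * θ) := by
      field_simp; norm_num
    rw [e2]; rw [e3] at e1; exact e1
  have htl2 : 2 ^ n * (∑ t, β t * bd t) + 2 ^ n * (∑ t, β t * bd t) ≤ c ^ n := by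
    have e1 : 2 * Real.exp (D - θ₁ / (8000 * θ)) * (2 / c) ^ n * c ^ n ≤ 1 * c ^ n :=
      mul_le_mul_of_nonneg_right htail (by positivity)
    have e2 : (2 / c) ^ n * c ^ n = 2 ^ n := by
      rw [← mul_pow]; congr 1; field_simp
    rw [mul_assoc _ ((2 / c) ^ n), e2, one_mul] at e1
    have e3 : (2 : ℝ) ^ n * (∑ t, β t * bd t) ≤ 2 ^ n * Real.exp (D - θ₁ / (8000 * θ)) :=
      mul_le_mul_of_nonneg_left htl (by positivity)
    linarith
  have h42 : ((42 / 1000 : ℝ)) ^ n ≤ 1 := pow_le_one₀ (by norm_num) (by norm_num)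
  have hcn : 0 < c ^ n := by positivity
  have h5 : (3 ^ p - 2) * c ^ n ≤ (21 / 20) ^ n * Mom β Y n := by
    nlinarith
  have h6 := numeric p hp2
  rw [← hn] at h6
  have h7 : ((1155 / 1000 : ℝ)) ^ n * c ^ n ≤ (21 / 20) ^ n * Mom β Y n :=
    (mul_le_mul_of_nonneg_right h6 hcn.le).trans h5
  have h8 : ((1155 / 1000 : ℝ)) ^ n * c ^ n = (21 / 20) ^ n * ((11 / 10) * c) ^ n := by
    rw [← mul_pow, ← mul_pow]; congr 1; ring
  rw [h8] at h7
  exact le_of_mul_le_mul_left h7 (by positivity)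

end Vale.Agent.P057R3
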