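import Vale.Agent.P057R3.Weights2
import Vale.Agent.P057R3.Bohr
import Vale.Agent.P057R3.DblNG
import Vale.Agent.P057R3.SizeNG
import Vale.Agent.P057R3.Half
import Vale.Agent.P057R3.Centre
import Vale.Agent.P057R3.Lift
import Vale.Agent.P057R3.Decouple
import Vale.Agent.P057R3.Unbalance
import Vale.Agent.P057R3.Moments
import Vale.Agent.P057R3.NearConst
import Vale.Agent.P057R3.Sift2
import Vale.Agent.P057R3.CS2
import Vale.Agent.P057R3.Spectral
import Vale.Agent.P057R3.Chang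
import Vale.Agent.P057R3.DensUpper

namespace Vale.Agent.P057R3

open Finset

variable {M : ℕ} [NeZero M]

namespace MainA

/-! ### elementary facts -/

theorem ind_nonneg (A : Finset (ZMod M)) (x : ZMod M) : 0 ≤ ind A x := by
  unfold ind; split_ifs <;> norm_num

theorem ind_le_one (A : Finset (ZMod M)) (x : ZMod M) : ind A x ≤ 1 := by
  unfold ind; split_ifs <;> norm_num

theorem dens_nonneg (N : ZMod M → ℝ) (θ : ℝ) (A : Finset (ZMod M)) (c : ZMod M) :
    0 ≤ dens N θ A c :=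
  Finset.sum_nonneg fun x _ => mul_nonneg (bt_pos N θ x).le (ind_nonneg _ _)

theorem dens_le_one (N : ZMod M → ℝ) (θ : ℝ) (A : Finset (ZMod M)) (c : ZMod M) :
    dens N θ A c ≤ 1 := by
  calc dens N θ A c ≤ ∑ x, bt N θ x * 1 :=
        Finset.sum_le_sum fun x _ =>
          mul_le_mul_of_nonneg_left (ind_le_one _ _) (bt_pos N θ x).le
    _ = 1 := by simpa using (bt_pw N θ).2

theorem al_le_one (N : ZMod M → ℝ) (θ : ℝ) (A : Finset (ZMod M)) : al N θ A ≤ 1 := by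
  have := dens_le_one N θ A 0
  simpa [dens, al] using this

/-- translate of `A` -/
noncomputable def tr (A : Finset (ZMod M)) (c : ZMod M) : Finset (ZMod M) :=
  open Classical in A.image fun a => a - c

theorem ind_tr (A : Finset (ZMod M)) (c x : ZMod M) : ind (tr A c) x = ind A (c + x) := by
  unfold ind tr
  have : (x ∈ A.image fun a => a - c) ↔ c + x ∈ A := by
    rw [Finset.mem_image]
    constructor
    · rintro ⟨a, ha, rfl⟩
      simpa using ha
    · intro h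
      exact ⟨c + x, h, by ring⟩
  by_cases h : c + x ∈ A
  · rw [if_pos (this.2 h), if_pos h]
  · rw [if_neg (fun h' => h (this.1 h')), if_neg h]

theorem al_tr (N : ZMod M → ℝ) (θ : ℝ) (A : Finset (ZMod M)) (c : ZMod M) :
    al N θ (tr A c) = dens N θ A c := by
  unfold al dens
  exact Finset.sum_congr rfl fun x _ => by rw [ind_tr]

theorem dens_tr (N : ZMod M → ℝ) (θ : ℝ) (A : Finset (ZMod M)) (c c' : ZMod M) :
    dens N θ (tr A c) c' = dens N θ A (c + c') := by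
  unfold dens
  exact Finset.sum_congr rfl fun x _ => by rw [ind_tr, add_assoc]

theorem free_tr {A : Finset (ZMod M)} (h : ThreeAPFree (A : Set (ZMod M))) (c : ZMod M) :
    ThreeAPFree (tr A c : Set (ZMod M)) := by
  intro x hx y hy z hz hxyz
  have key : ∀ {w}, w ∈ (tr A c : Set (ZMod M)) → c + w ∈ (A : Set (ZMod M)) := by
    intro w hw
    have hw' : w ∈ tr A c := hw
    unfold tr at hw'
    rw [Finset.mem_image] at hw'
    obtain ⟨a, ha, rfl⟩ := hw'
    simpa using ha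
  have := h (key hx) (key hy) (key hz) (by linear_combination hxyz)
  exact add_left_cancel this

theorem sb_nonneg (N : ZMod M → ℝ) (θ : ℝ) (x : ZMod M) : 0 ≤ sb N θ x := Real.sqrt_nonneg _

theorem FA_nonneg (N : ZMod M → ℝ) (θ : ℝ) (A : Finset (ZMod M)) (x : ZMod M) :
    0 ≤ FA N θ A x := mul_nonneg (ind_nonneg _ _) (sb_nonneg _ _ _)

theorem cr_FA_nonneg (N : ZMod M → ℝ) (θ : ℝ) (A : Finset (ZMod M)) (w : ZMod M) :
    0 ≤ cr (FA N θ A) (FA N θ A) w :=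
  Finset.sum_nonneg fun y _ => mul_nonneg (FA_nonneg _ _ _ _) (FA_nonneg _ _ _ _)

/-! ### step A: from no progressions to an unbalanced moment -/

theorem stepA (hM : Odd M) {N : ZMod M → ℝ} {D : ℝ} (hN : IsNrm N) (hD : Dbl N D)
    {θ θ₂ θ₁ : ℝ} (hθ : 0 < θ) (hθ₂ : 0 < θ₂) (hθ₁ : 0 < θ₁)
    {A : Finset (ZMod M)} (hfree : ThreeAPFree (A : Set (ZMod M))) (hα : 0 < al N θ A)
    {p : ℕ} (hp : Even p) (hp2 : 2 ≤ p) {a₂ : ℝ} (ha₂ : a₂ ≤ al N θ₂ A)
    (hpa : (3 / 5 : ℝ) ^ p ≤ a₂ / 4)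
    (htail : Real.exp (D - θ₂ / (2000 * θ)) ≤ a₂ / 2)
    (hZ : 1 / Zf N θ ≤ al N θ A ^ 2 / 1000)
    (h12 : 8 * D * θ₂ ≤ θ₁)
    (htail' : 2 * Real.exp (D - θ₁ / (8000 * θ)) * (2 / al N θ A ^ 2) ^ (6 * p) ≤ 1) :
    ((11 / 10) * al N θ A ^ 2) ^ (6 * p) ≤
      Mom (bt (hf N) θ₁) (cr (FA N θ A) (FA N θ A)) (6 * p) := by
  have h1 := lift hN hD hθ hθ₂ hfree hp ha₂ htail hZ
  have h2 := decouple hM hN hD hθ₂ hθ₁ h12 (HA N θ A) hp
  refine unbalance hN (isNrm_hf hN) (dbl_hf hM hD) (le_hf hM hN) hθ hθ₁ A hα hp hp2 htail' ?_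
  have h3 : (al N θ A ^ 2 / 2) ^ p ≤ a₂ / 4 * ((997 / 1000) * al N θ A ^ 2) ^ p := by
    have e1 : (al N θ A ^ 2 / 2) ^ p = (1 / 2 : ℝ) ^ p * (al N θ A ^ 2) ^ p := by
      rw [← mul_pow]; ring_nf
    have e2 : ((997 / 1000) * al N θ A ^ 2) ^ p = (997 / 1000 : ℝ) ^ p * (al N θ A ^ 2) ^ p := by
      rw [← mul_pow]
    rw [e1, e2, ← mul_assoc]
    refine mul_le_mul_of_nonneg_right ?_ (by positivity)
    calc (1 / 2 : ℝ) ^ p ≤ ((3 / 5) * (997 / 1000)) ^ p := by gcongr; norm_num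
      _ = (3 / 5 : ℝ) ^ p * (997 / 1000) ^ p := by rw [mul_pow]
      _ ≤ a₂ / 4 * (997 / 1000) ^ p := by gcongr
  linarith

end MainA

end Vale.Agent.P057R3
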