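import Vale.Agent.P057R3.MainA

namespace Vale.Agent.P057R3

open Finset

variable {M : ℕ} [NeZero M]

namespace MainB

open MainA

/-! ### step B: near constancy and sifting -/

theorem stepB {N N' : ZMod M → ℝ} {D : ℝ} (hN : IsNrm N) (hN' : IsNrm N')
    (hD' : Dbl N' D) (hD0 : 0 ≤ D) (hle : ∀ x, N x ≤ 2 * N' x) {θ θ₁ : ℝ} (hθ : 0 < θ)
    (hθ₁ : 0 < θ₁) (A : Finset (ZMod M)) (hα : 0 < al N θ A) {P : ℕ} (hP : 1 ≤ P)
    (hbig : ((11 / 10) * al N θ A ^ 2) ^ P ≤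
      Mom (bt N' θ₁) (cr (FA N θ A) (FA N θ A)) P)
    (hpθ : 4 * (D + 1) * (P + 10 ^ 10 * (1 + Real.log (1 / al N θ A))) * θ ≤ θ₁) :
    ∃ (p : ℕ) (F₀ : ℝ) (lam : ZMod M → ℝ),
      1 ≤ p ∧ (p : ℝ) ≤ P + 10 ^ 10 * (1 + Real.log (1 / al N θ A)) ∧
      (11 / 10) * al N θ A ^ 2 ≤ F₀ ∧ PW lam ∧
      (∀ t, lam t ≤ 16 * (1 / al N θ A) ^ p * bt N' (θ₁ - p * θ) t) ∧
      (∑ t, ∑ t', lam t * lam t' *
        (if cr (FA N θ A) (FA N θ A) (t - t') < (999 / 1000) * F₀ then (1 : ℝ) else 0))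
          ≤ 1 / 2000 ∧
      pr lam (cr (FA N θ A) (FA N θ A)) 0 ≤ (1 + 2 / 1000) * F₀ ∧
      (1 - 2 / 1000) * F₀ ≤ pr lam (cr (FA N θ A) (FA N θ A)) 0 := by
  set m : ℕ → ℝ := Mom (bt N' θ₁) (cr (FA N θ A) (FA N θ A)) with hm
  have hpos : ∀ j, 0 < m j := fun j => Mom_FA_pos N' N θ₁ θ A hα j
  obtain ⟨p, hPp, hpP, hc1, hc2, hc3⟩ := nearConst (m := m) hpos
    (Mom_zero (bt_pw N' θ₁) _)
    (fun j => Mom_logconvex (fun x => (bt_pos N' θ₁ x).le) (cr_FA_nonneg N θ A) j)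
    hα (al_le_one N θ A) (fun j => Mom_FA_succ_le N' N θ₁ θ A j) hP hbig
  have hp1 : 1 ≤ p := hP.trans hPp
  have hF : (11 / 10) * al N θ A ^ 2 ≤ m p / m (p - 1) := by
    rw [le_div_iff₀ (hpos _)]; exact hc2
  have hF0 : 0 < m p / m (p - 1) := div_pos (hpos _) (hpos _)
  have hpθ' : 4 * (D + 1) * p * θ ≤ θ₁ := by
    refine le_trans ?_ hpθ
    have : 0 ≤ D + 1 := by linarith
    gcongr
  obtain ⟨lam, hl1, hl2, hl3, hl4, hl5⟩ := sift hN hN' hD' hD0 hle hθ hθ₁ A hα hp1 hpθ' hF0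
    (by rw [← hm, div_mul_cancel₀ _ (hpos (p - 1)).ne'])
    (by
      rw [← hm]
      have h1 : m (p + 1) ≤ (1 + 1 / (3 * 10 ^ 9)) * m p ^ 2 / m (p - 1) := by
        rw [le_div_iff₀ (hpos _)]; exact hc1
      calc m (p + 1) ≤ (1 + 1 / (3 * 10 ^ 9)) * m p ^ 2 / m (p - 1) := h1
        _ = (1 + 1 / (3 * 10 ^ 9)) * (m p / m (p - 1)) * m p := by ring)
    (by
      rw [← hm]
      refine le_trans ?_ hc3
      gcongr
      nlinarith [sq_nonneg (al N θ A)])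
  exact ⟨p, _, lam, hp1, hpP, hF, hl1, hl2, hl3, hl4, hl5⟩

/-! ### step C: from the measure `lam` to the density inequality -/

/-- the super level set -/
noncomputable def lev (f : ZMod M → ℝ) (v : ℝ) : Finset (ZMod M) :=
  open Classical in Finset.univ.filter fun w => v ≤ f w

theorem ind_lev (f : ZMod M → ℝ) (v : ℝ) (w : ZMod M) :
    ind (lev f v) w = 1 - (if f w < v then (1 : ℝ) else 0) := by
  unfold ind lev
  by_cases h : v ≤ f w
  · rw [if_pos (by simpa using h), if_neg (not_lt.2 h)]; norm_num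
  · rw [if_neg (by simpa using h), if_pos (not_le.1 h)]; norm_num

theorem pr_mono {lam f g : ZMod M → ℝ} (hlam : ∀ x, 0 ≤ lam x) (h : ∀ x, f x ≤ g x)
    (v : ZMod M) : pr lam f v ≤ pr lam g v := by
  unfold pr
  exact Finset.sum_le_sum fun t _ => Finset.sum_le_sum fun t' _ =>
    mul_le_mul_of_nonneg_left (h _) (mul_nonneg (hlam _) (hlam _))

theorem sum_lam_lam {lam : ZMod M → ℝ} (h : PW lam) : ∑ t, ∑ t', lam t * lam t' = 1 := by
  simp only [← Finset.mul_sum, h.2, mul_one]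

theorem stepC {N N' : ZMod M → ℝ} {D : ℝ} (hN : IsNrm N) (hN' : IsNrm N')
    (hD' : Dbl N' D) (hD0 : 0 ≤ D) (hle : ∀ x, N x ≤ 2 * N' x) {θ θp θ₅ θ' : ℝ}
    (hθ : 0 < θ) (hθp : 0 < θp)
    (A : Finset (ZMod M)) {F₀ : ℝ} (hF₀ : 0 < F₀)
    {q : ℕ} (hq : Even q) (hq2 : 2 ≤ q) {lam : ZMod M → ℝ} (hlam : PW lam)
    (hlb : ∀ t, lam t ≤ Real.exp q * bt N' θp t)
    (hbad : (∑ t, ∑ t', lam t * lam t' *
        (if cr (FA N θ A) (FA N θ A) (t - t') < (999 / 1000) * F₀ then (1 : ℝ) else 0))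
          ≤ 1 / 2000)
    (hup : pr lam (cr (FA N θ A) (FA N θ A)) 0 ≤ (1 + 2 / 1000) * F₀)
    (hlow : (1 - 2 / 1000) * F₀ ≤ pr lam (cr (FA N θ A) (FA N θ A)) 0)
    (h5 : 10 ^ 12 * (D + 1) * (q : ℝ) ^ 2 * θp ≤ θ₅)
    (h' : 200 * (10 ^ 12 * (q : ℝ) ^ 2) * (D + 1) * θ₅ ≤ θ') (hθ'1 : 1 ≤ θ')
    (hθp' : 10 ^ 4 * (D + 1) * q * θ ≤ θp) :
    ∃ Λ : Finset (ZMod M), (Λ.card : ℝ) ≤ 24 * (10 ^ 12 * (q : ℝ) ^ 2) ∧
      ∀ (N₃ : ZMod M → ℝ) (D₃ θ₃ Ds : ℝ), IsNrm N₃ → (∀ x, N₃ x = N' x + NG Λ.val x) →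
        Dbl N₃ D₃ → 0 ≤ D₃ → 14000 * D₃ * θ' ≤ θ₃ → 10 ^ 4 * (D₃ + 1) * θ ≤ θ₃ →
        (∀ c, dens N₃ (θ₃ - θ) A c ≤ Ds) →
        (1 - 10 / 1000) * ((1 - 2 / 1000) * F₀) ≤ (1 + 8 / 1000) * Ds * al N θ A := by
  set f : ZMod M → ℝ := cr (FA N θ A) (FA N θ A) with hf
  have hf0 : ∀ w, 0 ≤ f w := cr_FA_nonneg N θ A
  set S := lev f ((999 / 1000) * F₀) with hSdef
  have hS : 1 - 1 / 2000 ≤ pr lam (ind S) 0 := by
    have : pr lam (ind S) 0 + ∑ t, ∑ t', lam t * lam t' *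
        (if f (t - t') < (999 / 1000) * F₀ then (1 : ℝ) else 0) =
          ∑ t, ∑ t', lam t * lam t' := by
      unfold pr
      rw [← Finset.sum_add_distrib]
      refine Finset.sum_congr rfl fun t _ => ?_
      rw [← Finset.sum_add_distrib]
      refine Finset.sum_congr rfl fun t' _ => ?_
      rw [hSdef, ind_lev, add_zero]
      ring
    rw [sum_lam_lam hlam] at this
    linarith
  have hq0 : (2 : ℝ) ≤ q := by exact_mod_cast hq2
  have hθ5 : 0 < θ₅ := lt_of_lt_of_le (by positivity) h5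
  obtain ⟨X, hX1, hX2⟩ := crootSisask hN' hD' hD0 hθp hq hq2 hlam hlb h5 S hS
  have hR1 : (1 : ℝ) ≤ 10 ^ 12 * (q : ℝ) ^ 2 := by nlinarith
  obtain ⟨Λ, hΛ1, hΛ2⟩ := chang hN' hD' hD0 hθ5 h' hR1 hX1
  refine ⟨Λ, hΛ1, ?_⟩
  intro N₃ D₃ θ₃ Ds hN₃ hN₃eq hD₃ hD₃0 h31 h32 hDs
  have hθ₃ : 0 < θ₃ := lt_of_lt_of_le (by positivity) h32
  -- the normalised restriction of the weight to `X`
  set bX : ℝ := ∑ u ∈ X, bt N' θ₅ u with hbX
  have hbX0 : 0 < bX := lt_of_lt_of_le (Real.exp_pos _) hX1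
  set xi : ZMod M → ℝ := fun u => open Classical in if u ∈ X then bt N' θ₅ u / bX else 0
    with hxi
  have hxipw : PW xi := by
    constructor
    · intro u
      simp only [hxi]
      split_ifs
      · exact div_nonneg (bt_pos _ _ _).le hbX0.le
      · exact le_refl _
    · simp only [hxi]
      rw [Finset.sum_ite_mem, Finset.univ_inter, ← Finset.sum_div, ← hbX, div_self hbX0.ne']
  have hxiX : ∀ u, u ∉ X → xi u = 0 := by
    intro u hu
    simp only [hxi, if_neg hu]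
  have hinv : ∀ u ∈ X, ∀ u' ∈ X,
      (1 - 4 / 1000) * pr lam (cr (FA N θ A) (FA N θ A)) 0 ≤
        pr lam (cr (FA N θ A) (FA N θ A)) (u - u') := by
    intro u hu u' hu'
    rw [← hf]
    have h1 : pr lam (fun w => (999 / 1000) * F₀ * ind S w) (u - u') ≤ pr lam f (u - u') := by
      refine pr_mono hlam.1 (fun w => ?_) _
      by_cases hw : (999 / 1000) * F₀ ≤ f w
      · rw [hSdef, ind_lev, if_neg (not_lt.2 hw)]; linarith
      · rw [hSdef, ind_lev, if_pos (not_le.1 hw)]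
        simpa using hf0 w
    have h2 : pr lam (fun w => (999 / 1000) * F₀ * ind S w) (u - u') =
        (999 / 1000) * F₀ * pr lam (ind S) (u - u') := by
      unfold pr
      rw [Finset.mul_sum]
      refine Finset.sum_congr rfl fun t _ => ?_
      rw [Finset.mul_sum]
      exact Finset.sum_congr rfl fun t' _ => by ring
    have h3 := hX2 u hu u' hu'
    have h4 : (999 / 1000) * F₀ * (1 - 1 / 1000) ≤ pr lam f (u - u') := by
      rw [h2] at h1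
      refine le_trans ?_ h1
      gcongr
    have h5 : pr lam f 0 ≤ (1 + 2 / 1000) * F₀ := hup
    nlinarith
  have hftxi : ∀ r, ft xi r =
      (∑ u ∈ X, (bt N' θ₅ u : ℂ) * ZMod.stdAddChar (r * u)) / bX := by
    intro r
    unfold ft
    rw [Finset.sum_div, ← Finset.sum_subset (Finset.subset_univ X)]
    · refine Finset.sum_congr rfl fun u hu => ?_
      simp only [hxi, if_pos hu]
      push_cast
      ring
    · intro u _ hu
      rw [hxiX u hu]; simp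
  have hb : ∀ r, 1 / 2 ≤ ‖ft xi r‖ ^ 2 → ‖1 - ft (bt N₃ θ₃) r‖ ≤ 1 / 1000 := by
    intro r hr
    have hr' : 1 / 2 * (∑ u ∈ X, bt N' θ₅ u) ^ 2 ≤
          ‖∑ u ∈ X, (bt N' θ₅ u : ℂ) * ZMod.stdAddChar (r * u)‖ ^ 2 := by
      rw [hftxi, norm_div, div_pow, Complex.norm_real, Real.norm_eq_abs, sq_abs,
        le_div_iff₀ (by positivity)] at hr
      exact hr
    have hx := hΛ2 r hr'
    have e1 : (1 : ℂ) - ft (bt N₃ θ₃) r =
        ∑ x, (bt N₃ θ₃ x : ℂ) * (1 - ZMod.stdAddChar (r * x)) := by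
      unfold ft
      simp only [mul_sub, mul_one, Finset.sum_sub_distrib]
      congr 1
      rw [← Complex.ofReal_sum, (bt_pw N₃ θ₃).2, Complex.ofReal_one]
    rw [e1]
    calc ‖∑ x, (bt N₃ θ₃ x : ℂ) * (1 - ZMod.stdAddChar (r * x))‖
        ≤ ∑ x, ‖(bt N₃ θ₃ x : ℂ) * (1 - ZMod.stdAddChar (r * x))‖ := norm_sum_le _ _
      _ ≤ ∑ x, 7 * θ' * (bt N₃ θ₃ x * N₃ x) := by
          refine Finset.sum_le_sum fun x _ => ?_
          rw [norm_mul, Complex.norm_real, Real.norm_eq_abs, abs_of_pos (bt_pos _ _ _)]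
          have h7 : ‖1 - ZMod.stdAddChar (r * x)‖ ≤ 7 * (θ' * N₃ x) := by
            refine (hx x).trans ?_
            rw [hN₃eq]
            have : 0 ≤ NG Λ.val x := (isNrm_NG Λ.val).nonneg x
            nlinarith
          calc bt N₃ θ₃ x * ‖1 - ZMod.stdAddChar (r * x)‖
              ≤ bt N₃ θ₃ x * (7 * (θ' * N₃ x)) :=
                mul_le_mul_of_nonneg_left h7 (bt_pos _ _ _).le
            _ = 7 * θ' * (bt N₃ θ₃ x * N₃ x) := by ring
      _ = 7 * θ' * ∑ x, bt N₃ θ₃ x * N₃ x := by rw [Finset.mul_sum]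
      _ ≤ 7 * θ' * (2 * D₃ / θ₃) :=
          mul_le_mul_of_nonneg_left (bt_mean hN₃ hD₃ hθ₃) (by positivity)
      _ ≤ 1 / 1000 := by
          rw [← mul_div_assoc, div_le_iff₀ hθ₃]
          linarith
  have h1 := spectral (F := FA N θ A) (lam := lam) hxipw (bt_pw N₃ θ₃) X hxiX hinv hb
  have h2 := densUpper hN hN' hN₃ hD' hD₃ hD0 hD₃0 hle
    (fun x => by rw [hN₃eq]; have := (isNrm_NG Λ.val).nonneg x; linarith)
    hθ (by omega) hlam hlb hθp' h32 A hDs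
  rw [← hf] at h1
  nlinarith

end MainB

end Vale.Agent.P057R3
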