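import Vale.Agent.P057R3.MainB

namespace Vale.Agent.P057R3

open Finset

variable {M : ℕ} [NeZero M]

namespace MainC

open MainA MainB

theorem three_fifths_pow_le {p : ℕ} : (3 / 5 : ℝ) ^ p ≤ Real.exp (-((p : ℝ) / 2)) := by
  have h1 : (3 / 5 : ℝ) ≤ Real.exp (-(1 / 2)) := by
    have h := Real.exp_one_lt_d9
    have h2 : Real.exp (-(1 / 2)) = (Real.exp (1 / 2))⁻¹ := Real.exp_neg _
    have h3 : Real.exp (1 / 2) ≤ 5 / 3 := by
      have h4 : Real.exp (1 / 2) ^ 2 = Real.exp 1 := by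
        rw [← Real.exp_nat_mul]; norm_num
      by_contra hcon
      push Not at hcon
      nlinarith
    rw [h2]
    rw [le_inv_comm₀ (by norm_num) (Real.exp_pos _)]
    norm_num
    linarith
  calc (3 / 5 : ℝ) ^ p ≤ (Real.exp (-(1 / 2))) ^ p := by gcongr
    _ = Real.exp (-((p : ℝ) / 2)) := by rw [← Real.exp_nat_mul]; congr 1; ring

set_option maxHeartbeats 2000000 in
theorem main_step (hM : Odd M) {A : Finset (ZMod M)}
    (hfree : ThreeAPFree (A : Set (ZMod M))) (Γ : Multiset (ZMod M)) {θ₀ α L B : ℝ}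
    (hθ₀ : 1 ≤ θ₀) (hα : 0 < α) (hα1 : α ≤ 1) (hL1 : 1 ≤ L) (hL : Real.log (4 / α) ≤ L)
    (c₀ : ZMod M) (hdens : α ≤ dens (NG Γ) θ₀ A c₀)
    (hB : 10 ^ 44 * ((Multiset.card Γ : ℝ) + 1) * L ^ 4 ≤ B)
    (hsize : 4000 / α ^ 2 * (20 * (B * θ₀)) ^ (Multiset.card Γ) ≤ M) :
    ∃ (Γ' : Multiset (ZMod M)) (θ' : ℝ) (c' : ZMod M),
      (Multiset.card Γ' : ℝ) ≤ Multiset.card Γ + 10 ^ 38 * L ^ 4 ∧ θ₀ ≤ θ' ∧
      θ' ≤ B ^ 6 * θ₀ ∧ (101 / 100) * α ≤ dens (NG Γ') θ' A c' := by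
  by_contra hcon
  push Not at hcon
  set d : ℝ := (Multiset.card Γ : ℝ) with hd
  have hd0 : 0 ≤ d := Nat.cast_nonneg _
  set N := NG Γ with hNdef
  have hN : IsNrm N := isNrm_NG Γ
  set D : ℝ := 4 * d with hDdef
  have hD : Dbl N D := dbl_NG Γ
  have hD0 : 0 ≤ D := by positivity
  -- the parameter `W`
  have hL0 : 0 < L := by linarith
  have hL4 : 1 ≤ L ^ 4 := one_le_pow₀ hL1
  set W : ℝ := (d + 1) * L ^ 4 with hW
  have hWB : 10 ^ 44 * W ≤ B := by rw [hW, ← mul_assoc]; exact hB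
  have hL2L4 : L ^ 2 ≤ L ^ 4 := by
    exact pow_le_pow_right₀ hL1 (by norm_num)
  have hLL4 : L ≤ L ^ 4 := le_self_pow₀ hL1 (by norm_num)
  have hL4W : L ^ 4 ≤ W := le_mul_of_one_le_left (by positivity) (by linarith)
  have hW1 : 1 ≤ W := hL4.trans hL4W
  have hLW : L ≤ W := hLL4.trans hL4W
  have hL2W : L ^ 2 ≤ W := hL2L4.trans hL4W
  have hdW : d + 1 ≤ W := le_mul_of_one_le_right (by positivity) hL4
  have hB1 : 10 ^ 44 ≤ B := by linarith
  have hB0 : 0 < B := by linarith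
  have hB1' : 1 ≤ B := by linarith
  have hθ₀0 : 0 < θ₀ := by linarith
  have hexpL : Real.exp (-L) ≤ α / 4 := by
    have h1 : 4 / α ≤ Real.exp L := by
      rw [← Real.log_le_iff_le_exp (by positivity)]; exact hL
    rw [Real.exp_neg, inv_le_comm₀ (Real.exp_pos _) (by positivity), inv_div]
    exact h1
  have hexpL' : 4 / α ≤ Real.exp L := by
    rw [← Real.log_le_iff_le_exp (by positivity)]; exact hL
  -- scales
  set θ : ℝ := B * θ₀ with hθdef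
  set θ₂ : ℝ := B * θ with hθ₂def
  set θ₁ : ℝ := B * θ₂ with hθ₁def
  set θ₅ : ℝ := B * θ₁ with hθ₅def
  set θ' : ℝ := B * θ₅ with hθ'def
  set θ₃ : ℝ := B * θ' with hθ₃def
  have hθ : 0 < θ := by positivity
  have hθ₂ : 0 < θ₂ := by positivity
  have hθ₁ : 0 < θ₁ := by positivity
  have hθ₅ : 0 < θ₅ := by positivity
  have hθ' : 0 < θ' := by positivity
  have hθ₃ : 0 < θ₃ := by positivity
  have hle0 : θ₀ ≤ θ := le_mul_of_one_le_left hθ₀0.le hB1'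
  have hle1 : θ ≤ θ₂ := le_mul_of_one_le_left hθ.le hB1'
  have hle2 : θ₂ ≤ θ₁ := le_mul_of_one_le_left hθ₂.le hB1'
  have hle3 : θ₁ ≤ θ₅ := le_mul_of_one_le_left hθ₁.le hB1'
  have hle4 : θ₅ ≤ θ' := le_mul_of_one_le_left hθ₅.le hB1'
  have hle5 : θ' ≤ θ₃ := le_mul_of_one_le_left hθ'.le hB1'
  have hθ₃eq : θ₃ = B ^ 6 * θ₀ := by
    rw [hθ₃def, hθ'def, hθ₅def, hθ₁def, hθ₂def, hθdef]; ring
  have hθ1 : 1 ≤ θ := hθ₀.trans hle0
  -- centre
  have hcard : (Multiset.card Γ : ℝ) ≤ d + 10 ^ 38 * L ^ 4 := by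
    rw [← hd]; have : 0 ≤ 10 ^ 38 * L ^ 4 := by positivity
    linarith
  have hup1 : ∀ c, dens N θ A c ≤ (1 + 1 / 100) * α := fun c => by
    have := hcon Γ θ c hcard hle0 (by rw [← hθ₃eq]; linarith)
    linarith
  have hup2 : ∀ c, dens N θ₂ A c ≤ (1 + 1 / 100) * α := fun c => by
    have := hcon Γ θ₂ c hcard (by linarith) (by rw [← hθ₃eq]; linarith)
    linarith
  have hDB : 2000 * D ≤ B := by linarith
  have hDθ : 2 * D * θ₀ ≤ 1 / 1000 * θ := by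
    have h := mul_le_mul_of_nonneg_right hDB hθ₀0.le
    rw [hθdef]; linarith
  obtain ⟨c, hc1, hc2⟩ := centre (κ := 1 / 1000) (η := 1 / 100) hN hD hθ₀0 hθ hθ₂
    hDθ (by linarith) A c₀ hα.le hdens hup1 hup2
  set A' := tr A c with hA'
  have hfree' : ThreeAPFree (A' : Set (ZMod M)) := free_tr hfree c
  rw [← al_tr N θ A c, ← hA'] at hc1
  rw [← al_tr N θ₂ A c, ← hA'] at hc2
  set a₁ := al N θ A' with ha₁
  have ha1le : a₁ ≤ 1 := al_le_one N θ A'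
  have ha1low : (988 / 1000) * α ≤ a₁ := by linarith
  have ha1half : α / 2 ≤ a₁ := by linarith
  have ha10 : 0 < a₁ := by linarith
  have ha2half : α / 2 ≤ al N θ₂ A' := by linarith
  -- `p₀`
  set p₀ : ℕ := 2 * ⌈2 * L⌉₊ with hp₀
  have hceil : 2 * L ≤ (⌈2 * L⌉₊ : ℝ) := Nat.le_ceil _
  have hceil' : (⌈2 * L⌉₊ : ℝ) < 2 * L + 1 := Nat.ceil_lt_add_one (by linarith)
  have hp₀cast : (p₀ : ℝ) = 2 * (⌈2 * L⌉₊ : ℝ) := by rw [hp₀]; push_cast; ring
  have hp₀low : 4 * L ≤ (p₀ : ℝ) := by rw [hp₀cast]; linarith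
  have hp₀up : (p₀ : ℝ) ≤ 6 * L := by rw [hp₀cast]; linarith
  have hp₀even : Even p₀ := ⟨⌈2 * L⌉₊, by rw [hp₀]; ring⟩
  have hp₀2 : 2 ≤ p₀ := by
    have : (2 : ℝ) ≤ p₀ := by linarith
    exact_mod_cast this
  have hpa : (3 / 5 : ℝ) ^ p₀ ≤ α / 2 / 4 := by
    have h1 : Real.exp (-((p₀ : ℝ) / 2)) ≤ Real.exp (-L) * Real.exp (-1) := by
      rw [← Real.exp_add]
      exact Real.exp_le_exp.2 (by linarith)
    have h2 : Real.exp (-1) ≤ 1 / 2 := by
      have h := Real.exp_one_gt_d9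
      rw [Real.exp_neg, inv_le_comm₀ (Real.exp_pos _) (by norm_num)]
      norm_num; linarith
    have h3 := three_fifths_pow_le (p := p₀)
    have h4 : Real.exp (-L) * Real.exp (-1) ≤ α / 4 * (1 / 2) :=
      mul_le_mul hexpL h2 (Real.exp_pos _).le (by positivity)
    linarith
  have hZ : 1 / Zf N θ ≤ a₁ ^ 2 / 1000 := by
    have h1 := Zf_NG_ge Γ hθ1
    have h2 : 0 < (20 * θ) ^ (Multiset.card Γ) := by positivity
    have h3 : 4000 / α ^ 2 * (20 * θ) ^ (Multiset.card Γ) ≤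
        Zf N θ * (20 * θ) ^ (Multiset.card Γ) := by
      rw [mul_comm (Zf N θ)]; exact hsize.trans h1
    have h4 : 4000 / α ^ 2 ≤ Zf N θ := le_of_mul_le_mul_right h3 h2
    have h5 : 1 / Zf N θ ≤ 1 / (4000 / α ^ 2) :=
      one_div_le_one_div_of_le (by positivity) h4
    have h6 : 1 / (4000 / α ^ 2) = (α / 2) ^ 2 / 1000 := by
      field_simp; ring
    rw [h6] at h5
    refine h5.trans ?_
    gcongr
  have htail : Real.exp (D - θ₂ / (2000 * θ)) ≤ α / 2 / 2 := by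
    have h1 : θ₂ / (2000 * θ) = B / 2000 := by
      rw [hθ₂def]; field_simp
    rw [h1]
    have h2 : D - B / 2000 ≤ -L := by linarith
    have h3 := Real.exp_le_exp.2 h2
    linarith
  have h2a : 2 / a₁ ^ 2 ≤ Real.exp (2 * L) := by
    have h1 : 2 / a₁ ^ 2 ≤ 2 / (α / 2) ^ 2 := by gcongr
    have h2 : 2 / (α / 2) ^ 2 ≤ (4 / α) ^ 2 := by
      have : 2 / (α / 2) ^ 2 = (4 / α) ^ 2 / 2 := by field_simp; norm_num
      rw [this]
      have : 0 ≤ (4 / α) ^ 2 := by positivity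
      linarith
    have h3 : (4 / α) ^ 2 ≤ Real.exp L ^ 2 := by gcongr
    have h4 : Real.exp L ^ 2 = Real.exp (2 * L) := by rw [← Real.exp_nat_mul]; norm_num
    linarith
  have htail' : 2 * Real.exp (D - θ₁ / (8000 * θ)) * (2 / a₁ ^ 2) ^ (6 * p₀) ≤ 1 := by
    have h1 : θ₁ / (8000 * θ) = B ^ 2 / 8000 := by
      rw [hθ₁def, hθ₂def]; field_simp
    have h2 : (2 / a₁ ^ 2) ^ (6 * p₀) ≤ Real.exp (72 * L ^ 2) := by
      calc (2 / a₁ ^ 2) ^ (6 * p₀) ≤ Real.exp (2 * L) ^ (6 * p₀) := by gcongr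
        _ = Real.exp (((6 * p₀ : ℕ) : ℝ) * (2 * L)) := by rw [← Real.exp_nat_mul]
        _ ≤ Real.exp (72 * L ^ 2) := by
            apply Real.exp_le_exp.2
            push_cast
            have h8 : (p₀ : ℝ) * L ≤ 6 * L * L := mul_le_mul_of_nonneg_right hp₀up hL0.le
            linarith
    have h3 : (2 : ℝ) ≤ Real.exp 1 := by have := Real.exp_one_gt_d9; linarith
    rw [h1]
    calc 2 * Real.exp (D - B ^ 2 / 8000) * (2 / a₁ ^ 2) ^ (6 * p₀)
        ≤ Real.exp 1 * Real.exp (D - B ^ 2 / 8000) * Real.exp (72 * L ^ 2) := by gcongr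
      _ = Real.exp (1 + (D - B ^ 2 / 8000) + 72 * L ^ 2) := by
          rw [Real.exp_add, Real.exp_add]
      _ ≤ Real.exp 0 := by
          apply Real.exp_le_exp.2
          have hBB : 10 ^ 44 * W * 1 ≤ B * B := mul_le_mul hWB (by linarith) (by norm_num) hB0.le
          have hBB2 : B ^ 2 = B * B := sq B
          rw [hBB2]
          linarith
      _ = 1 := Real.exp_zero
  have hbig := stepA hM hN hD hθ hθ₂ hθ₁ hfree' ha10 hp₀even hp₀2 ha2half hpa htail hZ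
    (by
      rw [hθ₁def]
      exact mul_le_mul_of_nonneg_right (by linarith) hθ₂.le)
    htail'
  have hN' : IsNrm (hf N) := isNrm_hf hN
  have hD' : Dbl (hf N) D := dbl_hf hM hD
  have hle : ∀ x, N x ≤ 2 * hf N x := le_hf hM hN
  have hloga : Real.log (1 / a₁) ≤ L := by
    have h1 : 1 / a₁ ≤ 4 / α := by
      rw [div_le_div_iff₀ ha10 hα]; linarith
    exact (Real.log_le_log (by positivity) h1).trans hL
  have hloga0 : 0 ≤ Real.log (1 / a₁) := Real.log_nonneg (by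
    rw [le_div_iff₀ ha10]; linarith)
  have h6p₀ : ((6 * p₀ : ℕ) : ℝ) ≤ 36 * L := by push_cast; linarith
  have hPbound : ((6 * p₀ : ℕ) : ℝ) + 10 ^ 10 * (1 + Real.log (1 / a₁)) ≤ 3 * 10 ^ 10 * L := by
    linarith
  obtain ⟨p, F₀, lam, hp1, hpP, hF, hlam, hl2, hl3, hl4, hl5⟩ :=
    stepB hN hN' hD' hD0 hle hθ hθ₁ A' ha10 (P := 6 * p₀) (by omega) hbig (by
      have hD1 : 0 ≤ 4 * (D + 1) := by positivity
      calc 4 * (D + 1) * (((6 * p₀ : ℕ) : ℝ) + 10 ^ 10 * (1 + Real.log (1 / al N θ A'))) * θ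
          ≤ 4 * (D + 1) * (3 * 10 ^ 10 * L) * θ := by gcongr
        _ ≤ (B * B) * θ := by
            refine mul_le_mul_of_nonneg_right ?_ hθ.le
            have h1 : 4 * (D + 1) ≤ B := by linarith
            have h2 : 3 * 10 ^ 10 * L ≤ B := by linarith
            exact mul_le_mul h1 h2 (by positivity) hB0.le
        _ = θ₁ := by rw [hθ₁def, hθ₂def]; ring)
  rw [← ha₁] at hl2 hF hpP
  have hpL : (p : ℝ) ≤ 3 * 10 ^ 10 * L := hpP.trans hPbound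
  -- `q`
  set q : ℕ := 2 * ⌈10 ^ 11 * L ^ 2⌉₊ with hqdef
  have hc5 : 10 ^ 11 * L ^ 2 ≤ (⌈10 ^ 11 * L ^ 2⌉₊ : ℝ) := Nat.le_ceil _
  have hc6 : (⌈10 ^ 11 * L ^ 2⌉₊ : ℝ) < 10 ^ 11 * L ^ 2 + 1 := Nat.ceil_lt_add_one (by positivity)
  have hqcast : (q : ℝ) = 2 * (⌈10 ^ 11 * L ^ 2⌉₊ : ℝ) := by rw [hqdef]; push_cast; ring
  have hL21 : 1 ≤ L ^ 2 := one_le_pow₀ hL1
  have hqlow : 2 * 10 ^ 11 * L ^ 2 ≤ (q : ℝ) := by rw [hqcast]; linarith
  have hqup : (q : ℝ) ≤ 4 * 10 ^ 11 * L ^ 2 := by rw [hqcast]; linarith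
  have hqeven : Even q := ⟨⌈10 ^ 11 * L ^ 2⌉₊, by rw [hqdef]; ring⟩
  have hq2r : (2 : ℝ) ≤ q := by linarith
  have hq2 : 2 ≤ q := by exact_mod_cast hq2r
  have hq0 : (0 : ℝ) ≤ q := by linarith
  have hqq : (q : ℝ) ^ 2 ≤ 16 * 10 ^ 22 * L ^ 4 := by
    calc (q : ℝ) ^ 2 ≤ (4 * 10 ^ 11 * L ^ 2) ^ 2 := by gcongr
      _ = 16 * 10 ^ 22 * L ^ 4 := by ring
  have hqqW : (D + 1) * (q : ℝ) ^ 2 ≤ 64 * 10 ^ 22 * W := by
    calc (D + 1) * (q : ℝ) ^ 2 ≤ (4 * (d + 1)) * (16 * 10 ^ 22 * L ^ 4) := by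
          have : D + 1 ≤ 4 * (d + 1) := by linarith
          gcongr
      _ = 64 * 10 ^ 22 * W := by rw [hW]; ring
  set θp : ℝ := θ₁ - p * θ with hθpdef
  have hBθ : B * θ * B = θ₁ := by rw [hθ₁def, hθ₂def]; ring
  have hpθ : (p : ℝ) * θ ≤ θ₁ / 2 := by
    have h1 : (p : ℝ) ≤ B / 2 := by linarith
    calc (p : ℝ) * θ ≤ B / 2 * θ := by gcongr
      _ = θ₂ / 2 := by rw [hθ₂def]; ring
      _ ≤ θ₁ / 2 := by linarith
  have hp0 : (0 : ℝ) ≤ p := Nat.cast_nonneg _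
  have hθp_le : θp ≤ θ₁ := by
    rw [hθpdef]; have : 0 ≤ (p : ℝ) * θ := by positivity
    linarith
  have hθp_ge : θ₁ / 2 ≤ θp := by rw [hθpdef]; linarith
  have hθp : 0 < θp := by linarith
  have hlb : ∀ t, lam t ≤ Real.exp q * bt (hf N) θp t := by
    intro t
    refine (hl2 t).trans ?_
    refine mul_le_mul_of_nonneg_right ?_ (bt_pos _ _ _).le
    have h1 : 1 / a₁ ≤ Real.exp L := by
      refine le_trans ?_ hexpL'
      rw [div_le_div_iff₀ ha10 hα]; linarith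
    have h2 : (1 / a₁) ^ p ≤ Real.exp (p * L) := by
      calc (1 / a₁) ^ p ≤ Real.exp L ^ p := by gcongr
        _ = Real.exp (p * L) := by rw [← Real.exp_nat_mul]
    have h3 : (16 : ℝ) ≤ Real.exp 3 := by
      have h := Real.exp_one_gt_d9
      have h4 : Real.exp 3 = Real.exp 1 ^ 3 := by rw [← Real.exp_nat_mul]; norm_num
      rw [h4]
      have h5 : (2.7 : ℝ) ^ 3 ≤ Real.exp 1 ^ 3 := by gcongr; linarith
      norm_num at h5
      linarith
    calc 16 * (1 / a₁) ^ p ≤ Real.exp 3 * Real.exp (p * L) := by gcongr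
      _ = Real.exp (3 + p * L) := by rw [Real.exp_add]
      _ ≤ Real.exp q := by
          apply Real.exp_le_exp.2
          have : (p : ℝ) * L ≤ 3 * 10 ^ 10 * L * L := mul_le_mul_of_nonneg_right hpL hL0.le
          linarith
  have hF₀ : 0 < F₀ := lt_of_lt_of_le (by positivity) hF
  obtain ⟨Λ, hΛ1, hΛ2⟩ := stepC (θ₅ := θ₅) (θ' := θ') hN hN' hD' hD0 hle hθ hθp A' hF₀ hqeven hq2
    hlam hlb hl3 hl4 hl5
    (by
      calc 10 ^ 12 * (D + 1) * (q : ℝ) ^ 2 * θp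
          = (10 ^ 12 * ((D + 1) * (q : ℝ) ^ 2)) * θp := by ring
        _ ≤ B * θp := by gcongr; linarith
        _ ≤ B * θ₁ := by gcongr
        _ = θ₅ := by rw [hθ₅def])
    (by
      calc 200 * (10 ^ 12 * (q : ℝ) ^ 2) * (D + 1) * θ₅
          = (200 * 10 ^ 12 * ((D + 1) * (q : ℝ) ^ 2)) * θ₅ := by ring
        _ ≤ B * θ₅ := by gcongr; linarith
        _ = θ' := by rw [hθ'def])
    (by linarith)
    (by
      have h1 : 10 ^ 4 * (D + 1) * q ≤ B / 2 := by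
        calc 10 ^ 4 * (D + 1) * q ≤ 10 ^ 4 * ((D + 1) * (q : ℝ) ^ 2) := by
              have : (q : ℝ) ≤ (q : ℝ) ^ 2 := le_self_pow₀ (by linarith) (by norm_num)
              have hD1 : 0 ≤ D + 1 := by positivity
              have h9 := mul_le_mul_of_nonneg_left this hD1
              linarith
          _ ≤ B / 2 := by linarith
      calc 10 ^ 4 * (D + 1) * q * θ ≤ B / 2 * θ := by gcongr
        _ = θ₂ / 2 := by rw [hθ₂def]; ring
        _ ≤ θ₁ / 2 := by linarith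
        _ ≤ θp := hθp_ge)
  -- the new weight
  set Γ₃ : Multiset (ZMod M) := (Γ.map fun r => r * (2 : ZMod M)⁻¹) + Λ.val with hΓ₃
  have hcard3 : (Multiset.card Γ₃ : ℝ) = d + Λ.card := by
    rw [hΓ₃, Multiset.card_add, Multiset.card_map, Finset.card_val, Nat.cast_add]
  have hΛL : (Λ.card : ℝ) ≤ 10 ^ 38 * L ^ 4 := by
    refine hΛ1.trans ?_
    linarith
  have hΛL' : (Λ.card : ℝ) ≤ 4 * 10 ^ 36 * L ^ 4 := by
    refine hΛ1.trans ?_
    linarith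
  have hN₃eq : ∀ x, NG Γ₃ x = hf N x + NG Λ.val x := by
    intro x
    rw [hΓ₃, NG_add, hNdef, hf_NG]
  have hΛ0 : (0 : ℝ) ≤ Λ.card := Nat.cast_nonneg _
  have hD₃B : 14000 * (4 * (Multiset.card Γ₃ : ℝ)) ≤ B := by
    rw [hcard3]; linarith
  have hfin := hΛ2 (NG Γ₃) (4 * (Multiset.card Γ₃ : ℝ)) θ₃ ((101 / 100) * α)
    (isNrm_NG Γ₃) hN₃eq (dbl_NG Γ₃) (by positivity)
    (by
      rw [hθ₃def]
      exact mul_le_mul_of_nonneg_right hD₃B hθ'.le)
    (by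
      calc 10 ^ 4 * (4 * (Multiset.card Γ₃ : ℝ) + 1) * θ ≤ B * θ := by
            refine mul_le_mul_of_nonneg_right ?_ hθ.le
            have : 14000 * (4 * (Multiset.card Γ₃ : ℝ)) ≤ B / 2 := by
              rw [hcard3]; linarith
            linarith
        _ = θ₂ := by rw [hθ₂def]
        _ ≤ θ₃ := by linarith)
    (by
      intro c'
      rw [hA', dens_tr]
      refine (hcon Γ₃ (θ₃ - θ) (c + c') ?_ ?_ ?_).le
      · rw [hcard3]; linarith
      · have h1 : 2 * θ ≤ θ₂ := by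
          rw [hθ₂def]; exact mul_le_mul_of_nonneg_right (by linarith) hθ.le
        linarith
      · rw [← hθ₃eq]; linarith)
  rw [← ha₁] at hfin
  have h1 : (1 - 10 / 1000) * ((1 - 2 / 1000) * ((11 / 10) * a₁ ^ 2)) ≤
      (1 + 8 / 1000) * ((101 / 100) * α) * a₁ := by
    refine le_trans ?_ hfin
    gcongr
  have h2 : a₁ * ((1 - 10 / 1000) * ((1 - 2 / 1000) * (11 / 10)) * a₁) ≤
      a₁ * ((1 + 8 / 1000) * (101 / 100) * α) := by
    linarith
  have h3 := le_of_mul_le_mul_left h2 ha10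
  linarith

end MainC

end Vale.Agent.P057R3
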