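import Vale.Agent.P057R3.MainC

namespace Vale.Agent.P057R3

open Finset

variable {M : ℕ} [NeZero M]

namespace MainD

open MainA MainB MainC

theorem dens_empty (θ : ℝ) (A : Finset (ZMod M)) (c : ZMod M) :
    dens (NG (0 : Multiset (ZMod M))) θ A c = (A.card : ℝ) / M := by
  classical
  have h0 : ∀ x : ZMod M, NG (0 : Multiset (ZMod M)) x = 0 := by intro x; simp [NG]
  have hw : ∀ x : ZMod M, wt (NG (0 : Multiset (ZMod M))) θ x = 1 := by
    intro x; simp [wt, h0]
  have hM0 : (M : ℝ) ≠ 0 := by exact_mod_cast NeZero.ne M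
  have hz : Zf (NG (0 : Multiset (ZMod M))) θ = M := by
    unfold Zf; simp [hw, ZMod.card]
  unfold dens bt
  simp only [hw, hz]
  rw [← Finset.mul_sum]
  have h1 : ∑ x : ZMod M, ind A (c + x) = ∑ x : ZMod M, ind A x :=
    Fintype.sum_equiv (Equiv.addLeft c) _ _ (fun x => rfl)
  rw [h1]
  have h2 : ∑ x : ZMod M, ind A x = A.card := by
    unfold ind
    rw [Finset.sum_ite_mem]
    simp
  rw [h2]; ring

theorem iter_bound (hM : Odd M) {A : Finset (ZMod M)}
    (hfree : ThreeAPFree (A : Set (ZMod M))) {α L : ℝ} (hα : 0 < α)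
    (hαA : α = (A.card : ℝ) / M) (hL1 : 1 ≤ L) (hL : Real.log (4 / α) ≤ L)
    {I : ℕ} {dm B : ℝ} (hdm : dm = I * (10 ^ 38 * L ^ 4)) (hB : B = 10 ^ 44 * (dm + 1) * L ^ 4)
    (hI : 1 < (101 / 100 : ℝ) ^ I * α) :
    (M : ℝ) < 4000 / α ^ 2 * (20 * B ^ (6 * I + 1)) ^ ⌊dm⌋₊ := by
  by_contra hcon
  push Not at hcon
  have hL4 : 1 ≤ L ^ 4 := one_le_pow₀ hL1
  have hdm0 : 0 ≤ dm := by rw [hdm]; positivity
  have hB1 : 1 ≤ B := by
    rw [hB]
    have h1 : 1 ≤ (dm + 1) * L ^ 4 := by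
      calc (1 : ℝ) = 1 * 1 := by norm_num
        _ ≤ (dm + 1) * L ^ 4 := mul_le_mul (by linarith) hL4 (by norm_num) (by linarith)
    linarith
  have key : ∀ i : ℕ, i ≤ I → ∃ (Γ : Multiset (ZMod M)) (θ : ℝ) (c : ZMod M),
      (Multiset.card Γ : ℝ) ≤ i * (10 ^ 38 * L ^ 4) ∧ 1 ≤ θ ∧ θ ≤ B ^ (6 * i) ∧
        (101 / 100 : ℝ) ^ i * α ≤ dens (NG Γ) θ A c := by
    intro i
    induction i with
    | zero =>
      intro _
      refine ⟨0, 1, 0, by simp, le_refl _, by simp, ?_⟩
      rw [dens_empty, hαA]; simp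
    | succ i ih =>
      intro hi
      obtain ⟨Γ, θ, c, h1, h2, h3, h4⟩ := ih (by omega)
      have hαi : 0 < (101 / 100 : ℝ) ^ i * α := by positivity
      have h1' : (Multiset.card Γ : ℝ) ≤ dm := by
        refine h1.trans ?_
        rw [hdm]
        have : (i : ℝ) ≤ I := by exact_mod_cast (by omega : i ≤ I)
        gcongr
      have hαle : α ≤ (101 / 100 : ℝ) ^ i * α :=
        le_mul_of_one_le_left hα.le (one_le_pow₀ (by norm_num))
      obtain ⟨Γ', θ', c', g1, g2, g3, g4⟩ := main_step (B := B) (L := L) hM hfree Γ h2 hαi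
        (h4.trans (dens_le_one _ _ _ _)) hL1
        (by
          refine le_trans ?_ hL
          apply Real.log_le_log (by positivity)
          gcongr) c h4
        (by rw [hB]; gcongr)
        (by
          refine le_trans ?_ hcon
          have e1 : (1 : ℝ) ≤ 20 * B ^ (6 * I + 1) := by
            have : (1 : ℝ) ≤ B ^ (6 * I + 1) := one_le_pow₀ hB1
            linarith
          have e2 : B * θ ≤ B ^ (6 * I + 1) := by
            calc B * θ ≤ B * B ^ (6 * i) := by gcongr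
              _ = B ^ (6 * i + 1) := by ring
              _ ≤ B ^ (6 * I + 1) := pow_le_pow_right₀ hB1 (by omega)
          calc 4000 / ((101 / 100 : ℝ) ^ i * α) ^ 2 * (20 * (B * θ)) ^ (Multiset.card Γ)
              ≤ 4000 / α ^ 2 * (20 * B ^ (6 * I + 1)) ^ (Multiset.card Γ) := by gcongr
            _ ≤ 4000 / α ^ 2 * (20 * B ^ (6 * I + 1)) ^ ⌊dm⌋₊ := by
                refine mul_le_mul_of_nonneg_left ?_ (by positivity)
                exact pow_le_pow_right₀ e1 (Nat.le_floor h1'))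
      refine ⟨Γ', θ', c', ?_, ?_, ?_, ?_⟩
      · push_cast; linarith
      · linarith
      · calc θ' ≤ B ^ 6 * θ := g3
          _ ≤ B ^ 6 * B ^ (6 * i) := by gcongr
          _ = B ^ (6 * (i + 1)) := by ring
      · calc (101 / 100 : ℝ) ^ (i + 1) * α = 101 / 100 * ((101 / 100 : ℝ) ^ i * α) := by ring
          _ ≤ _ := g4
  obtain ⟨Γ, θ, c, _, _, _, h4⟩ := key I le_rfl
  have := dens_le_one (NG Γ) θ A c
  linarith

theorem log_M_le (hM : Odd M) {A : Finset (ZMod M)}
    (hfree : ThreeAPFree (A : Set (ZMod M))) (hA : A.Nonempty) {L : ℝ}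
    (hL : L = Real.log (4 / ((A.card : ℝ) / M))) :
    1 ≤ L ∧ Real.log M ≤ 10 ^ 47 * L ^ 6 * (1 + Real.log L) := by
  classical
  have hM0 : (0 : ℝ) < M := by exact_mod_cast (NeZero.pos M)
  set α : ℝ := (A.card : ℝ) / M with hα
  have hc0 : (0 : ℝ) < A.card := by exact_mod_cast hA.card_pos
  have hα0 : 0 < α := div_pos hc0 hM0
  have hα1 : α ≤ 1 := by
    rw [hα, div_le_one hM0]
    have := Finset.card_le_univ A
    rw [ZMod.card] at this
    exact_mod_cast this
  have hlogα : 0 ≤ Real.log (1 / α) := Real.log_nonneg (by rw [le_div_iff₀ hα0]; linarith)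
  have hLeq : L = Real.log 4 + Real.log (1 / α) := by
    rw [hL, ← Real.log_mul (by norm_num) (by positivity)]
    congr 1; ring
  have hlog2 : (0.69 : ℝ) < Real.log 2 := by have := Real.log_two_gt_d9; linarith
  have hlog4 : Real.log 4 = 2 * Real.log 2 := by
    rw [show (4 : ℝ) = 2 ^ 2 by norm_num, Real.log_pow]; norm_num
  have hL1 : 1 ≤ L := by rw [hLeq, hlog4]; linarith
  have hL0 : 0 < L := by linarith
  have hlogL : 0 ≤ Real.log L := Real.log_nonneg hL1
  refine ⟨hL1, ?_⟩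
  set I : ℕ := ⌈101 * L⌉₊ with hI
  have hI1 : 101 * L ≤ I := Nat.le_ceil _
  have hI2 : (I : ℝ) < 101 * L + 1 := Nat.ceil_lt_add_one (by positivity)
  have hI3 : (I : ℝ) ≤ 102 * L := by linarith
  set dm : ℝ := I * (10 ^ 38 * L ^ 4) with hdm
  set B : ℝ := 10 ^ 44 * (dm + 1) * L ^ 4 with hB
  have hL4 : 1 ≤ L ^ 4 := one_le_pow₀ hL1
  have hL5 : 1 ≤ L ^ 5 := one_le_pow₀ hL1
  have hdm0 : 0 ≤ dm := by positivity
  have hdmle : dm ≤ 102 * 10 ^ 38 * L ^ 5 := by
    calc dm ≤ (102 * L) * (10 ^ 38 * L ^ 4) := by rw [hdm]; gcongr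
      _ = 102 * 10 ^ 38 * L ^ 5 := by ring
  have hpow : 1 < (101 / 100 : ℝ) ^ I * α := by
    have h1 : 1 / 101 ≤ Real.log (101 / 100) := by
      have := Real.one_sub_inv_le_log_of_pos (show (0 : ℝ) < 101 / 100 by norm_num)
      norm_num at this ⊢
      linarith
    have h2 : Real.log (1 / α) < I * Real.log (101 / 100) := by
      have h3 : Real.log (1 / α) < L := by rw [hLeq, hlog4]; linarith
      have h4 : L ≤ I * Real.log (101 / 100) := by
        calc L = (101 * L) * (1 / 101) := by ring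
          _ ≤ I * Real.log (101 / 100) := by gcongr
      linarith
    rw [← Real.log_pow] at h2
    have h5 := (Real.log_lt_log_iff (by positivity) (by positivity)).1 h2
    rw [div_lt_iff₀ hα0] at h5
    exact h5
  have hb := iter_bound (B := B) (L := L) (dm := dm) hM hfree hα0 hα hL1 hL.ge rfl rfl hpow
  have hB1 : 1 ≤ B := by
    rw [hB]
    have h1 : 1 ≤ (dm + 1) * L ^ 4 := by
      calc (1 : ℝ) = 1 * 1 := by norm_num
        _ ≤ (dm + 1) * L ^ 4 := mul_le_mul (by linarith) hL4 (by norm_num) (by linarith)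
    linarith
  have hlogB : Real.log B ≤ 200 * (1 + Real.log L) := by
    have h1 : B ≤ 10 ^ 86 * L ^ 9 := by
      calc B ≤ 10 ^ 44 * (102 * 10 ^ 38 * L ^ 5 + L ^ 5) * L ^ 4 := by rw [hB]; gcongr
        _ = (10 ^ 44 * (102 * 10 ^ 38 + 1)) * L ^ 9 := by ring
        _ ≤ 10 ^ 86 * L ^ 9 := by gcongr; norm_num
    have h2 : Real.log (10 ^ 86 * L ^ 9) = 86 * Real.log 10 + 9 * Real.log L := by
      rw [Real.log_mul (by positivity) (by positivity), Real.log_pow, Real.log_pow]
      push_cast; ring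
    have h3 : Real.log 10 ≤ 2.31 := by
      rw [Real.log_le_iff_le_exp (by norm_num)]
      have h := Real.exp_one_gt_d9
      have h4 : Real.exp 2.31 = Real.exp 1 ^ 2 * Real.exp 0.31 := by
        rw [← Real.exp_nat_mul, ← Real.exp_add]; norm_num
      have h5 : (1.358 : ℝ) ≤ Real.exp 0.31 := by
        have := Real.quadratic_le_exp_of_nonneg (show (0 : ℝ) ≤ 0.31 by norm_num)
        norm_num at this ⊢
        linarith
      have h6 : (2.7182 : ℝ) ^ 2 ≤ Real.exp 1 ^ 2 := by gcongr; linarith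
      rw [h4]
      have h7 : (2.7182 : ℝ) ^ 2 * 1.358 ≤ Real.exp 1 ^ 2 * Real.exp 0.31 := by gcongr
      norm_num at h7 ⊢
      linarith
    have h4 := Real.log_le_log (by linarith) h1
    rw [h2] at h4
    linarith
  have hlogM : Real.log M ≤ Real.log (4000 / α ^ 2) +
      ⌊dm⌋₊ * (Real.log 20 + (6 * I + 1) * Real.log B) := by
    have h1 := Real.log_le_log hM0 hb.le
    rw [Real.log_mul (by positivity) (by positivity), Real.log_pow,
      Real.log_mul (by norm_num) (by positivity), Real.log_pow] at h1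
    push_cast at h1
    exact h1
  have hfl : (⌊dm⌋₊ : ℝ) ≤ dm := Nat.floor_le hdm0
  have hlog20 : Real.log 20 ≤ 3 := by
    rw [Real.log_le_iff_le_exp (by norm_num)]
    have h := Real.exp_one_gt_d9
    have h4 : Real.exp 3 = Real.exp 1 ^ 3 := by rw [← Real.exp_nat_mul]; norm_num
    rw [h4]
    have h5 : (2.7182 : ℝ) ^ 3 ≤ Real.exp 1 ^ 3 := by gcongr; linarith
    norm_num at h5
    linarith
  have hlog20' : 0 ≤ Real.log 20 := Real.log_nonneg (by norm_num)
  have hlogB0 : 0 ≤ Real.log B := Real.log_nonneg hB1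
  have hlog4000 : Real.log (4000 / α ^ 2) ≤ 9 + 2 * L := by
    have h1 : Real.log (4000 / α ^ 2) = Real.log 4000 + 2 * Real.log (1 / α) := by
      rw [show 4000 / α ^ 2 = 4000 * (1 / α) ^ 2 by ring,
        Real.log_mul (by norm_num) (by positivity), Real.log_pow]
      norm_num
    have h2 : Real.log 4000 ≤ 9 := by
      rw [Real.log_le_iff_le_exp (by norm_num)]
      have h := Real.exp_one_gt_d9
      have h4 : Real.exp 9 = Real.exp 1 ^ 9 := by rw [← Real.exp_nat_mul]; norm_num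
      rw [h4]
      have h5 : (2.7182 : ℝ) ^ 9 ≤ Real.exp 1 ^ 9 := by gcongr; linarith
      norm_num at h5
      linarith
    rw [h1]
    have : Real.log (1 / α) ≤ L := by rw [hLeq, hlog4]; linarith
    linarith
  set l : ℝ := 1 + Real.log L with hl
  have hl1 : 1 ≤ l := by rw [hl]; linarith
  have hmid : Real.log 20 + (6 * I + 1) * Real.log B ≤ 130000 * L * l := by
    have h1 : (6 * (I : ℝ) + 1) ≤ 613 * L := by linarith
    have h2 : (6 * (I : ℝ) + 1) * Real.log B ≤ 613 * L * (200 * l) := by gcongr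
    have h3 : 1 ≤ L * l := by
      calc (1 : ℝ) = 1 * 1 := by norm_num
        _ ≤ L * l := mul_le_mul hL1 hl1 (by norm_num) hL0.le
    linarith
  have hmid0 : 0 ≤ Real.log 20 + (6 * I + 1) * Real.log B := by positivity
  have hprod : (⌊dm⌋₊ : ℝ) * (Real.log 20 + (6 * I + 1) * Real.log B) ≤
      102 * 10 ^ 38 * L ^ 5 * (130000 * L * l) := by
    have h1 : (⌊dm⌋₊ : ℝ) ≤ 102 * 10 ^ 38 * L ^ 5 := hfl.trans hdmle
    gcongr
  have hL6 : L ≤ L ^ 6 := le_self_pow₀ hL1 (by norm_num)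
  have hL6l : L ^ 6 ≤ L ^ 6 * l := le_mul_of_one_le_right (by positivity) hl1
  calc Real.log M ≤ (9 + 2 * L) + 102 * 10 ^ 38 * L ^ 5 * (130000 * L * l) := by
        linarith
    _ = (9 + 2 * L) + (102 * 10 ^ 38 * 130000) * (L ^ 6 * l) := by ring
    _ ≤ 10 ^ 47 * (L ^ 6 * l) := by linarith
    _ = 10 ^ 47 * L ^ 6 * l := by ring

end MainD

end Vale.Agent.P057R3
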