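import Vale.Agent.P057R3.MainD

namespace Vale.Agent.P057R3

open Finset

namespace MainE

open MainA MainD

/-- image of `A ⊆ [1, N]` in `ZMod (2 N + 1)` -/
def emb (N : ℕ) (A : Finset ℕ) : Finset (ZMod (2 * N + 1)) :=
  A.image fun a : ℕ => (a : ZMod (2 * N + 1))

theorem emb_eq {N a b : ℕ} (ha : a ≤ 2 * N) (hb : b ≤ 2 * N)
    (h : (a : ZMod (2 * N + 1)) = (b : ZMod (2 * N + 1))) : a = b := by
  rw [ZMod.natCast_eq_natCast_iff'] at h
  rwa [Nat.mod_eq_of_lt (by omega), Nat.mod_eq_of_lt (by omega)] at h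

theorem emb_card {N : ℕ} {A : Finset ℕ} (hA : A ⊆ Finset.Icc 1 N) :
    (emb N A).card = A.card := by
  unfold emb
  refine Finset.card_image_of_injOn ?_
  intro a ha b hb hab
  have h1 := Finset.mem_Icc.1 (hA ha)
  have h2 := Finset.mem_Icc.1 (hA hb)
  exact emb_eq (by omega) (by omega) hab

theorem emb_free {N : ℕ} {A : Finset ℕ} (hA : A ⊆ Finset.Icc 1 N)
    (hfree : ∀ a d : ℕ, 0 < d → ¬ (a ∈ A ∧ a + d ∈ A ∧ a + 2 * d ∈ A)) :
    ThreeAPFree (emb N A : Set (ZMod (2 * N + 1))) := by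
  intro x hx y hy z hz hxyz
  have hx' : x ∈ emb N A := hx
  have hy' : y ∈ emb N A := hy
  have hz' : z ∈ emb N A := hz
  unfold emb at hx' hy' hz'
  rw [Finset.mem_image] at hx' hy' hz'
  obtain ⟨a, ha, rfl⟩ := hx'
  obtain ⟨b, hb, rfl⟩ := hy'
  obtain ⟨c, hc, rfl⟩ := hz'
  have h1 := Finset.mem_Icc.1 (hA ha)
  have h2 := Finset.mem_Icc.1 (hA hb)
  have h3 := Finset.mem_Icc.1 (hA hc)
  have h4 : a + c = b + b := by
    apply emb_eq (N := N) (by omega) (by omega)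
    push_cast
    exact hxyz
  rcases lt_trichotomy a b with h | h | h
  · exact absurd ⟨ha, by rw [show a + (b - a) = b by omega]; exact hb,
      by rw [show a + 2 * (b - a) = c by omega]; exact hc⟩ (hfree a (b - a) (by omega))
  · rw [h]
  · exact absurd ⟨hc, by rw [show c + (b - c) = b by omega]; exact hb,
      by rw [show c + 2 * (b - c) = a by omega]; exact ha⟩ (hfree c (b - c) (by omega))

theorem bound_large {N : ℕ} (hN : 16 ≤ N) {A : Finset ℕ} (hA : A ⊆ Finset.Icc 1 N)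
    (hfree : ∀ a d : ℕ, 0 < d → ¬ (a ∈ A ∧ a + d ∈ A ∧ a + 2 * d ∈ A)) :
    (A.card : ℝ) ≤ 12 * N *
      Real.exp (-(1 / 10 ^ 8 * (Real.log N / Real.log (Real.log N)) ^ (1 / 6 : ℝ))) := by
  rcases A.eq_empty_or_nonempty with rfl | hne
  · simp; positivity
  have hM : Odd (2 * N + 1) := odd_two_mul_add_one N
  have hneE : (emb N A).Nonempty := by
    rw [← Finset.card_pos, emb_card hA]; exact hne.card_pos
  obtain ⟨hL1, hLM⟩ := log_M_le hM (emb_free hA hfree) hneE rfl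
  rw [emb_card hA] at hL1 hLM
  set M : ℕ := 2 * N + 1 with hMdef
  set L : ℝ := Real.log (4 / ((A.card : ℝ) / (M : ℕ))) with hL
  have hN16 : (16 : ℝ) ≤ N := by exact_mod_cast hN
  have hN0 : (0 : ℝ) < N := by linarith
  have hMr : ((M : ℕ) : ℝ) = 2 * N + 1 := by rw [hMdef]; push_cast; ring
  have hc0 : (0 : ℝ) < A.card := by exact_mod_cast hne.card_pos
  set ℓ : ℝ := Real.log N with hℓ
  have he : Real.exp 1 ≤ 2.7182818286 := Real.exp_one_lt_d9.le
  have hℓe : Real.exp 1 ≤ ℓ := by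
    rw [hℓ, Real.le_log_iff_exp_le hN0]
    have h1 : Real.exp (Real.exp 1) ≤ Real.exp 2.72 := Real.exp_le_exp.2 (by linarith)
    have h2 : Real.exp 2.72 = Real.exp 1 ^ 2 * Real.exp 0.72 := by
      rw [← Real.exp_nat_mul, ← Real.exp_add]; norm_num
    have h3 : Real.exp 0.72 ≤ 2.1 := by
      have h4 := Real.exp_bound' (x := 0.72) (by norm_num) (by norm_num) (n := 4) (by norm_num)
      have h5 : ∑ m ∈ Finset.range 4, (0.72 : ℝ) ^ m / (m.factorial : ℝ) +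
          0.72 ^ 4 * (4 + 1) / ((Nat.factorial 4 : ℕ) * 4) ≤ 2.1 := by
        norm_num [Finset.sum_range_succ, Nat.factorial]
      refine le_trans h4 ?_
      refine le_trans (le_of_eq ?_) h5
      norm_num
    have h6 : Real.exp 1 ^ 2 ≤ 2.7182818286 ^ 2 := by gcongr
    have h7 : Real.exp 1 ^ 2 * Real.exp 0.72 ≤ 2.7182818286 ^ 2 * 2.1 := by gcongr
    have h8 : (2.7182818286 : ℝ) ^ 2 * 2.1 ≤ 16 := by norm_num
    linarith
  have hℓ1 : 1 ≤ ℓ := by have := Real.add_one_le_exp (1 : ℝ); linarith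
  have hℓ0 : 0 < ℓ := by linarith
  have hll1 : 1 ≤ Real.log ℓ := by
    rw [Real.le_log_iff_exp_le hℓ0]; exact hℓe
  have hll0 : 0 < Real.log ℓ := by linarith
  set y : ℝ := 1 / 10 ^ 8 * (ℓ / Real.log ℓ) ^ (1 / 6 : ℝ) with hy
  have hy0 : 0 < y := by positivity
  have hyL : y ≤ L := by
    by_contra hcon
    push Not at hcon
    have hL0 : 0 < L := by linarith
    have hfrac : 0 ≤ ℓ / Real.log ℓ := by positivity
    have hy6 : y ^ 6 = 1 / 10 ^ 48 * (ℓ / Real.log ℓ) := by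
      rw [hy, mul_pow, ← Real.rpow_natCast ((ℓ / Real.log ℓ) ^ (1 / 6 : ℝ)) 6,
        ← Real.rpow_mul hfrac]
      norm_num
    have hyℓ : y ≤ ℓ := by
      have h1 : (ℓ / Real.log ℓ) ^ (1 / 6 : ℝ) ≤ ℓ ^ (1 / 6 : ℝ) := by
        apply Real.rpow_le_rpow hfrac _ (by norm_num)
        rw [div_le_iff₀ hll0]
        nlinarith
      have h2 : ℓ ^ (1 / 6 : ℝ) ≤ ℓ ^ (1 : ℝ) :=
        Real.rpow_le_rpow_of_exponent_le hℓ1 (by norm_num)
      rw [Real.rpow_one] at h2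
      have h3 : (ℓ / Real.log ℓ) ^ (1 / 6 : ℝ) ≤ ℓ := h1.trans h2
      rw [hy]
      have h4 : 0 ≤ (ℓ / Real.log ℓ) ^ (1 / 6 : ℝ) := by positivity
      linarith
    have hlogLℓ : Real.log L ≤ Real.log ℓ := Real.log_le_log hL0 (by linarith)
    have hlogNM : ℓ ≤ Real.log (M : ℕ) := by
      rw [hℓ]; apply Real.log_le_log hN0; rw [hMr]; linarith
    have hL6 : L ^ 6 ≤ y ^ 6 := by gcongr
    have h1 : ℓ ≤ 10 ^ 47 * (1 / 10 ^ 48 * (ℓ / Real.log ℓ)) * (2 * Real.log ℓ) := by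
      calc ℓ ≤ 10 ^ 47 * L ^ 6 * (1 + Real.log L) := hlogNM.trans hLM
        _ ≤ 10 ^ 47 * y ^ 6 * (2 * Real.log ℓ) := by
            have h2 : 0 ≤ 1 + Real.log L := by
              have := Real.log_nonneg hL1; linarith
            have h3 : 1 + Real.log L ≤ 2 * Real.log ℓ := by linarith
            gcongr
        _ = 10 ^ 47 * (1 / 10 ^ 48 * (ℓ / Real.log ℓ)) * (2 * Real.log ℓ) := by rw [hy6]
    have h2 : 10 ^ 47 * (1 / 10 ^ 48 * (ℓ / Real.log ℓ)) * (2 * Real.log ℓ) = 1 / 5 * ℓ := by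
      field_simp; norm_num
    rw [h2] at h1
    linarith
  have hexp : Real.exp y ≤ 4 / ((A.card : ℝ) / (M : ℕ)) := by
    have hMpos : (0 : ℝ) < (M : ℕ) := by rw [hMr]; linarith
    rw [← Real.le_log_iff_exp_le (by positivity)]; exact hyL
  have hMpos : (0 : ℝ) < (M : ℕ) := by rw [hMr]; linarith
  have h1 : 4 / ((A.card : ℝ) / (M : ℕ)) = 4 * (M : ℕ) / A.card := by
    field_simp
  rw [h1, le_div_iff₀ hc0] at hexp
  have h2 : (A.card : ℝ) ≤ 4 * (M : ℕ) * Real.exp (-y) := by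
    have h3 : Real.exp y * Real.exp (-y) = 1 := by rw [← Real.exp_add]; simp
    calc (A.card : ℝ) = (Real.exp y * A.card) * Real.exp (-y) := by
          rw [mul_comm (Real.exp y), mul_assoc, h3, mul_one]
      _ ≤ 4 * (M : ℕ) * Real.exp (-y) := by gcongr
  refine h2.trans ?_
  have h3 : 4 * ((M : ℕ) : ℝ) ≤ 12 * N := by rw [hMr]; linarith
  gcongr

end MainE

end Vale.Agent.P057R3
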