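import Vale.Agent.P057R3.MainE

namespace Vale.Agent.P057R3

open Finset Filter

namespace MainF

theorem tendsto_ratio : Tendsto (fun x : ℝ => x / Real.log x) atTop atTop := by
  have h : Tendsto (fun x : ℝ => Real.log x / x) atTop (nhds 0) := by
    have := Real.isLittleO_log_id_atTop.tendsto_div_nhds_zero
    simpa using this
  have hpos : ∀ᶠ x : ℝ in atTop, 0 < Real.log x / x := by
    filter_upwards [eventually_gt_atTop 1] with x hx
    exact div_pos (Real.log_pos hx) (by linarith)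
  have h2 : Tendsto (fun x : ℝ => Real.log x / x) atTop (nhdsWithin 0 (Set.Ioi 0)) :=
    tendsto_nhdsWithin_iff.2 ⟨h, hpos⟩
  have h3 := h2.inv_tendsto_nhdsGT_zero
  refine h3.congr fun x => ?_
  simp [inv_div]

theorem tendsto_g : Tendsto (fun N : ℕ => (Real.log N / Real.log (Real.log N)) ^ (1 / 6 : ℝ))
    atTop atTop := by
  have h1 : Tendsto (fun N : ℕ => Real.log (N : ℝ)) atTop atTop :=
    Real.tendsto_log_atTop.comp tendsto_natCast_atTop_atTop
  have h2 := tendsto_ratio.comp h1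
  exact (tendsto_rpow_atTop (by norm_num : (0 : ℝ) < 1 / 6)).comp h2

theorem card_le_pred {N : ℕ} (hN : 3 ≤ N) {A : Finset ℕ} (hA : A ⊆ Finset.Icc 1 N)
    (hfree : ∀ a d : ℕ, 0 < d → ¬ (a ∈ A ∧ a + d ∈ A ∧ a + 2 * d ∈ A)) :
    (A.card : ℝ) ≤ N - 1 := by
  have h1 : A ≠ Finset.Icc 1 N := by
    rintro rfl
    refine hfree 1 1 one_pos ⟨?_, ?_, ?_⟩ <;> rw [Finset.mem_Icc] <;> omega
  have h2 : A.card < (Finset.Icc 1 N).card :=
    Finset.card_lt_card ((Finset.ssubset_iff_subset_ne).2 ⟨hA, h1⟩)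
  rw [Nat.card_Icc] at h2
  have h3 : A.card + 1 ≤ N := by omega
  have h4 : (A.card : ℝ) + 1 ≤ N := by exact_mod_cast h3
  linarith

theorem final : ∃ c : ℝ, 0 < c ∧ ∀ N : ℕ, 3 ≤ N → ∀ A : Finset ℕ, A ⊆ Finset.Icc 1 N →
    (∀ a d : ℕ, 0 < d → ¬ (a ∈ A ∧ a + d ∈ A ∧ a + 2 * d ∈ A)) →
    (A.card : ℝ) ≤ N * Real.exp
      (-(c * (Real.log N / Real.log (Real.log N)) ^ (1 / 6 : ℝ))) := by
  set g : ℕ → ℝ := fun N => (Real.log N / Real.log (Real.log N)) ^ (1 / 6 : ℝ) with hg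
  obtain ⟨N₁, hN₁⟩ := eventually_atTop.1
    (tendsto_g.eventually_ge_atTop (2 * 10 ^ 8 * Real.log 12))
  set N₂ : ℕ := max N₁ 16 with hN₂
  set G : ℝ := 1 + ∑ N ∈ Finset.range N₂, |g N| with hG
  have hG1 : 1 ≤ G := by
    rw [hG]; have : 0 ≤ ∑ N ∈ Finset.range N₂, |g N| := Finset.sum_nonneg fun _ _ => abs_nonneg _
    linarith
  have hN₂0 : (0 : ℝ) < N₂ := by
    have : 16 ≤ N₂ := le_max_right _ _
    exact_mod_cast (by omega : 0 < N₂)
  refine ⟨min (1 / (2 * 10 ^ 8)) (1 / (N₂ * G)), lt_min (by norm_num) (by positivity), ?_⟩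
  intro N hN A hA hfree
  set c : ℝ := min (1 / (2 * 10 ^ 8)) (1 / (N₂ * G)) with hc
  have hc1 : c ≤ 1 / (2 * 10 ^ 8) := min_le_left _ _
  have hc2 : c ≤ 1 / (N₂ * G) := min_le_right _ _
  have hc0 : 0 < c := lt_min (by norm_num) (by positivity)
  have hN0 : (0 : ℝ) < N := by exact_mod_cast (by omega : 0 < N)
  rcases lt_or_ge N N₂ with hlt | hge
  · have h1 := card_le_pred hN hA hfree
    have h2 : |g N| ≤ G := by
      rw [hG]
      have := Finset.single_le_sum (f := fun N => |g N|) (fun i _ => abs_nonneg (g i))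
        (Finset.mem_range.2 hlt)
      linarith
    have h3 : c * g N ≤ 1 / N := by
      have h4 : c * g N ≤ c * G := mul_le_mul_of_nonneg_left ((le_abs_self _).trans h2) hc0.le
      have h5 : c * G ≤ 1 / N₂ := by
        calc c * G ≤ 1 / (N₂ * G) * G := by gcongr
          _ = 1 / N₂ := by field_simp
      have h6 : (1 : ℝ) / N₂ ≤ 1 / N := by
        apply one_div_le_one_div_of_le hN0
        exact_mod_cast hlt.le
      linarith
    have h7 : 1 - 1 / (N : ℝ) ≤ Real.exp (-(c * g N)) := by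
      have h8 := Real.add_one_le_exp (-(c * g N))
      linarith
    calc (A.card : ℝ) ≤ N - 1 := h1
      _ = N * (1 - 1 / (N : ℝ)) := by field_simp
      _ ≤ N * Real.exp (-(c * g N)) := mul_le_mul_of_nonneg_left h7 hN0.le
  · have hN16 : 16 ≤ N := le_trans (le_max_right _ _) hge
    have hNN1 : N₁ ≤ N := le_trans (le_max_left _ _) hge
    have h1 := MainE.bound_large hN16 hA hfree
    have h2 : 2 * 10 ^ 8 * Real.log 12 ≤ g N := hN₁ N hNN1
    have hg0 : 0 ≤ g N := by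
      have : 0 ≤ Real.log 12 := Real.log_nonneg (by norm_num)
      linarith [this]
    have h3 : 12 * Real.exp (-(1 / 10 ^ 8 * g N)) ≤ Real.exp (-(c * g N)) := by
      have h4 : (12 : ℝ) = Real.exp (Real.log 12) := (Real.exp_log (by norm_num)).symm
      rw [h4, ← Real.exp_add]
      apply Real.exp_le_exp.2
      have h5 : c * g N ≤ 1 / (2 * 10 ^ 8) * g N := by gcongr
      linarith
    calc (A.card : ℝ) ≤ 12 * N * Real.exp (-(1 / 10 ^ 8 * g N)) := h1
      _ = N * (12 * Real.exp (-(1 / 10 ^ 8 * g N))) := by ring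
      _ ≤ N * Real.exp (-(c * g N)) := mul_le_mul_of_nonneg_left h3 hN0.le

end MainF

end Vale.Agent.P057R3
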