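import Vale.Agent.P057R3.Weights1
import Vale.Agent.P057R3.Weights2

/-!
[R1]: Riesz products over dissociated sets.
-/

namespace Vale.Agent.P057R3

open Finset

variable {M : ℕ} [NeZero M]

namespace Riesz

/-- characters -/
noncomputable def ch (ω : ZMod M) : ZMod M → ℂ := fun x => ZMod.stdAddChar (ω * x)

theorem ch_zero (x : ZMod M) : ch (0 : ZMod M) x = 1 := by
  unfold ch
  rw [zero_mul, AddChar.map_zero_eq_one]

theorem ch_add (a b x : ZMod M) : ch (a + b) x = ch a x * ch b x := by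
  unfold ch
  rw [add_mul, AddChar.map_add_eq_mul]

theorem ch_norm (a x : ZMod M) : ‖ch a x‖ = 1 := AddChar.norm_apply _ _

theorem ch_neg (a x : ZMod M) : ch (-a) x = (starRingEnd ℂ) (ch a x) := by
  unfold ch
  rw [neg_mul, AddChar.map_neg_eq_conj]

/-- smoothing operator on complex functions -/
noncomputable def S (β : ZMod M → ℝ) : (ZMod M → ℂ) →ₗ[ℂ] (ZMod M → ℂ) where
  toFun g := fun x => ∑ t, (β t : ℂ) * g (x + t)
  map_add' f g := by
    funext x
    simp only [Pi.add_apply, mul_add, Finset.sum_add_distrib]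
  map_smul' a g := by
    funext x
    simp only [Pi.smul_apply, smul_eq_mul, RingHom.id_apply, Finset.mul_sum]
    refine Finset.sum_congr rfl fun t _ => ?_
    ring

theorem S_apply (β : ZMod M → ℝ) (g : ZMod M → ℂ) (x : ZMod M) :
    S β g x = ∑ t, (β t : ℂ) * g (x + t) := rfl

theorem S_char (β : ZMod M → ℝ) (ω : ZMod M) : S β (ch ω) = ft β ω • ch ω := by
  funext x
  rw [S_apply, Pi.smul_apply, smul_eq_mul]
  unfold ft ch
  rw [Finset.sum_mul]
  refine Finset.sum_congr rfl fun t _ => ?_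
  rw [mul_add, AddChar.map_add_eq_mul]
  ring

theorem S_pow_char (β : ZMod M → ℝ) (ω : ZMod M) (k : ℕ) :
    (S β ^ k) (ch ω) = ft β ω ^ k • ch ω := by
  induction k with
  | zero => simp
  | succ k ih =>
    rw [pow_succ, Module.End.mul_apply, S_char, map_smul, ih, smul_smul, pow_succ, mul_comm]

/-- functional -/
noncomputable def L (b β : ZMod M → ℝ) (k : ℕ) : (ZMod M → ℂ) →ₗ[ℂ] ℂ where
  toFun g := ∑ x, (b x : ℂ) * ((S β ^ k) g) x
  map_add' f g := by
    simp only [map_add, Pi.add_apply, mul_add, Finset.sum_add_distrib]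
  map_smul' a g := by
    simp only [map_smul, Pi.smul_apply, smul_eq_mul, RingHom.id_apply, Finset.mul_sum]
    refine Finset.sum_congr rfl fun t _ => ?_
    ring

theorem L_apply (b β : ZMod M → ℝ) (k : ℕ) (g : ZMod M → ℂ) :
    L b β k g = ∑ x, (b x : ℂ) * ((S β ^ k) g) x := rfl

theorem L_char (b β : ZMod M → ℝ) (k : ℕ) (ω : ZMod M) :
    L b β k (ch ω) = ft b ω * ft β ω ^ k := by
  rw [L_apply, S_pow_char]
  unfold ft ch
  rw [Finset.sum_mul]
  refine Finset.sum_congr rfl fun t _ => ?_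
  rw [Pi.smul_apply, smul_eq_mul]
  ring

theorem ft_norm_le {μ : ZMod M → ℝ} (hμ : PW μ) (r : ZMod M) : ‖ft μ r‖ ≤ 1 := by
  unfold ft
  refine (norm_sum_le _ _).trans (le_of_eq ?_)
  rw [← hμ.2]
  refine Finset.sum_congr rfl fun x _ => ?_
  rw [norm_mul, AddChar.norm_apply, mul_one, Complex.norm_real, Real.norm_eq_abs,
    abs_of_nonneg (hμ.1 x)]

/-- the factor of the Riesz product -/
noncomputable def fac (c : ZMod M → ℂ) (l x : ZMod M) : ℂ :=
  1 + c l / 4 * ch l x + (starRingEnd ℂ) (c l) / 4 * ch (-l) x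

/-- main induction -/
theorem induct {b β : ZMod M → ℝ} (hb : PW b) (hβ : PW β) (Λ : Finset (ZMod M))
    (hΛ : Dissoc β Λ) {c : ZMod M → ℂ} (hc : ∀ l, ‖c l‖ ≤ 1) (k : ℕ) (T : Finset (ZMod M)) :
    T ⊆ Λ → ∀ ε : ZMod M → ℤ, (∀ l, ε l = -1 ∨ ε l = 0 ∨ ε l = 1) → (∀ l ∈ T, ε l = 0) →
      ‖L b β k (fun x => ch (∑ l ∈ Λ, (ε l : ZMod M) * l) x * ∏ l ∈ T, fac c l x)‖ ≤
        (open Classical in if ∀ l ∈ Λ, ε l = 0 then 1 else 0) +
          (3 / 2 : ℝ) ^ T.card * (1 / 2) ^ k := by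
  classical
  induction T using Finset.induction_on with
  | empty =>
    intro _ ε hε _
    simp only [Finset.prod_empty, mul_one, Finset.card_empty, pow_zero, one_mul]
    have e : (fun x => ch (∑ l ∈ Λ, (ε l : ZMod M) * l) x) =
      ch (∑ l ∈ Λ, (ε l : ZMod M) * l) := rfl
    rw [e, L_char, norm_mul, norm_pow]
    have h1 := ft_norm_le hb (∑ l ∈ Λ, (ε l : ZMod M) * l)
    have h2 := ft_norm_le hβ (∑ l ∈ Λ, (ε l : ZMod M) * l)
    split_ifs with h
    · have h3 : ‖ft β (∑ l ∈ Λ, (ε l : ZMod M) * l)‖ ^ k ≤ 1 :=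
        pow_le_one₀ (norm_nonneg _) h2
      have h4 : (0 : ℝ) ≤ (1 / 2) ^ k := by positivity
      have h5 := mul_le_one₀ h1 (pow_nonneg (norm_nonneg _) k) h3
      linarith
    · push Not at h
      have h3 := hΛ ε hε h
      have h4 : ‖ft β (∑ l ∈ Λ, (ε l : ZMod M) * l)‖ ^ k ≤ (1 / 2) ^ k :=
        pow_le_pow_left₀ (norm_nonneg _) h3 k
      calc ‖ft b (∑ l ∈ Λ, (ε l : ZMod M) * l)‖ * ‖ft β (∑ l ∈ Λ, (ε l : ZMod M) * l)‖ ^ k
          ≤ 1 * (1 / 2) ^ k := mul_le_mul h1 h4 (pow_nonneg (norm_nonneg _) k) zero_le_one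
        _ = 0 + (1 / 2) ^ k := by ring
  | insert a T ha ih =>
    intro hT ε hε h0
    have haΛ : a ∈ Λ := hT (Finset.mem_insert_self a T)
    have hTΛ : T ⊆ Λ := fun x hx => hT (Finset.mem_insert_of_mem hx)
    have hεa : ε a = 0 := h0 a (Finset.mem_insert_self a T)
    have hεT : ∀ l ∈ T, ε l = 0 := fun l hl => h0 l (Finset.mem_insert_of_mem hl)
    have hsum : ∀ e : ℤ, ∑ l ∈ Λ, ((Function.update ε a e l : ℤ) : ZMod M) * l =
        ∑ l ∈ Λ, (ε l : ZMod M) * l + (e : ZMod M) * a := by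
      intro e
      rw [← Finset.add_sum_erase Λ _ haΛ, ← Finset.add_sum_erase Λ _ haΛ]
      rw [Function.update_self, hεa]
      have : ∑ x ∈ Λ.erase a, ((Function.update ε a e x : ℤ) : ZMod M) * x =
          ∑ x ∈ Λ.erase a, (ε x : ZMod M) * x := by
        refine Finset.sum_congr rfl fun x hx => ?_
        rw [Function.update_of_ne (Finset.ne_of_mem_erase hx)]
      rw [this]
      push_cast
      ring
    have hupd : ∀ e : ℤ, (e = -1 ∨ e = 0 ∨ e = 1) →
        ∀ l, Function.update ε a e l = -1 ∨ Function.update ε a e l = 0 ∨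
          Function.update ε a e l = 1 := by
      intro e he l
      by_cases hl : l = a
      · rw [hl, Function.update_self]; exact he
      · rw [Function.update_of_ne hl]; exact hε l
    have hupdT : ∀ e : ℤ, ∀ l ∈ T, Function.update ε a e l = 0 := by
      intro e l hl
      have : l ≠ a := fun h => ha (h ▸ hl)
      rw [Function.update_of_ne this]
      exact hεT l hl
    have i0 := ih hTΛ ε hε hεT
    have i1 := ih hTΛ (Function.update ε a 1) (hupd 1 (by norm_num)) (hupdT 1)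
    have i2 := ih hTΛ (Function.update ε a (-1)) (hupd (-1) (by norm_num)) (hupdT (-1))
    rw [hsum] at i1 i2
    have n1 : ¬ ∀ l ∈ Λ, Function.update ε a 1 l = 0 := by
      intro h
      have := h a haΛ
      rw [Function.update_self] at this
      norm_num at this
    have n2 : ¬ ∀ l ∈ Λ, Function.update ε a (-1) l = 0 := by
      intro h
      have := h a haΛ
      rw [Function.update_self] at this
      norm_num at this
    rw [if_neg n1, zero_add] at i1
    rw [if_neg n2, zero_add] at i2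
    have hfun : (fun x => ch (∑ l ∈ Λ, (ε l : ZMod M) * l) x * ∏ l ∈ insert a T, fac c l x) =
        (fun x => ch (∑ l ∈ Λ, (ε l : ZMod M) * l) x * ∏ l ∈ T, fac c l x) +
        (c a / 4) • (fun x => ch (∑ l ∈ Λ, (ε l : ZMod M) * l + ((1 : ℤ) : ZMod M) * a) x *
          ∏ l ∈ T, fac c l x) +
        ((starRingEnd ℂ) (c a) / 4) •
          (fun x => ch (∑ l ∈ Λ, (ε l : ZMod M) * l + ((-1 : ℤ) : ZMod M) * a) x *
          ∏ l ∈ T, fac c l x) := by
      funext x
      rw [Finset.prod_insert ha]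
      simp only [Pi.add_apply, Pi.smul_apply, smul_eq_mul, ch_add]
      have e1 : ((1 : ℤ) : ZMod M) * a = a := by push_cast; ring
      have e2 : ((-1 : ℤ) : ZMod M) * a = -a := by push_cast; ring
      rw [e1, e2]
      unfold fac
      ring
    rw [hfun, map_add, map_add, map_smul, map_smul, smul_eq_mul, smul_eq_mul]
    refine (norm_add₃_le).trans ?_
    rw [norm_mul, norm_mul]
    have hc1 : ‖c a / 4‖ ≤ 1 / 4 := by
      rw [norm_div]
      have := hc a
      norm_num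
      linarith
    have hc2 : ‖(starRingEnd ℂ) (c a) / 4‖ ≤ 1 / 4 := by
      rw [norm_div, RCLike.norm_conj]
      have := hc a
      norm_num
      linarith
    have m1 := mul_le_mul hc1 i1 (norm_nonneg _) (by norm_num)
    have m2 := mul_le_mul hc2 i2 (norm_nonneg _) (by norm_num)
    rw [Finset.card_insert_of_notMem ha, pow_succ]
    have : (3 / 2 : ℝ) ^ T.card * (3 / 2) * (1 / 2) ^ k =
      (3 / 2 : ℝ) ^ T.card * (1 / 2) ^ k + 1 / 4 * ((3 / 2 : ℝ) ^ T.card * (1 / 2) ^ k) +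
        1 / 4 * ((3 / 2 : ℝ) ^ T.card * (1 / 2) ^ k) := by ring
    rw [this]
    linarith

/-- real smoothing -/
noncomputable def Sr (β : ZMod M → ℝ) (g : ZMod M → ℝ) (x : ZMod M) : ℝ :=
  ∑ t, β t * g (x + t)

theorem Sr_nonneg {β g : ZMod M → ℝ} (hβ : ∀ x, 0 ≤ β x) (hg : ∀ x, 0 ≤ g x) (x : ZMod M) :
    0 ≤ Sr β g x := Finset.sum_nonneg fun t _ => mul_nonneg (hβ t) (hg _)

theorem Sr_iter_nonneg {β g : ZMod M → ℝ} (hβ : ∀ x, 0 ≤ β x) (hg : ∀ x, 0 ≤ g x) (k : ℕ) :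
    ∀ x, 0 ≤ ((Sr β)^[k] g) x := by
  induction k with
  | zero => exact hg
  | succ k ih =>
    intro x
    rw [Function.iterate_succ_apply']
    exact Sr_nonneg hβ ih x

theorem Sr_coe (β g : ZMod M → ℝ) (k : ℕ) (x : ZMod M) :
    ((((Sr β)^[k] g) x : ℝ) : ℂ) = ((S β ^ k) (fun y => (g y : ℂ))) x := by
  induction k generalizing x with
  | zero => simp
  | succ k ih =>
    rw [Function.iterate_succ_apply', pow_succ', Module.End.mul_apply, S_apply]
    unfold Sr
    push_cast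
    refine Finset.sum_congr rfl fun t _ => ?_
    rw [← ih]
    rfl

theorem iterate_smooth {N : ZMod M → ℝ} {D : ℝ} (hN : IsNrm N) (hD : Dbl N D) {θ θ' : ℝ}
    (hθ : 0 ≤ θ) (hθ' : 0 < θ') {g : ZMod M → ℝ} (hg : ∀ x, 0 ≤ g x) (k : ℕ) :
    ∑ x, bt N θ x * g x ≤
      Real.exp (2 * θ * D / θ') ^ k * ∑ x, bt N θ x * ((Sr (bt N θ'))^[k] g) x := by
  induction k with
  | zero => simp
  | succ k ih =>
    refine ih.trans ?_
    have h1 := bt_smooth hN hD hθ hθ' (g := (Sr (bt N θ'))^[k] g)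
      (Sr_iter_nonneg (fun x => (bt_pos N θ' x).le) hg k)
    rw [pow_succ, mul_assoc (Real.exp (2 * θ * D / θ') ^ k)]
    refine mul_le_mul_of_nonneg_left (h1.trans (le_of_eq ?_)) (by positivity)
    congr 1
    refine Finset.sum_congr rfl fun x _ => ?_
    rw [Function.iterate_succ_apply']
    unfold Sr
    rw [Finset.mul_sum]
    refine Finset.sum_congr rfl fun t _ => ?_
    ring

theorem fac_eq (c : ZMod M → ℂ) (l x : ZMod M) :
    ((1 + (c l * ZMod.stdAddChar (l * x)).re / 2 : ℝ) : ℂ) = fac c l x := by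
  unfold fac
  rw [ch_neg]
  have h := Complex.re_eq_add_conj (c l * ZMod.stdAddChar (l * x))
  push_cast
  rw [h, map_mul (starRingEnd ℂ)]
  unfold ch
  ring

theorem fac_nonneg {c : ZMod M → ℂ} (hc : ∀ l, ‖c l‖ ≤ 1) (l x : ZMod M) :
    0 ≤ 1 + (c l * ZMod.stdAddChar (l * x)).re / 2 := by
  have h1 := Complex.abs_re_le_norm (c l * ZMod.stdAddChar (l * x))
  rw [norm_mul, AddChar.norm_apply, mul_one] at h1
  have h2 := hc l
  have h3 := abs_le.1 (h1.trans h2)
  linarith [h3.1]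

end Riesz

open Riesz in
theorem riesz {N : ZMod M → ℝ} {D : ℝ} (hN : IsNrm N) (hD : Dbl N D) (hD0 : 0 ≤ D)
    {θ₅ θ' : ℝ} (hθ₅ : 0 < θ₅) {Λ : Finset (ZMod M)} (hΛ : Dissoc (bt N θ') Λ)
    (hθ : 4 * (Λ.card : ℝ) * (D + 1) * θ₅ ≤ θ') (hθ' : 0 < θ') {c : ZMod M → ℂ}
    (hc : ∀ l, ‖c l‖ ≤ 1) :
    ∑ x, bt N θ₅ x * ∏ l ∈ Λ, (1 + (c l * ZMod.stdAddChar (l * x)).re / 2) ≤ 4 := by
  classical
  set k := Λ.card with hk
  set P : ZMod M → ℝ := fun x => ∏ l ∈ Λ, (1 + (c l * ZMod.stdAddChar (l * x)).re / 2) with hP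
  have hP0 : ∀ x, 0 ≤ P x := fun x => Finset.prod_nonneg fun l _ => fac_nonneg hc l x
  have h1 := iterate_smooth hN hD hθ₅.le hθ' hP0 k
  have h2 : Real.exp (2 * θ₅ * D / θ') ^ k ≤ 2 := by
    rw [← Real.exp_nat_mul]
    have h3 : (k : ℝ) * (2 * θ₅ * D / θ') ≤ 1 / 2 := by
      rw [← mul_div_assoc, div_le_iff₀ hθ']
      have : 0 ≤ (k : ℝ) * θ₅ := by positivity
      nlinarith
    refine (Real.exp_le_exp.2 h3).trans ?_
    have h5 : Real.exp (1 / 2) ^ 2 = Real.exp 1 := by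
      rw [← Real.exp_nat_mul]; norm_num
    have h6 := Real.exp_one_lt_d9
    have h7 : Real.exp (1 / 2) ^ 2 ≤ 2 ^ 2 := by rw [h5]; linarith
    exact (pow_le_pow_iff_left₀ (Real.exp_pos _).le (by norm_num) two_ne_zero).1 h7
  have hr : 0 ≤ ∑ x, bt N θ₅ x * ((Sr (bt N θ'))^[k] P) x :=
    Finset.sum_nonneg fun x _ => mul_nonneg (bt_pos _ _ x).le
      (Sr_iter_nonneg (fun x => (bt_pos N θ' x).le) hP0 k x)
  have h8 : ∑ x, bt N θ₅ x * ((Sr (bt N θ'))^[k] P) x ≤ 2 := by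
    have h9 := induct (bt_pw N θ₅) (bt_pw N θ') Λ hΛ hc k Λ (Finset.Subset.refl Λ)
      (fun _ => 0) (fun _ => Or.inr (Or.inl rfl)) (fun _ _ => rfl)
    have hfun : (fun x => ch (∑ l ∈ Λ, (((fun _ => 0 : ZMod M → ℤ) l : ℤ) : ZMod M) * l) x *
          ∏ l ∈ Λ, fac c l x) = fun y => ((P y : ℝ) : ℂ) := by
      funext y
      simp only [Int.cast_zero, zero_mul, Finset.sum_const_zero, ch_zero, one_mul]
      rw [hP]
      simp only [Complex.ofReal_prod]
      refine Finset.prod_congr rfl fun l _ => ?_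
      rw [fac_eq]
    have h10 : L (bt N θ₅) (bt N θ') k
        (fun x => ch (∑ l ∈ Λ, (((fun _ => 0 : ZMod M → ℤ) l : ℤ) : ZMod M) * l) x *
          ∏ l ∈ Λ, fac c l x) =
        ((∑ x, bt N θ₅ x * ((Sr (bt N θ'))^[k] P) x : ℝ) : ℂ) := by
      rw [hfun, Riesz.L_apply]
      push_cast
      refine Finset.sum_congr rfl fun x _ => ?_
      rw [Sr_coe]
    rw [h10, Complex.norm_real, Real.norm_eq_abs, abs_of_nonneg hr] at h9
    refine h9.trans ?_
    have h11 : (3 / 2 : ℝ) ^ k * (1 / 2) ^ k ≤ 1 := by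
      rw [← mul_pow]
      exact pow_le_one₀ (by norm_num) (by norm_num)
    split_ifs
    · rw [← hk]; linarith
    · rw [← hk]; linarith
  calc ∑ x, bt N θ₅ x * P x
      ≤ Real.exp (2 * θ₅ * D / θ') ^ k * ∑ x, bt N θ₅ x * ((Sr (bt N θ'))^[k] P) x := h1
    _ ≤ 2 * 2 := mul_le_mul h2 h8 hr (by norm_num)
    _ = 4 := by norm_num

end Vale.Agent.P057R3
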