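import Vale.Agent.P057R3.Defs

namespace Vale.Agent.P057R3

open Finset

namespace Sampling

theorem exp_mul_le {s y : ℝ} (h1 : -1 ≤ y) (h2 : y ≤ 1) :
    Real.exp (s * y) ≤ Real.cosh s + y * Real.sinh s := by
  have hc := convexOn_exp.2 (Set.mem_univ s) (Set.mem_univ (-s))
    (show 0 ≤ (1 + y) / 2 by linarith) (show 0 ≤ (1 - y) / 2 by linarith) (by ring)
  simp only [smul_eq_mul] at hc
  have e1 : (1 + y) / 2 * s + (1 - y) / 2 * (-s) = s * y := by ring
  rw [e1] at hc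
  rw [Real.cosh_eq, Real.sinh_eq]
  linarith

theorem mgf_le {ι : Type} [Fintype ι] {μ Y : ι → ℝ} (hμ : ∀ x, 0 ≤ μ x)
    (hμ1 : ∑ x, μ x = 1) (hY1 : ∀ x, -1 ≤ Y x) (hY2 : ∀ x, Y x ≤ 1)
    (hY : ∑ x, μ x * Y x = 0) (s : ℝ) :
    ∑ x, μ x * Real.exp (s * Y x) ≤ Real.exp (s ^ 2 / 2) := by
  calc ∑ x, μ x * Real.exp (s * Y x)
      ≤ ∑ x, (Real.cosh s * μ x + Real.sinh s * (μ x * Y x)) := by
        refine Finset.sum_le_sum fun x _ => ?_
        have := mul_le_mul_of_nonneg_left (exp_mul_le (s := s) (hY1 x) (hY2 x)) (hμ x)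
        linarith
    _ = Real.cosh s := by
        rw [Finset.sum_add_distrib, ← Finset.mul_sum, ← Finset.mul_sum, hμ1, hY]; ring
    _ ≤ Real.exp (s ^ 2 / 2) := Real.cosh_le_exp_half_sq s

theorem pow_le_factorial {q : ℕ} (hq : Even q) (z : ℝ) :
    z ^ q ≤ q.factorial * (Real.exp z + Real.exp (-z)) := by
  have h1 : z ^ q = |z| ^ q := (hq.pow_abs z).symm
  have h2 := Real.pow_div_factorial_le_exp |z| (abs_nonneg z) q
  have h3 : Real.exp |z| ≤ Real.exp z + Real.exp (-z) := by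
    rcases abs_cases z with ⟨h, _⟩ | ⟨h, _⟩
    · rw [h]; have := Real.exp_pos (-z); linarith
    · rw [h]; have := Real.exp_pos z; linarith
  have hf : (0 : ℝ) < q.factorial := by exact_mod_cast q.factorial_pos
  rw [h1]
  rw [div_le_iff₀ hf] at h2
  calc |z| ^ q ≤ Real.exp |z| * q.factorial := h2
    _ ≤ (Real.exp z + Real.exp (-z)) * q.factorial := by gcongr
    _ = _ := by ring

theorem two_factorial_le {q : ℕ} (hq2 : 2 ≤ q) : 2 * q.factorial ≤ q ^ q := by
  obtain ⟨n, rfl⟩ : ∃ n, q = n + 1 := ⟨q - 1, by omega⟩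
  have h1 : (n + 1).factorial ≤ (n + 1) ^ n := by
    have : n.factorial ≤ (n + 1) ^ n * 1 := by
      rw [mul_one]
      exact (Nat.factorial_le_pow n).trans (Nat.pow_le_pow_left (by omega) n)
    clear this
    induction n with
    | zero => simp
    | succ k ih =>
      rcases Nat.eq_zero_or_pos k with rfl | hk
      · simp [Nat.factorial]
      · have ih' := ih (by omega)
        calc (k + 1 + 1).factorial = (k + 1 + 1) * (k + 1).factorial := Nat.factorial_succ _
          _ ≤ (k + 1 + 1) * (k + 1) ^ k := Nat.mul_le_mul_left _ ih'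
          _ ≤ (k + 1 + 1) * (k + 1 + 1) ^ k := by
              exact Nat.mul_le_mul_left _ (Nat.pow_le_pow_left (by omega) k)
          _ = (k + 1 + 1) ^ (k + 1) := by ring
  calc 2 * (n + 1).factorial ≤ (n + 1) * (n + 1) ^ n := Nat.mul_le_mul hq2 h1
    _ = (n + 1) ^ (n + 1) := by ring

end Sampling

open Sampling in
theorem sampling {ι : Type} [Fintype ι] [DecidableEq ι] {μ φ : ι → ℝ} (hμ : ∀ x, 0 ≤ μ x)
    (hμ1 : ∑ x, μ x = 1) (hφ0 : ∀ x, 0 ≤ φ x) (hφ1 : ∀ x, φ x ≤ 1) {m q : ℕ} (hm : 1 ≤ m)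
    (hq : Even q) (hq2 : 2 ≤ q) :
    ∑ a : Fin m → ι, (∏ i, μ (a i)) * ((∑ i, φ (a i)) / m - ∑ x, μ x * φ x) ^ q ≤
      (3 * q / m : ℝ) ^ (q / 2) := by
  set e : ℝ := ∑ x, μ x * φ x with he
  have he0 : 0 ≤ e := Finset.sum_nonneg fun x _ => mul_nonneg (hμ x) (hφ0 x)
  have he1 : e ≤ 1 := by
    rw [← hμ1, he]
    exact Finset.sum_le_sum fun x _ => mul_le_of_le_one_right (hμ x) (hφ1 x)
  set Y : ι → ℝ := fun x => φ x - e with hY
  have hY1 : ∀ x, -1 ≤ Y x := fun x => by have := hφ0 x; simp only [hY]; linarith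
  have hY2 : ∀ x, Y x ≤ 1 := fun x => by have := hφ1 x; simp only [hY]; linarith
  have hY0 : ∑ x, μ x * Y x = 0 := by
    simp only [hY, mul_sub, Finset.sum_sub_distrib, ← Finset.sum_mul, hμ1]
    rw [← he]; ring
  have hm0 : (0 : ℝ) < m := by exact_mod_cast hm
  have hq0 : (0 : ℝ) < q := by exact_mod_cast (by omega : 0 < q)
  set s : ℝ := Real.sqrt (q / m) with hs
  have hs0 : 0 < s := Real.sqrt_pos.2 (by positivity)
  have hs2 : s ^ 2 = q / m := Real.sq_sqrt (by positivity)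
  -- moment generating function of the sum
  have hmgf : ∀ t : ℝ, t ^ 2 = s ^ 2 → ∑ a : Fin m → ι, (∏ i, μ (a i)) *
      Real.exp (t * ∑ i, Y (a i)) ≤ Real.exp (q / 2) := by
    intro t ht
    have h1 : ∑ a : Fin m → ι, (∏ i, μ (a i)) * Real.exp (t * ∑ i, Y (a i)) =
        (∑ x, μ x * Real.exp (t * Y x)) ^ m := by
      rw [Fintype.sum_pow]
      refine Finset.sum_congr rfl fun a _ => ?_
      rw [Finset.prod_mul_distrib, ← Real.exp_sum, Finset.mul_sum]
    rw [h1]
    calc (∑ x, μ x * Real.exp (t * Y x)) ^ m ≤ Real.exp (t ^ 2 / 2) ^ m := by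
          refine pow_le_pow_left₀ (Finset.sum_nonneg fun x _ =>
            mul_nonneg (hμ x) (Real.exp_pos _).le) (mgf_le hμ hμ1 hY1 hY2 hY0 t) m
      _ = Real.exp (q / 2) := by
          rw [← Real.exp_nat_mul, ht, hs2]; congr 1; field_simp
  have hS : ∑ a : Fin m → ι, (∏ i, μ (a i)) * (∑ i, Y (a i)) ^ q ≤
      (q : ℝ) ^ q * (1 / s) ^ q * Real.exp (q / 2) := by
    have hpt : ∀ a : Fin m → ι, (∏ i, μ (a i)) * (∑ i, Y (a i)) ^ q ≤
        (q.factorial * (1 / s) ^ q) * ((∏ i, μ (a i)) * Real.exp (s * ∑ i, Y (a i)) +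
          (∏ i, μ (a i)) * Real.exp (-s * ∑ i, Y (a i))) := by
      intro a
      have h1 := pow_le_factorial hq (s * ∑ i, Y (a i))
      have h2 : (∑ i, Y (a i)) ^ q = (1 / s) ^ q * (s * ∑ i, Y (a i)) ^ q := by
        rw [← mul_pow]; congr 1; field_simp
      have h3 : 0 ≤ ∏ i, μ (a i) := Finset.prod_nonneg fun i _ => hμ _
      rw [h2]
      calc (∏ i, μ (a i)) * ((1 / s) ^ q * (s * ∑ i, Y (a i)) ^ q)
          ≤ (∏ i, μ (a i)) * ((1 / s) ^ q * (q.factorial *
            (Real.exp (s * ∑ i, Y (a i)) + Real.exp (-(s * ∑ i, Y (a i)))))) := by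
            gcongr
        _ = _ := by rw [neg_mul]; ring
    calc ∑ a : Fin m → ι, (∏ i, μ (a i)) * (∑ i, Y (a i)) ^ q
        ≤ ∑ a : Fin m → ι, (q.factorial * (1 / s) ^ q) *
          ((∏ i, μ (a i)) * Real.exp (s * ∑ i, Y (a i)) +
          (∏ i, μ (a i)) * Real.exp (-s * ∑ i, Y (a i))) :=
          Finset.sum_le_sum fun a _ => hpt a
      _ = (q.factorial * (1 / s) ^ q) * (∑ a : Fin m → ι, (∏ i, μ (a i)) *
            Real.exp (s * ∑ i, Y (a i)) +
            ∑ a : Fin m → ι, (∏ i, μ (a i)) * Real.exp (-s * ∑ i, Y (a i))) := by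
          rw [← Finset.mul_sum, Finset.sum_add_distrib]
      _ ≤ (q.factorial * (1 / s) ^ q) * (Real.exp (q / 2) + Real.exp (q / 2)) := by
          have h1 := hmgf s rfl
          have h2 := hmgf (-s) (by ring)
          have : 0 ≤ (q.factorial : ℝ) * (1 / s) ^ q := by positivity
          gcongr
      _ = (2 * q.factorial : ℝ) * ((1 / s) ^ q * Real.exp (q / 2)) := by ring
      _ ≤ (q : ℝ) ^ q * ((1 / s) ^ q * Real.exp (q / 2)) := by
          have : (2 * q.factorial : ℝ) ≤ (q : ℝ) ^ q := by exact_mod_cast two_factorial_le hq2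
          gcongr
      _ = _ := by ring
  have hrew : ∀ a : Fin m → ι, (∑ i, φ (a i)) / m - e = (∑ i, Y (a i)) / m := by
    intro a
    simp only [hY, Finset.sum_sub_distrib, Finset.sum_const, Finset.card_univ, Fintype.card_fin,
      nsmul_eq_mul]
    field_simp
  calc ∑ a : Fin m → ι, (∏ i, μ (a i)) * ((∑ i, φ (a i)) / m - e) ^ q
      = (∑ a : Fin m → ι, (∏ i, μ (a i)) * (∑ i, Y (a i)) ^ q) * (1 / m) ^ q := by
        rw [Finset.sum_mul]
        refine Finset.sum_congr rfl fun a _ => ?_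
        rw [hrew a, div_pow, one_div, inv_pow]
        ring
    _ ≤ ((q : ℝ) ^ q * (1 / s) ^ q * Real.exp (q / 2)) * (1 / m) ^ q := by gcongr
    _ ≤ (3 * q / m : ℝ) ^ (q / 2) := by
        obtain ⟨j, hj⟩ := hq
        have hj2 : q = 2 * j := by omega
        have hdiv : q / 2 = j := by omega
        rw [hdiv]
        have e1 : (q : ℝ) ^ q * (1 / s) ^ q * (1 / m) ^ q = ((q : ℝ) / m) ^ j := by
          have h1 : (q : ℝ) ^ q * (1 / s) ^ q * (1 / m) ^ q = (((q : ℝ) * (1 / s) * (1 / m)) ^ 2) ^ j := by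
            rw [← mul_pow, ← mul_pow, ← pow_mul, ← hj2]
          rw [h1]
          congr 1
          rw [mul_pow, mul_pow, div_pow, hs2]
          field_simp
        have e2 : Real.exp (q / 2) = Real.exp 1 ^ j := by
          rw [← Real.exp_nat_mul, hj2]; push_cast; congr 1; ring
        calc ((q : ℝ) ^ q * (1 / s) ^ q * Real.exp (q / 2)) * (1 / m) ^ q
            = ((q : ℝ) ^ q * (1 / s) ^ q * (1 / m) ^ q) * Real.exp (q / 2) := by ring
          _ = ((q : ℝ) / m * Real.exp 1) ^ j := by rw [e1, e2, mul_pow]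
          _ ≤ ((q : ℝ) / m * 3) ^ j := by
              have := Real.exp_one_lt_d9
              gcongr
              linarith
          _ = (3 * q / m : ℝ) ^ j := by congr 1; ring

end Vale.Agent.P057R3
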