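import Vale.Agent.P057R3.Weights1
import Vale.Agent.P057R3.Weights2

/-!
[S1]: there is a good sifting vector.
-/

namespace Vale.Agent.P057R3

open Finset

variable {M : ℕ} [NeZero M]

namespace Sift1

theorem sb_pos (N : ZMod M → ℝ) (θ : ℝ) (x : ZMod M) : 0 < sb N θ x :=
  Real.sqrt_pos.2 (bt_pos N θ x)

omit [NeZero M] in
theorem ind_nonneg (A : Finset (ZMod M)) (x : ZMod M) : 0 ≤ ind A x := by
  unfold ind
  split_ifs <;> norm_num

theorem FA_nonneg (N : ZMod M → ℝ) (θ : ℝ) (A : Finset (ZMod M)) (x : ZMod M) :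
    0 ≤ FA N θ A x := mul_nonneg (ind_nonneg A x) (sb_pos N θ x).le

theorem cr_nonneg {F : ZMod M → ℝ} (hF : ∀ x, 0 ≤ F x) (w : ZMod M) : 0 ≤ cr F F w :=
  Finset.sum_nonneg fun _ _ => mul_nonneg (hF _) (hF _)

/-- `∑_s F(s+t) F(s+t') = f(t-t')` -/
theorem sum_shift (F : ZMod M → ℝ) (t t' : ZMod M) :
    ∑ s, F (s + t) * F (s + t') = cr F F (t - t') := by
  unfold cr
  rw [← Equiv.sum_comp (Equiv.addRight t') (fun y => F y * F (y + (t - t')))]
  refine Finset.sum_congr rfl fun s _ => ?_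
  simp only [Equiv.coe_addRight]
  have : s + t' + (t - t') = s + t := by ring
  rw [this]
  ring

theorem sum_prod (F : ZMod M → ℝ) (p : ℕ) (t t' : ZMod M) :
    ∑ s : Fin p → ZMod M, (∏ i, F (s i + t)) * (∏ i, F (s i + t')) = cr F F (t - t') ^ p := by
  rw [← sum_shift, Fintype.sum_pow]
  refine Finset.sum_congr rfl fun s _ => ?_
  rw [Finset.prod_mul_distrib]

/-- generic exchange of sums -/
theorem sum_double (β F Φ : ZMod M → ℝ) (p : ℕ) :
    ∑ s : Fin p → ZMod M, ∑ t, ∑ t', (β t * ∏ i, F (s i + t)) * (β t' * ∏ i, F (s i + t')) *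
      Φ (t - t') = ∑ t, ∑ t', β t * β t' * (cr F F (t - t') ^ p * Φ (t - t')) := by
  rw [Finset.sum_comm]
  refine Finset.sum_congr rfl fun t _ => ?_
  rw [Finset.sum_comm]
  refine Finset.sum_congr rfl fun t' _ => ?_
  rw [← sum_prod, Finset.sum_mul, Finset.mul_sum]
  refine Finset.sum_congr rfl fun s _ => ?_
  ring

theorem sum_Nsf_sq (β F : ZMod M → ℝ) (p : ℕ) :
    ∑ s : Fin p → ZMod M, Nsf β F s ^ 2 = Mom β (cr F F) p := by
  have h := sum_double β F (fun _ => 1) p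
  unfold Mom
  simp only [mul_one] at h
  rw [← h]
  refine Finset.sum_congr rfl fun s _ => ?_
  unfold Nsf
  rw [sq, Finset.sum_mul_sum]

theorem sum_Psi (β F : ZMod M → ℝ) (hβ : ∀ x, 0 ≤ β x) (hF : ∀ x, 0 ≤ F x) {p : ℕ}
    (hp : 1 ≤ p) {F₀ δ : ℝ} (hF₀ : 0 < F₀)
    (h1 : F₀ * Mom β (cr F F) (p - 1) ≤ Mom β (cr F F) p)
    (h2 : Mom β (cr F F) (p + 1) ≤ (1 + δ) * F₀ * Mom β (cr F F) p) :
    ∑ s : Fin p → ZMod M, ∑ t, ∑ t', (β t * ∏ i, F (s i + t)) * (β t' * ∏ i, F (s i + t')) *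
      ((cr F F (t - t') - F₀) ^ 2 / (F₀ * cr F F (t - t'))) ≤ δ * Mom β (cr F F) p := by
  rw [sum_double β F (fun w => (cr F F w - F₀) ^ 2 / (F₀ * cr F F w)) p]
  obtain ⟨q, rfl⟩ : ∃ q, p = q + 1 := ⟨p - 1, by omega⟩
  have e1 : q + 1 - 1 = q := by omega
  rw [e1] at h1
  have key : ∑ t, ∑ t', β t * β t' * (cr F F (t - t') ^ (q + 1) *
        ((cr F F (t - t') - F₀) ^ 2 / (F₀ * cr F F (t - t')))) ≤
      ∑ t, ∑ t', (F₀⁻¹ * (β t * β t' * cr F F (t - t') ^ (q + 1 + 1)) -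
        2 * (β t * β t' * cr F F (t - t') ^ (q + 1)) +
        F₀ * (β t * β t' * cr F F (t - t') ^ q)) := by
    refine Finset.sum_le_sum fun t _ => Finset.sum_le_sum fun t' _ => ?_
    have hc := cr_nonneg hF (t - t')
    have hbb : 0 ≤ β t * β t' := mul_nonneg (hβ _) (hβ _)
    generalize cr F F (t - t') = x at hc
    have h3 : x ^ (q + 1) * ((x - F₀) ^ 2 / (F₀ * x)) ≤
        F₀⁻¹ * x ^ (q + 1 + 1) - 2 * x ^ (q + 1) + F₀ * x ^ q := by
      have e : F₀⁻¹ * x ^ (q + 1 + 1) - 2 * x ^ (q + 1) + F₀ * x ^ q =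
          x ^ q * ((x - F₀) ^ 2 / F₀) := by
        field_simp
        ring
      rw [e]
      rcases hc.eq_or_lt with h0 | h0
      · rw [← h0]
        simp only [zero_sub, mul_zero, div_zero, even_two, Even.neg_pow]
        positivity
      · apply le_of_eq
        field_simp
        ring
    calc β t * β t' * (x ^ (q + 1) * ((x - F₀) ^ 2 / (F₀ * x)))
        ≤ β t * β t' * (F₀⁻¹ * x ^ (q + 1 + 1) - 2 * x ^ (q + 1) + F₀ * x ^ q) :=
          mul_le_mul_of_nonneg_left h3 hbb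
      _ = _ := by ring
  refine key.trans ?_
  have e2 : ∑ t, ∑ t', (F₀⁻¹ * (β t * β t' * cr F F (t - t') ^ (q + 1 + 1)) -
        2 * (β t * β t' * cr F F (t - t') ^ (q + 1)) +
        F₀ * (β t * β t' * cr F F (t - t') ^ q)) =
      F₀⁻¹ * Mom β (cr F F) (q + 1 + 1) - 2 * Mom β (cr F F) (q + 1) +
        F₀ * Mom β (cr F F) q := by
    simp only [Mom, Finset.sum_add_distrib, Finset.sum_sub_distrib, Finset.mul_sum]
  rw [e2]
  have h4 : F₀⁻¹ * Mom β (cr F F) (q + 1 + 1) ≤ (1 + δ) * Mom β (cr F F) (q + 1) := by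
    calc F₀⁻¹ * Mom β (cr F F) (q + 1 + 1)
        ≤ F₀⁻¹ * ((1 + δ) * F₀ * Mom β (cr F F) (q + 1)) :=
          mul_le_mul_of_nonneg_left h2 (by positivity)
      _ = _ := by field_simp
  linarith

/-- `∑_s b(s) F(s+t) ≤ e^{θ N(t)/2} α` -/
theorem sum_sb_FA {N : ZMod M → ℝ} (hN : IsNrm N) {θ : ℝ} (hθ : 0 ≤ θ)
    (A : Finset (ZMod M)) (t : ZMod M) :
    ∑ s, sb N θ s * FA N θ A (s + t) ≤ Real.exp (θ * N t / 2) * al N θ A := by
  rw [← Equiv.sum_comp (Equiv.subRight t) (fun s => sb N θ s * FA N θ A (s + t))]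
  unfold al
  rw [Finset.mul_sum]
  refine Finset.sum_le_sum fun y _ => ?_
  simp only [Equiv.subRight_apply, sub_add_cancel]
  have h1 := sb_shift hN hθ y (-t)
  rw [hN.neg, ← sub_eq_add_neg] at h1
  have h2 : sb N θ y * sb N θ y = bt N θ y := Real.mul_self_sqrt (bt_pos N θ y).le
  unfold FA
  calc sb N θ (y - t) * (ind A y * sb N θ y)
      ≤ (Real.exp (θ * N t / 2) * sb N θ y) * (ind A y * sb N θ y) :=
        mul_le_mul_of_nonneg_right h1 (mul_nonneg (ind_nonneg A y) (sb_pos N θ y).le)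
    _ = Real.exp (θ * N t / 2) * (sb N θ y * sb N θ y * ind A y) := by ring
    _ = _ := by rw [h2]

theorem sum_Nsf_sb (β F b : ZMod M → ℝ) (p : ℕ) :
    ∑ s : Fin p → ZMod M, Nsf β F s * ∏ i, b (s i) = ∑ t, β t * (∑ s, b s * F (s + t)) ^ p := by
  unfold Nsf
  simp only [Finset.sum_mul]
  rw [Finset.sum_comm]
  refine Finset.sum_congr rfl fun t _ => ?_
  rw [Fintype.sum_pow, Finset.mul_sum]
  refine Finset.sum_congr rfl fun s _ => ?_
  rw [Finset.prod_mul_distrib]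
  ring

theorem al_nonneg (N : ZMod M → ℝ) (θ : ℝ) (A : Finset (ZMod M)) : 0 ≤ al N θ A :=
  Finset.sum_nonneg fun x _ => mul_nonneg (bt_pos N θ x).le (ind_nonneg A x)

theorem bad_mass {N N' : ZMod M → ℝ} {D : ℝ} (hN : IsNrm N) (hN' : IsNrm N')
    (hD' : Dbl N' D) (hD0 : 0 ≤ D) (hle : ∀ x, N x ≤ 2 * N' x) {θ θ₁ : ℝ} (hθ : 0 < θ)
    (hθ₁ : 0 < θ₁) (A : Finset (ZMod M)) {p : ℕ} (hp : 1 ≤ p)
    (hpθ : 4 * (D + 1) * p * θ ≤ θ₁) :
    ∑ s : Fin p → ZMod M, Nsf (bt N' θ₁) (FA N θ A) s * ∏ i, sb N θ (s i) ≤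
      (17 / 10) * al N θ A ^ p := by
  rw [sum_Nsf_sb]
  have hp0 : (0 : ℝ) < p := by exact_mod_cast hp
  have h1 : ∀ t, bt N' θ₁ t * (∑ s, sb N θ s * FA N θ A (s + t)) ^ p ≤
      al N θ A ^ p * (bt N' θ₁ t * Real.exp (p * θ * N' t)) := by
    intro t
    have ha : (∑ s, sb N θ s * FA N θ A (s + t)) ^ p ≤
        (Real.exp (θ * N' t) * al N θ A) ^ p := by
      refine pow_le_pow_left₀ (Finset.sum_nonneg fun s _ => mul_nonneg (sb_pos N θ s).le
        (FA_nonneg N θ A _)) ?_ p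
      refine (sum_sb_FA hN hθ.le A t).trans ?_
      refine mul_le_mul_of_nonneg_right ?_ (al_nonneg N θ A)
      refine Real.exp_le_exp.2 ?_
      have := hle t
      nlinarith
    calc bt N' θ₁ t * (∑ s, sb N θ s * FA N θ A (s + t)) ^ p
        ≤ bt N' θ₁ t * (Real.exp (θ * N' t) * al N θ A) ^ p :=
          mul_le_mul_of_nonneg_left ha (bt_pos N' θ₁ t).le
      _ = al N θ A ^ p * (bt N' θ₁ t * Real.exp (θ * N' t) ^ p) := by
          rw [mul_pow]; ring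
      _ = _ := by
          rw [← Real.exp_nat_mul]
          ring_nf
  calc ∑ t, bt N' θ₁ t * (∑ s, sb N θ s * FA N θ A (s + t)) ^ p
      ≤ ∑ t, al N θ A ^ p * (bt N' θ₁ t * Real.exp (p * θ * N' t)) :=
        Finset.sum_le_sum fun t _ => h1 t
    _ = al N θ A ^ p * ∑ t, bt N' θ₁ t * Real.exp (p * θ * N' t) := by rw [Finset.mul_sum]
    _ ≤ al N θ A ^ p * (17 / 10) := by
        refine mul_le_mul_of_nonneg_left ?_ (pow_nonneg (al_nonneg N θ A) p)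
        have hs2 : 2 * (p * θ) ≤ θ₁ := by
          have : 0 ≤ D * p * θ := by positivity
          have : 0 ≤ (p : ℝ) * θ := by positivity
          nlinarith
        refine (bt_exp hN' hD' hθ₁ (by positivity) hs2).trans ?_
        have h3 : 2 * (p * θ) * D / θ₁ ≤ 1 / 2 := by
          rw [div_le_iff₀ hθ₁]
          have : 0 ≤ (p : ℝ) * θ := by positivity
          nlinarith
        have h4 : Real.exp (1 / 2) ≤ 17 / 10 := by
          have h5 : Real.exp (1 / 2) ^ 2 = Real.exp 1 := by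
            rw [← Real.exp_nat_mul]; norm_num
          have h6 := Real.exp_one_lt_d9
          have h7 : Real.exp (1 / 2) ^ 2 ≤ (17 / 10) ^ 2 := by rw [h5]; linarith
          exact (pow_le_pow_iff_left₀ (Real.exp_pos _).le (by norm_num) two_ne_zero).1 h7
        exact (Real.exp_le_exp.2 h3).trans h4
    _ = _ := by ring

end Sift1

open Sift1 in
/-- [S1] there is a good sifting vector -/
theorem sift1 {N N' : ZMod M → ℝ} {D : ℝ} (hN : IsNrm N) (hN' : IsNrm N')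
    (hD' : Dbl N' D) (hD0 : 0 ≤ D) (hle : ∀ x, N x ≤ 2 * N' x) {θ θ₁ : ℝ} (hθ : 0 < θ)
    (hθ₁ : 0 < θ₁) (A : Finset (ZMod M)) (hα : 0 < al N θ A) {p : ℕ} (hp : 1 ≤ p)
    (hpθ : 4 * (D + 1) * p * θ ≤ θ₁) {F₀ : ℝ} (hF₀ : 0 < F₀)
    (h1 : F₀ * Mom (bt N' θ₁) (cr (FA N θ A) (FA N θ A)) (p - 1) ≤
      Mom (bt N' θ₁) (cr (FA N θ A) (FA N θ A)) p)
    (h2 : Mom (bt N' θ₁) (cr (FA N θ A) (FA N θ A)) (p + 1) ≤
      (1 + 1 / (3 * 10 ^ 9)) * F₀ * Mom (bt N' θ₁) (cr (FA N θ A) (FA N θ A)) p)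
    (h3 : (al N θ A ^ 2) ^ p ≤ Mom (bt N' θ₁) (cr (FA N θ A) (FA N θ A)) p) :
    ∃ s : Fin p → ZMod M, 0 < Nsf (bt N' θ₁) (FA N θ A) s ∧
      al N θ A ^ p / 8 * ∏ i, sb N θ (s i) ≤ Nsf (bt N' θ₁) (FA N θ A) s ∧
      ∑ t, ∑ t', (bt N' θ₁ t * ∏ i, FA N θ A (s i + t)) *
          (bt N' θ₁ t' * ∏ i, FA N θ A (s i + t')) *
          ((cr (FA N θ A) (FA N θ A) (t - t') - F₀) ^ 2 /
            (F₀ * cr (FA N θ A) (FA N θ A) (t - t'))) ≤
        1 / (2 * 10 ^ 9) * Nsf (bt N' θ₁) (FA N θ A) s ^ 2 := by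
  classical
  have hbad := bad_mass hN hN' hD' hD0 hle hθ hθ₁ A hp hpθ
  have hΨ := sum_Psi (bt N' θ₁) (FA N θ A) (fun x => (bt_pos N' θ₁ x).le)
    (FA_nonneg N θ A) hp hF₀ h1 h2
  have hsq := sum_Nsf_sq (bt N' θ₁) (FA N θ A) p
  have hF := FA_nonneg N θ A
  have hb := sb_pos N θ
  have hcr := cr_nonneg hF
  have hβ := fun x => (bt_pos N' θ₁ x).le
  have hNn : ∀ s : Fin p → ZMod M, 0 ≤ Nsf (bt N' θ₁) (FA N θ A) s := fun s =>
    Finset.sum_nonneg fun t _ => mul_nonneg (hβ t) (Finset.prod_nonneg fun i _ => hF _)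
  set m := Mom (bt N' θ₁) (cr (FA N θ A) (FA N θ A)) p with hm
  set Nn : (Fin p → ZMod M) → ℝ := fun s => Nsf (bt N' θ₁) (FA N θ A) s with hNs
  set Db : (Fin p → ZMod M) → ℝ := fun s => ∑ t, ∑ t',
    (bt N' θ₁ t * ∏ i, FA N θ A (s i + t)) * (bt N' θ₁ t' * ∏ i, FA N θ A (s i + t')) *
          ((cr (FA N θ A) (FA N θ A) (t - t') - F₀) ^ 2 /
            (F₀ * cr (FA N θ A) (FA N θ A) (t - t'))) with hDb
  set B : (Fin p → ZMod M) → ℝ := fun s => ∏ i, sb N θ (s i) with hB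
  have hDn : ∀ s, 0 ≤ Db s := by
    intro s
    refine Finset.sum_nonneg fun t _ => Finset.sum_nonneg fun t' _ => ?_
    have q1 : 0 ≤ ∏ i, FA N θ A (s i + t) := Finset.prod_nonneg fun i _ => hF _
    have q2 : 0 ≤ ∏ i, FA N θ A (s i + t') := Finset.prod_nonneg fun i _ => hF _
    have q3 := hcr (t - t')
    have q4 := hβ t
    have q5 := hβ t'
    positivity
  have hBp : ∀ s, 0 < B s := fun s => Finset.prod_pos fun i _ => hb _
  have hap : 0 < al N θ A ^ p := pow_pos hα p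
  by_contra hcon
  push Not at hcon
  have hgood : ∀ s, al N θ A ^ p / 8 * B s ≤ Nn s → 1 / (2 * 10 ^ 9) * Nn s ^ 2 < Db s := by
    intro s hs
    refine hcon s ?_ hs
    exact lt_of_lt_of_le (mul_pos (by positivity) (hBp s)) hs
  have hpt : ∀ s, 1 / (2 * 10 ^ 9) * Nn s ^ 2 ≤
      Db s + 1 / (2 * 10 ^ 9) * (al N θ A ^ p / 8 * (Nn s * B s)) := by
    intro s
    rcases le_or_gt (al N θ A ^ p / 8 * B s) (Nn s) with hs | hs
    · have h5 := hgood s hs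
      have h6 : 0 ≤ Nn s * B s := mul_nonneg (hNn s) (hBp s).le
      have h7 : 0 ≤ 1 / (2 * 10 ^ 9) * (al N θ A ^ p / 8 * (Nn s * B s)) := by positivity
      linarith
    · have h5 : Nn s ^ 2 ≤ al N θ A ^ p / 8 * (Nn s * B s) := by
        have := mul_le_mul_of_nonneg_left hs.le (hNn s)
        calc Nn s ^ 2 = Nn s * Nn s := sq _
          _ ≤ Nn s * (al N θ A ^ p / 8 * B s) := this
          _ = _ := by ring
      have h6 := hDn s
      have h7 : 1 / (2 * 10 ^ 9) * Nn s ^ 2 ≤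
          1 / (2 * 10 ^ 9) * (al N θ A ^ p / 8 * (Nn s * B s)) :=
        mul_le_mul_of_nonneg_left h5 (by norm_num)
      linarith
  have hsum := Finset.sum_le_sum (s := Finset.univ) fun s _ => hpt s
  rw [Finset.sum_add_distrib, ← Finset.mul_sum, ← Finset.mul_sum, ← Finset.mul_sum, hsq] at hsum
  have h8 : al N θ A ^ p / 8 * ∑ s, Nn s * B s ≤ 17 / 80 * m := by
    calc al N θ A ^ p / 8 * ∑ s, Nn s * B s ≤ al N θ A ^ p / 8 * (17 / 10 * al N θ A ^ p) :=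
          mul_le_mul_of_nonneg_left hbad (by positivity)
      _ = 17 / 80 * (al N θ A ^ 2) ^ p := by
          rw [← pow_mul, mul_comm 2 p, pow_mul]; ring
      _ ≤ 17 / 80 * m := mul_le_mul_of_nonneg_left h3 (by norm_num)
  have hmp : 0 < m := lt_of_lt_of_le (by positivity) h3
  have h9 : ∑ s, Db s ≤ 1 / (3 * 10 ^ 9) * m := hΨ
  have h10 : (1 : ℝ) / (2 * 10 ^ 9) * (al N θ A ^ p / 8 * ∑ s, Nn s * B s) ≤
      1 / (2 * 10 ^ 9) * (17 / 80 * m) := mul_le_mul_of_nonneg_left h8 (by norm_num)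
  have h11 : (1 : ℝ) / (2 * 10 ^ 9) * m ≤ 1 / (3 * 10 ^ 9) * m + 1 / (2 * 10 ^ 9) * (17 / 80 * m) := by
    linarith
  have h12 : (0 : ℝ) < (1 / (2 * 10 ^ 9) - 1 / (3 * 10 ^ 9) - 1 / (2 * 10 ^ 9) * (17 / 80)) * m := by
    refine mul_pos ?_ hmp
    norm_num
  linarith

end Vale.Agent.P057R3
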