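import Vale.Agent.P057R3.Defs

/-!
Skeleton (all statements, no proofs).  Each piece is proved in its own file and
must have exactly the statement given here (inside its own sub-namespace or file,
same theorem name).  Provers import the file `Defs` and, when they need pieces of
other people, this file `Skel` (temporarily).
-/

namespace Vale.Agent.P057R3.Skel

open Finset Vale.Agent.P057R3

variable {M : ℕ} [NeZero M]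

/-! ### [W] Weights.lean: abstract weights -/

theorem Zf_pos (N : ZMod M → ℝ) (θ : ℝ) : 0 < Zf N θ := by sorry

theorem bt_pos (N : ZMod M → ℝ) (θ : ℝ) (x : ZMod M) : 0 < bt N θ x := by sorry

theorem bt_pw (N : ZMod M → ℝ) (θ : ℝ) : PW (bt N θ) := by sorry

theorem bt_neg {N : ZMod M → ℝ} (hN : IsNrm N) (θ : ℝ) (x : ZMod M) :
    bt N θ (-x) = bt N θ x := by sorry

theorem bt_le {N : ZMod M → ℝ} (hN : IsNrm N) {θ : ℝ} (hθ : 0 ≤ θ) (x : ZMod M) :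
    bt N θ x ≤ 1 / Zf N θ := by sorry

theorem bt_shift {N : ZMod M → ℝ} (hN : IsNrm N) {θ : ℝ} (hθ : 0 ≤ θ) (x t : ZMod M) :
    bt N θ (x + t) ≤ Real.exp (θ * N t) * bt N θ x := by sorry

theorem sb_shift {N : ZMod M → ℝ} (hN : IsNrm N) {θ : ℝ} (hθ : 0 ≤ θ) (x t : ZMod M) :
    sb N θ (x + t) ≤ Real.exp (θ * N t / 2) * sb N θ x := by sorry

/-- tilting -/
theorem bt_tilt (N : ZMod M → ℝ) (θ s : ℝ) (x : ZMod M) :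
    bt N θ x * Real.exp (s * N x) = (Zf N (θ - s) / Zf N θ) * bt N (θ - s) x := by sorry

theorem Zf_ratio {N : ZMod M → ℝ} {D : ℝ} (hN : IsNrm N) (hD : Dbl N D) {θ s : ℝ}
    (hθ : 0 < θ) (hs : 0 ≤ s) (hs2 : 2 * s ≤ θ) :
    Zf N (θ - s) / Zf N θ ≤ Real.exp (2 * s * D / θ) := by sorry

theorem bt_exp {N : ZMod M → ℝ} {D : ℝ} (hN : IsNrm N) (hD : Dbl N D) {θ s : ℝ}
    (hθ : 0 < θ) (hs : 0 ≤ s) (hs2 : 2 * s ≤ θ) :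
    ∑ x, bt N θ x * Real.exp (s * N x) ≤ Real.exp (2 * s * D / θ) := by sorry

theorem bt_mean {N : ZMod M → ℝ} {D : ℝ} (hN : IsNrm N) (hD : Dbl N D) {θ : ℝ}
    (hθ : 0 < θ) : ∑ x, bt N θ x * N x ≤ 2 * D / θ := by sorry

theorem bt_exp_neg {N : ZMod M → ℝ} {D : ℝ} (hN : IsNrm N) (hD : Dbl N D) {θ s : ℝ}
    (hθ : 0 < θ) (hs : 0 ≤ s) :
    Real.exp (-(2 * s * D / θ)) ≤ ∑ x, bt N θ x * Real.exp (-(s * N x)) := by sorry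

theorem bt_tail {N : ZMod M → ℝ} {D : ℝ} (hN : IsNrm N) (hD : Dbl N D) {θ : ℝ}
    (hθ : 0 < θ) (a : ℝ) :
    (∑ x, if a ≤ N x then bt N θ x else 0) ≤ Real.exp (D - θ * a / 2) := by sorry

theorem bt_smooth {N : ZMod M → ℝ} {D : ℝ} (hN : IsNrm N) (hD : Dbl N D) {θ θ' : ℝ}
    (hθ : 0 ≤ θ) (hθ' : 0 < θ') {g : ZMod M → ℝ} (hg : ∀ x, 0 ≤ g x) :
    ∑ x, bt N θ x * g x ≤
      Real.exp (2 * θ * D / θ') * ∑ x, ∑ t, bt N θ x * bt N θ' t * g (x + t) := by sorry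

/-! ### [G] Bohr.lean: the concrete weights `NG Γ` -/

theorem isNrm_NG (Γ : Multiset (ZMod M)) : IsNrm (NG Γ) := by sorry

theorem NG_add (Γ Γ' : Multiset (ZMod M)) (x : ZMod M) :
    NG (Γ + Γ') x = NG Γ x + NG Γ' x := by sorry

theorem dbl_NG (Γ : Multiset (ZMod M)) : Dbl (NG Γ) (4 * (Multiset.card Γ : ℝ)) := by sorry

theorem Zf_NG_ge (Γ : Multiset (ZMod M)) {θ : ℝ} (hθ : 1 ≤ θ) :
    (M : ℝ) ≤ (20 * θ) ^ (Multiset.card Γ) * Zf (NG Γ) θ := by sorry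

theorem norm_one_sub_char_le (y : ZMod M) : ‖1 - ZMod.stdAddChar y‖ ≤ 7 * nrm y := by sorry

/-! ### [H] Half.lean: halving -/

theorem isNrm_hf {N : ZMod M → ℝ} (hN : IsNrm N) : IsNrm (hf N) := by sorry

theorem dbl_hf (hM : Odd M) {N : ZMod M → ℝ} {D : ℝ} (hD : Dbl N D) : Dbl (hf N) D := by sorry

theorem le_hf (hM : Odd M) {N : ZMod M → ℝ} (hN : IsNrm N) (x : ZMod M) :
    N x ≤ 2 * hf N x := by sorry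

theorem hf_NG (Γ : Multiset (ZMod M)) :
    hf (NG Γ) = NG (Γ.map fun r => r * (2 : ZMod M)⁻¹) := by sorry

/-! ### [C] Centre.lean: a centre good for two scales -/

theorem centre {N : ZMod M → ℝ} {D : ℝ} (hN : IsNrm N) (hD : Dbl N D)
    {θ₀ θa θb α κ η : ℝ} (hθ₀ : 0 < θ₀) (hθa : 0 < θa) (hθb : 0 < θb)
    (ha : 2 * D * θ₀ ≤ κ * θa) (hb : 2 * D * θ₀ ≤ κ * θb)
    (A : Finset (ZMod M)) (c₀ : ZMod M) (hα0 : 0 ≤ α) (hα : α ≤ dens N θ₀ A c₀)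
    (h1 : ∀ c, dens N θa A c ≤ (1 + η) * α) (h2 : ∀ c, dens N θb A c ≤ (1 + η) * α) :
    ∃ c, (1 - η - 2 * κ) * α ≤ dens N θa A c ∧ (1 - η - 2 * κ) * α ≤ dens N θb A c := by
  sorry

/-! ### [L] Lift.lean: no progressions gives a large `p`-norm -/

theorem lift {N : ZMod M → ℝ} {D : ℝ} (hN : IsNrm N) (hD : Dbl N D) {θ θ₂ : ℝ}
    (hθ : 0 < θ) (hθ₂ : 0 < θ₂) {A : Finset (ZMod M)} (hfree : ThreeAPFree (A : Set (ZMod M)))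
    {p : ℕ} (hp : Even p) {a₂ : ℝ} (ha₂ : a₂ ≤ al N θ₂ A)
    (htail : Real.exp (D - θ₂ / (2000 * θ)) ≤ a₂ / 2)
    (hZ : 1 / Zf N θ ≤ al N θ A ^ 2 / 1000) :
    a₂ / 2 * ((997 / 1000) * al N θ A ^ 2) ^ p ≤
      ∑ z, bt N θ₂ z * (cv (HA N θ A) (HA N θ A) (2 * z)) ^ p := by sorry

/-! ### [E] Decouple.lean -/

theorem Mom_cr_nonneg (β h : ZMod M → ℝ) (j : ℕ) : 0 ≤ Mom β (cr h h) j := by sorry

theorem decouple (hM : Odd M) {N : ZMod M → ℝ} {D : ℝ} (hN : IsNrm N) (hD : Dbl N D)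
    {θ₂ θ₁ : ℝ} (hθ₂ : 0 < θ₂) (hθ₁ : 0 < θ₁) (h12 : 8 * D * θ₂ ≤ θ₁) (h : ZMod M → ℝ)
    {p : ℕ} (hp : Even p) :
    ∑ z, bt N θ₂ z * (cv h h (2 * z)) ^ p ≤ 2 * Mom (bt (hf N) θ₁) (cr h h) p := by sorry

/-! ### [U] Unbalance.lean -/

theorem unbalance {N N' : ZMod M → ℝ} {D : ℝ} (hN : IsNrm N) (hN' : IsNrm N')
    (hD' : Dbl N' D) (hle : ∀ x, N x ≤ 2 * N' x) {θ θ₁ : ℝ} (hθ : 0 < θ) (hθ₁ : 0 < θ₁)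
    (A : Finset (ZMod M)) (hα : 0 < al N θ A) {p : ℕ} (hp : Even p) (hp2 : 2 ≤ p)
    (htail : 2 * Real.exp (D - θ₁ / (8000 * θ)) * (2 / al N θ A ^ 2) ^ (6 * p) ≤ 1)
    (hmom : (al N θ A ^ 2 / 2) ^ p ≤ Mom (bt N' θ₁) (cr (HA N θ A) (HA N θ A)) p) :
    ((11 / 10) * al N θ A ^ 2) ^ (6 * p) ≤
      Mom (bt N' θ₁) (cr (FA N θ A) (FA N θ A)) (6 * p) := by sorry

/-! ### [M] Moments.lean: moments of `F ∘ F` -/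

theorem Mom_zero {β : ZMod M → ℝ} (hβ : PW β) (f : ZMod M → ℝ) : Mom β f 0 = 1 := by sorry

theorem Mom_logconvex {β f : ZMod M → ℝ} (hβ : ∀ x, 0 ≤ β x) (hf0 : ∀ x, 0 ≤ f x) (j : ℕ) :
    Mom β f (j + 1) ^ 2 ≤ Mom β f j * Mom β f (j + 2) := by sorry

theorem Mom_FA_pos (N' N : ZMod M → ℝ) (θ₁ θ : ℝ) (A : Finset (ZMod M))
    (hα : 0 < al N θ A) (j : ℕ) : 0 < Mom (bt N' θ₁) (cr (FA N θ A) (FA N θ A)) j := by sorry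

theorem Mom_FA_succ_le (N' N : ZMod M → ℝ) (θ₁ θ : ℝ) (A : Finset (ZMod M)) (j : ℕ) :
    Mom (bt N' θ₁) (cr (FA N θ A) (FA N θ A)) (j + 1) ≤
      al N θ A * Mom (bt N' θ₁) (cr (FA N θ A) (FA N θ A)) j := by sorry

/-- pure real sequence lemma -/
theorem nearConst {m : ℕ → ℝ} (hpos : ∀ j, 0 < m j) (h0 : m 0 = 1)
    (hlc : ∀ j, m (j + 1) ^ 2 ≤ m j * m (j + 2)) {a : ℝ} (ha : 0 < a) (ha1 : a ≤ 1)
    (hle : ∀ j, m (j + 1) ≤ a * m j) {P : ℕ} (hP : 1 ≤ P)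
    (hbig : ((11 / 10) * a ^ 2) ^ P ≤ m P) :
    ∃ p : ℕ, P ≤ p ∧ (p : ℝ) ≤ P + 10 ^ 10 * (1 + Real.log (1 / a)) ∧
      m (p + 1) * m (p - 1) ≤ (1 + 1 / (3 * 10 ^ 9)) * m p ^ 2 ∧
      (11 / 10) * a ^ 2 * m (p - 1) ≤ m p ∧ ((11 / 10) * a ^ 2) ^ p ≤ m p := by sorry

/-! ### [S1] Sift1.lean, [S2] Sift2.lean -/

/-- [S1] there is a good sifting vector -/
theorem sift1 {N N' : ZMod M → ℝ} {D : ℝ} (hN : IsNrm N) (hN' : IsNrm N')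
    (hD' : Dbl N' D) (hD0 : 0 ≤ D) (hle : ∀ x, N x ≤ 2 * N' x) {θ θ₁ : ℝ} (hθ : 0 < θ)
    (hθ₁ : 0 < θ₁) (A : Finset (ZMod M)) (hα : 0 < al N θ A) {p : ℕ} (hp : 1 ≤ p)
    (hpθ : 4 * (D + 1) * p * θ ≤ θ₁) {F₀ : ℝ} (hF₀ : 0 < F₀)
    (h1 : F₀ * Mom (bt N' θ₁) (cr (FA N θ A) (FA N θ A)) (p - 1) ≤
      Mom (bt N' θ₁) (cr (FA N θ A) (FA N θ A)) p)
    (h2 : Mom (bt N' θ₁) (cr (FA N θ A) (FA N θ A)) (p + 1) ≤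
      (1 + 1 / (3 * 10 ^ 9)) * F₀ * Mom (bt N' θ₁) (cr (FA N θ A) (FA N θ A)) p)
    (h3 : (al N θ A ^ 2) ^ p ≤ Mom (bt N' θ₁) (cr (FA N θ A) (FA N θ A)) p) :
    ∃ s : Fin p → ZMod M, 0 < Nsf (bt N' θ₁) (FA N θ A) s ∧
      al N θ A ^ p / 8 * ∏ i, sb N θ (s i) ≤ Nsf (bt N' θ₁) (FA N θ A) s ∧
      ∑ t, ∑ t', (bt N' θ₁ t * ∏ i, FA N θ A (s i + t)) *
          (bt N' θ₁ t' * ∏ i, FA N θ A (s i + t')) *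
          ((cr (FA N θ A) (FA N θ A) (t - t') - F₀) ^ 2 /
            (F₀ * cr (FA N θ A) (FA N θ A) (t - t'))) ≤
        1 / (2 * 10 ^ 9) * Nsf (bt N' θ₁) (FA N θ A) s ^ 2 := by sorry

/-- [S2] conclusion of the sifting (uses [S1]) -/
theorem sift {N N' : ZMod M → ℝ} {D : ℝ} (hN : IsNrm N) (hN' : IsNrm N')
    (hD' : Dbl N' D) (hD0 : 0 ≤ D) (hle : ∀ x, N x ≤ 2 * N' x) {θ θ₁ : ℝ} (hθ : 0 < θ)
    (hθ₁ : 0 < θ₁) (A : Finset (ZMod M)) (hα : 0 < al N θ A) {p : ℕ} (hp : 1 ≤ p)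
    (hpθ : 4 * (D + 1) * p * θ ≤ θ₁) {F₀ : ℝ} (hF₀ : 0 < F₀)
    (h1 : F₀ * Mom (bt N' θ₁) (cr (FA N θ A) (FA N θ A)) (p - 1) ≤
      Mom (bt N' θ₁) (cr (FA N θ A) (FA N θ A)) p)
    (h2 : Mom (bt N' θ₁) (cr (FA N θ A) (FA N θ A)) (p + 1) ≤
      (1 + 1 / (3 * 10 ^ 9)) * F₀ * Mom (bt N' θ₁) (cr (FA N θ A) (FA N θ A)) p)
    (h3 : (al N θ A ^ 2) ^ p ≤ Mom (bt N' θ₁) (cr (FA N θ A) (FA N θ A)) p) :
    ∃ lam : ZMod M → ℝ, PW lam ∧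
      (∀ t, lam t ≤ 16 * (1 / al N θ A) ^ p * bt N' (θ₁ - p * θ) t) ∧
      (∑ t, ∑ t', lam t * lam t' *
        (if cr (FA N θ A) (FA N θ A) (t - t') < (999 / 1000) * F₀ then (1 : ℝ) else 0))
          ≤ 1 / 2000 ∧
      pr lam (cr (FA N θ A) (FA N θ A)) 0 ≤ (1 + 2 / 1000) * F₀ ∧
      (1 - 2 / 1000) * F₀ ≤ pr lam (cr (FA N θ A) (FA N θ A)) 0 := by sorry

/-! ### [P] Sampling.lean: moments of an empirical mean -/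

theorem sampling {ι : Type} [Fintype ι] [DecidableEq ι] {μ φ : ι → ℝ} (hμ : ∀ x, 0 ≤ μ x)
    (hμ1 : ∑ x, μ x = 1) (hφ0 : ∀ x, 0 ≤ φ x) (hφ1 : ∀ x, φ x ≤ 1) {m q : ℕ} (hm : 1 ≤ m)
    (hq : Even q) (hq2 : 2 ≤ q) :
    ∑ a : Fin m → ι, (∏ i, μ (a i)) * ((∑ i, φ (a i)) / m - ∑ x, μ x * φ x) ^ q ≤
      (3 * q / m : ℝ) ^ (q / 2) := by sorry

/-! ### [X1] CS1.lean, [X2] CS2.lean -/

/-- [X1] (uses [P]) some fixed sample works for many shifts -/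
theorem cs_exists {N : ZMod M → ℝ} {D θp θ₅ : ℝ} (hN : IsNrm N) (hD : Dbl N D)
    (hD0 : 0 ≤ D) (hθp : 0 < θp) {q : ℕ} (hq : Even q) (hq2 : 2 ≤ q) {lam : ZMod M → ℝ}
    (hlam : PW lam) (hle : ∀ t, lam t ≤ Real.exp q * bt N θp t) (S : Finset (ZMod M))
    {ε : ℝ} (hε : 0 < ε) {m : ℕ} (hm : 1 ≤ m) (hmq : 12 * q ≤ ε ^ 2 * m)
    (hθ : 4 * (D + 1) * m * θp ≤ θ₅) :
    ∃ a : Fin m → ZMod M, 3 / 8 * Real.exp (-((q : ℝ) * m)) ≤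
      ∑ u, open Classical in
        (if ∑ x, bt N θp x * (emp S (fun i => a i + u) x - kf lam S x) ^ q ≤ ε ^ q
          then bt N θ₅ u else 0) := by sorry

/-- [X2] (uses [X1]) -/
theorem crootSisask {N : ZMod M → ℝ} {D θp θ₅ : ℝ} (hN : IsNrm N) (hD : Dbl N D)
    (hD0 : 0 ≤ D) (hθp : 0 < θp) {q : ℕ} (hq : Even q) (hq2 : 2 ≤ q) {lam : ZMod M → ℝ}
    (hlam : PW lam) (hle : ∀ t, lam t ≤ Real.exp q * bt N θp t)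
    (hθ : 10 ^ 12 * (D + 1) * (q : ℝ) ^ 2 * θp ≤ θ₅) (S : Finset (ZMod M))
    (hS : 1 - 1 / 2000 ≤ pr lam (ind S) 0) :
    ∃ X : Finset (ZMod M), Real.exp (-(10 ^ 12 * (q : ℝ) ^ 2)) ≤ ∑ u ∈ X, bt N θ₅ u ∧
      ∀ u ∈ X, ∀ u' ∈ X, 1 - 1 / 1000 ≤ pr lam (ind S) (u - u') := by sorry

/-! ### [F] Fourier.lean and Spectral.lean -/

theorem parseval (g : ZMod M → ℝ) : ∑ z, g z ^ 2 = (1 / M : ℝ) * ∑ r, ‖ft g r‖ ^ 2 := by sorry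

theorem ft_sm (μ g : ZMod M → ℝ) (r : ZMod M) :
    ft (sm μ g) r = (starRingEnd ℂ) (ft μ r) * ft g r := by sorry

theorem pr_cr_zero (lam F : ZMod M → ℝ) : pr lam (cr F F) 0 = ∑ z, sm lam F z ^ 2 := by sorry

theorem sum_pr_cr (lam xi F : ZMod M → ℝ) :
    ∑ u, ∑ u', xi u * xi u' * pr lam (cr F F) (u - u') = ∑ z, sm xi (sm lam F) z ^ 2 := by
  sorry

/-- spectral positivity: almost invariance under `X - X` gives almost invariance under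
any measure whose Fourier transform is close to one on the large spectrum of `X` -/
theorem spectral {F lam xi b₃ : ZMod M → ℝ} (hxi : PW xi) (hb₃ : PW b₃)
    (X : Finset (ZMod M)) (hX : ∀ u, u ∉ X → xi u = 0)
    (hinv : ∀ u ∈ X, ∀ u' ∈ X,
      (1 - 4 / 1000) * pr lam (cr F F) 0 ≤ pr lam (cr F F) (u - u'))
    (hb : ∀ r, 1 / 2 ≤ ‖ft xi r‖ ^ 2 → ‖1 - ft b₃ r‖ ≤ 1 / 1000) :
    (1 - 10 / 1000) * pr lam (cr F F) 0 ≤ ∑ z, sm b₃ (sm lam F) z ^ 2 := by sorry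

/-! ### [R] Riesz.lean and Chang.lean -/

theorem riesz {N : ZMod M → ℝ} {D : ℝ} (hN : IsNrm N) (hD : Dbl N D) (hD0 : 0 ≤ D)
    {θ₅ θ' : ℝ} (hθ₅ : 0 < θ₅) {Λ : Finset (ZMod M)} (hΛ : Dissoc (bt N θ') Λ)
    (hθ : 4 * (Λ.card : ℝ) * (D + 1) * θ₅ ≤ θ') (hθ' : 0 < θ') {c : ZMod M → ℂ}
    (hc : ∀ l, ‖c l‖ ≤ 1) :
    ∑ x, bt N θ₅ x * ∏ l ∈ Λ, (1 + (c l * ZMod.stdAddChar (l * x)).re / 2) ≤ 4 := by sorry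

theorem dissoc_card_le {N : ZMod M → ℝ} {D : ℝ} (hN : IsNrm N) (hD : Dbl N D) (hD0 : 0 ≤ D)
    {θ₅ θ' R : ℝ} (hθ₅ : 0 < θ₅) (hθ' : 0 < θ') (hR : 1 ≤ R) {X : Finset (ZMod M)}
    (hX : Real.exp (-R) ≤ ∑ u ∈ X, bt N θ₅ u) {Λ : Finset (ZMod M)}
    (hΛ : Dissoc (bt N θ') Λ) (hθ : 4 * (Λ.card : ℝ) * (D + 1) * θ₅ ≤ θ')
    (hspec : ∀ l ∈ Λ, 1 / 2 * (∑ u ∈ X, bt N θ₅ u) ^ 2 ≤
      ‖∑ u ∈ X, (bt N θ₅ u : ℂ) * ZMod.stdAddChar (l * u)‖ ^ 2) :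
    (Λ.card : ℝ) ≤ 24 * R := by sorry

theorem chang {N : ZMod M → ℝ} {D : ℝ} (hN : IsNrm N) (hD : Dbl N D) (hD0 : 0 ≤ D)
    {θ₅ θ' R : ℝ} (hθ₅ : 0 < θ₅) (hθ : 200 * R * (D + 1) * θ₅ ≤ θ') (hR : 1 ≤ R)
    {X : Finset (ZMod M)} (hX : Real.exp (-R) ≤ ∑ u ∈ X, bt N θ₅ u) :
    ∃ Λ : Finset (ZMod M), (Λ.card : ℝ) ≤ 24 * R ∧
      ∀ r, 1 / 2 * (∑ u ∈ X, bt N θ₅ u) ^ 2 ≤
          ‖∑ u ∈ X, (bt N θ₅ u : ℂ) * ZMod.stdAddChar (r * u)‖ ^ 2 →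
        ∀ x, ‖1 - ZMod.stdAddChar (r * x)‖ ≤ 7 * (θ' * N x + NG Λ.val x) := by sorry

/-! ### [V] DensUpper.lean -/

theorem densUpper {N N' N₃ : ZMod M → ℝ} {D D₃ : ℝ} (hN : IsNrm N) (hN' : IsNrm N')
    (hN₃ : IsNrm N₃) (hD' : Dbl N' D) (hD₃ : Dbl N₃ D₃) (hD0 : 0 ≤ D) (hD₃0 : 0 ≤ D₃)
    (hle : ∀ x, N x ≤ 2 * N' x) (hle₃ : ∀ x, N' x ≤ N₃ x) {θ θp θ₃ : ℝ} (hθ : 0 < θ)
    {q : ℕ} (hq : 1 ≤ q) {lam : ZMod M → ℝ} (hlam : PW lam)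
    (hlb : ∀ t, lam t ≤ Real.exp q * bt N' θp t)
    (hθp : 10 ^ 4 * (D + 1) * q * θ ≤ θp) (hθ₃ : 10 ^ 4 * (D₃ + 1) * θ ≤ θ₃)
    (A : Finset (ZMod M)) {Ds : ℝ} (hDs : ∀ c, dens N₃ (θ₃ - θ) A c ≤ Ds) :
    ∑ z, sm (bt N₃ θ₃) (sm lam (FA N θ A)) z ^ 2 ≤ (1 + 8 / 1000) * Ds * al N θ A := by
  sorry

end Vale.Agent.P057R3.Skel
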