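import Vale.Agent.P057R3.Defs

/-!
[W1] Elementary facts about the weights.
-/

namespace Vale.Agent.P057R3

open Finset

variable {M : ℕ} [NeZero M]

omit [NeZero M] in
theorem Weights1.wt_pos (N : ZMod M → ℝ) (θ : ℝ) (x : ZMod M) : 0 < wt N θ x := Real.exp_pos _

theorem Zf_pos (N : ZMod M → ℝ) (θ : ℝ) : 0 < Zf N θ :=
  Finset.sum_pos (fun x _ => Weights1.wt_pos N θ x) ⟨0, Finset.mem_univ 0⟩

theorem bt_pos (N : ZMod M → ℝ) (θ : ℝ) (x : ZMod M) : 0 < bt N θ x :=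
  div_pos (Weights1.wt_pos N θ x) (Zf_pos N θ)

theorem bt_pw (N : ZMod M → ℝ) (θ : ℝ) : PW (bt N θ) := by
  refine ⟨fun x => (bt_pos N θ x).le, ?_⟩
  unfold bt
  rw [← Finset.sum_div]
  exact div_self (Zf_pos N θ).ne'

theorem bt_neg {N : ZMod M → ℝ} (hN : IsNrm N) (θ : ℝ) (x : ZMod M) :
    bt N θ (-x) = bt N θ x := by
  unfold bt wt
  rw [hN.neg]

theorem bt_le {N : ZMod M → ℝ} (hN : IsNrm N) {θ : ℝ} (hθ : 0 ≤ θ) (x : ZMod M) :
    bt N θ x ≤ 1 / Zf N θ := by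
  unfold bt
  refine div_le_div_of_nonneg_right ?_ (Zf_pos N θ).le
  unfold wt
  have := mul_nonneg hθ (hN.nonneg x)
  exact Real.exp_le_one_iff.2 (by linarith)

theorem bt_shift {N : ZMod M → ℝ} (hN : IsNrm N) {θ : ℝ} (hθ : 0 ≤ θ) (x t : ZMod M) :
    bt N θ (x + t) ≤ Real.exp (θ * N t) * bt N θ x := by
  unfold bt wt
  rw [← mul_div_assoc, ← Real.exp_add]
  refine div_le_div_of_nonneg_right (Real.exp_le_exp.2 ?_) (Zf_pos N θ).le
  have h1 : N x ≤ N (x + t) + N t := by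
    have := hN.add (x + t) (-t)
    rw [hN.neg, add_neg_cancel_right] at this
    exact this
  nlinarith

theorem sb_shift {N : ZMod M → ℝ} (hN : IsNrm N) {θ : ℝ} (hθ : 0 ≤ θ) (x t : ZMod M) :
    sb N θ (x + t) ≤ Real.exp (θ * N t / 2) * sb N θ x := by
  unfold sb
  have h1 : Real.exp (θ * N t / 2) = Real.sqrt (Real.exp (θ * N t)) := by
    rw [Real.exp_half]
  rw [h1, ← Real.sqrt_mul (Real.exp_pos _).le]
  exact Real.sqrt_le_sqrt (bt_shift hN hθ x t)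

/-- tilting -/
theorem bt_tilt (N : ZMod M → ℝ) (θ s : ℝ) (x : ZMod M) :
    bt N θ x * Real.exp (s * N x) = (Zf N (θ - s) / Zf N θ) * bt N (θ - s) x := by
  unfold bt
  have h1 := (Zf_pos N θ).ne'
  have h2 := (Zf_pos N (θ - s)).ne'
  have h3 : wt N θ x * Real.exp (s * N x) = wt N (θ - s) x := by
    unfold wt
    rw [← Real.exp_add]
    congr 1; ring
  field_simp
  linarith

end Vale.Agent.P057R3
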